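import Vale.Agent.P167.H685.Q.ADefs
import Vale.Agent.P167.FK.Sym

/-!
# P167, general `q`, block Q-NSYM: translation of the states
-/

namespace Vale.Agent.P167.H685.Q

open Finset Vale.Agent.P167 Vale.Agent.P167.FK Vale.Agent.P167.FKA Relation
open Vale.Agent.P167.H558 (StopSet Past)
open Vale.Agent.P167.H318 (St TA TB Flat PO Lo HB J ex hit Visit CoConn Adj wt)

/-- the translated state -/
noncomputable def trS (p : ℤ × ℤ) (S : St) : St :=
  ⟨S.D.image (trV p), S.F.image (trV p), S.z ∘ (fun v => (v.1 + p.1, v.2 + p.2)), trE p S.e0⟩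

variable {p : ℤ × ℤ} {S : St} {ω : Cfg}

theorem mem_trV {A : Finset (ℤ × ℤ)} {v : ℤ × ℤ} :
    v ∈ A.image (trV p) ↔ (v.1 + p.1, v.2 + p.2) ∈ A := mem_im (trV p) A v

theorem trV_mem {A : Finset (ℤ × ℤ)} {v : ℤ × ℤ} : trV p v ∈ A.image (trV p) ↔ v ∈ A := by
  rw [mem_im, Equiv.symm_apply_apply]

theorem st_tr (hp : Even (p.1 + p.2)) (e : Ed) (ω : Cfg) (i : ℕ) :
    H318.st (trE p e) (ω ∘ (fun v => (v.1 + p.1, v.2 + p.2))) i = trE p (H318.st e ω i) := by
  induction i with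
  | zero => rfl
  | succ i ih =>
    rw [H318.Bs.st_succ, H318.Bs.st_succ, ih, (syP_tr p hp ω).n]

theorem hdv_tr (hp : Even (p.1 + p.2)) (e : Ed) : hdv (trE p e) = trV p (hdv e) :=
  (syP_tr p hp eta0).h e

theorem tlv_tr (hp : Even (p.1 + p.2)) (e : Ed) : tlv (trE p e) = trV p (tlv e) := by
  obtain ⟨e', rfl⟩ : ∃ e', e = nx eta0 e' := ⟨pv eta0 e, (nx_pv _ _).symm⟩
  rw [← (syP_tr p hp eta0).n, tlv_nx, tlv_nx, hdv_tr hp]

theorem hit_tr (hp : Even (p.1 + p.2)) (D : Finset (ℤ × ℤ)) (e : Ed) (A A' : Set (ℤ × ℤ)) (ω : Cfg)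
    (hA : ∀ v, trV p v ∈ A' ↔ v ∈ A) :
    hit (D.image (trV p)) (trE p e) A' (ω ∘ (fun v => (v.1 + p.1, v.2 + p.2))) = hit D e A ω := by
  unfold hit
  congr 1
  ext n
  simp only [Set.mem_ofPred_eq]
  rw [st_tr hp, hdv_tr hp, trV_mem, hA]

theorem ex_tr (hp : Even (p.1 + p.2)) (D : Finset (ℤ × ℤ)) (e : Ed) (ω : Cfg) :
    ex (D.image (trV p)) (trE p e) (ω ∘ (fun v => (v.1 + p.1, v.2 + p.2))) = ex D e ω :=
  hit_tr hp D e ∅ ∅ ω fun _ => Iff.rfl

theorem m_tr (hp : Even (p.1 + p.2)) : (trS p S).m = S.m :=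
  hit_tr hp S.D S.e0 (↑S.F) (↑(S.F.image (trV p))) S.z fun _ => by
    rw [Finset.mem_coe, Finset.mem_coe, trV_mem]

/-- translation invariance -/
theorem Ex_tr {Q : ℝ} (hQ : 0 < Q) (hp : Even (p.1 + p.2)) (F : Finset (ℤ × ℤ)) {z : Cfg}
    (hz : Good z) (Φ : Cfg → ℝ) :
    FK.Ex Q (F.image (trV p)) (z ∘ (fun v => (v.1 + p.1, v.2 + p.2))) Φ =
      FK.Ex Q F z (fun ω => Φ (ω ∘ (fun v => (v.1 + p.1, v.2 + p.2)))) := by
  have h := (sym_of (τ := fun v => (v.1 + p.1, v.2 + p.2)) (trV p) (fun _ => rfl) (trE p)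
    (fun ω => (syP_tr p hp ω).sy)).2 Q (F.image (trV p)) z Φ hQ hz
  rw [h]
  congr 1
  rw [Finset.image_image]
  ext v
  rw [Finset.mem_image]
  constructor
  · rintro ⟨u, hu, rfl⟩
    have : ((fun v : ℤ × ℤ => (v.1 + p.1, v.2 + p.2)) ∘ ⇑(trV p)) u = u :=
      Equiv.symm_apply_apply (trV p) u
    rw [this]
    exact hu
  · intro hv
    exact ⟨v, hv, Equiv.symm_apply_apply (trV p) v⟩

theorem good_tr (hp : Even (p.1 + p.2)) {z : Cfg} (hz : Good z) :
    Good (z ∘ (fun v => (v.1 + p.1, v.2 + p.2))) :=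
  (sym_of (τ := fun v => (v.1 + p.1, v.2 + p.2)) (trV p) (fun _ => rfl) (trE p)
    (fun ω => (syP_tr p hp ω).sy)).1 z hz

theorem wt_tr (hp : Even (p.1 + p.2)) (hp2 : p.2 = 0) (ψ ψ' : ℤ → ℝ) (h : ∀ x, ψ' x = ψ (x + p.1))
    (k : ℕ) (e : Ed) : wt ψ' k (trE p e) = wt ψ k e := by
  rcases e with v | v
  · have e1 : trE p (Sum.inl v) = Sum.inl (v.1 - p.1, v.2 - p.2) := rfl
    rw [e1]
    show (if 0 ≤ v.2 - p.2 ∧ v.2 - p.2 < (k : ℤ) then
      ψ' (v.1 - p.1 + 1) * (sg (Sum.inl (v.1 - p.1, v.2 - p.2)) : ℝ) else 0) =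
      if 0 ≤ v.2 ∧ v.2 < (k : ℤ) then ψ (v.1 + 1) * (sg (Sum.inl v) : ℝ) else 0
    rw [hp2, sub_zero, h, show v.1 - p.1 + 1 + p.1 = v.1 + 1 by ring]
    have e2 : sg (Sum.inl (v.1 - p.1, v.2)) = sg (Sum.inl v) := by
      rw [hp2, add_zero] at hp
      have e3 : Even (v.1 - p.1 + v.2) ↔ Even (v.1 + v.2) := by
        simp only [Int.even_iff] at hp ⊢
        omega
      simp only [sg, e3]
    rw [e2]
  · rfl

theorem J_tr (hp : Even (p.1 + p.2)) (hp2 : p.2 = 0) (ψ ψ' : ℤ → ℝ) (h : ∀ x, ψ' x = ψ (x + p.1))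
    (k : ℕ) (D : Finset (ℤ × ℤ)) (e : Ed) (ω : Cfg) :
    J (D.image (trV p)) (trE p e) ψ' k (ω ∘ (fun v => (v.1 + p.1, v.2 + p.2))) = J D e ψ k ω := by
  unfold J
  rw [ex_tr hp]
  refine Finset.sum_congr rfl fun i _ => ?_
  rw [st_tr hp, wt_tr hp hp2 ψ ψ' h]

theorem adj_tr {a b : ℤ × ℤ} (h : Adj a b) : Adj (trV p a) (trV p b) := by
  unfold Adj at h ⊢
  simp only [trV, Equiv.coe_fn_mk]
  omega

theorem co_tr {D : Finset (ℤ × ℤ)} (h : CoConn D) : CoConn (D.image (trV p)) := by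
  intro a b ha hb
  have ha' : ((trV p).symm a) ∉ D := fun h => ha (by
    rw [mem_im]
    exact h)
  have hb' : ((trV p).symm b) ∉ D := fun h => hb (by
    rw [mem_im]
    exact h)
  have h1 := h _ _ ha' hb'
  have h2 := ReflTransGen.lift (p := fun a b => Adj a b ∧ b ∉ D.image (trV p)) (trV p)
    (fun a b (hab : Adj a b ∧ b ∉ D) => ⟨adj_tr hab.1, fun h3 => hab.2 (trV_mem.1 h3)⟩) _ _ h1
  simp only [Function.onFun, Equiv.apply_symm_apply] at h2
  exact h2

/-- horizontal translation -/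
theorem trS_TC {a : ℤ} (ha : Even a) {l x ρ : ℤ} (h : TC S l x ρ) :
    TC (trS (a, 0) S) l (x - a) ρ := by
  have hp : Even ((a, (0 : ℤ)).1 + (a, (0 : ℤ)).2) := by simpa using ha
  have mD : ∀ v : ℤ × ℤ, v ∈ (trS (a, 0) S).D ↔ (v.1 + a, v.2 + 0) ∈ S.D := fun v => mem_trV
  have mF : ∀ v : ℤ × ℤ, v ∈ (trS (a, 0) S).F ↔ (v.1 + a, v.2 + 0) ∈ S.F := fun v => mem_trV
  have mz : ∀ v : ℤ × ℤ, (trS (a, 0) S).z v = S.z (v.1 + a, v.2 + 0) := fun v => rfl
  have hm : (trS (a, 0) S).m = S.m := m_tr hp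
  have hst : ∀ i, H318.st (trS (a, 0) S).e0 (trS (a, 0) S).z i = trE (a, 0) (H318.st S.e0 S.z i) :=
    fun i => st_tr hp S.e0 S.z i
  exact
    { sub := fun v hv => (mD v).2 (h.sub ((mF v).1 hv))
      co := co_tr h.co
      st := by
        intro h1
        have h2 : tlv (trS (a, 0) S).e0 = trV (a, 0) (tlv S.e0) := tlv_tr hp S.e0
        rw [h2] at h1
        exact h.st (trV_mem.1 h1)
      flat :=
        { mem := fun v hv => (mD v).2 (h.flat.mem _ ⟨by have := hv.1; dsimp only; omega,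
            by have := hv.2.1; dsimp only; omega, by have := hv.2.2.1; dsimp only; omega,
            by have := hv.2.2.2; dsimp only; omega⟩)
          not := fun y h1 h2 h3 => h.flat.not (y + a) (by omega) (by omega) (by
            have h4 := (mD _).1 h3
            simpa using h4) }
      fresh := fun v hv => (mF v).2 (h.fresh _ ⟨by have := hv.1; dsimp only; omega,
            by have := hv.2.1; dsimp only; omega, by have := hv.2.2.1; dsimp only; omega,
            by have := hv.2.2.2; dsimp only; omega⟩)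
      flat' :=
        { mem := fun v hv => (mD v).2 (h.flat'.mem _ ⟨by have := hv.1; dsimp only; omega,
            by have := hv.2.1; dsimp only; omega, by have := hv.2.2.1; dsimp only; omega,
            by have := hv.2.2.2; dsimp only; omega⟩)
          not := fun y h1 h2 h3 => h.flat'.not (y + a) (by omega) (by omega) (by
            have h4 := (mD _).1 h3
            simpa using h4) }
      po := by
        intro v hv
        rcases h.po (v.1 + a, v.2 + 0) ⟨by have := hv.1; dsimp only; omega,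
            by have := hv.2.1; dsimp only; omega, by have := hv.2.2.1; dsimp only; omega,
            by have := hv.2.2.2; dsimp only; omega⟩ with h1 | ⟨i, hi, h1⟩
        · exact Or.inl ((mF v).2 h1)
        · right
          refine ⟨i, by rw [hm]; exact hi, ?_⟩
          rw [hst, hdv_tr hp, h1]
          simp [trV]
      tip := by
        show H318.st (trS (a, 0) S).e0 (trS (a, 0) S).z (trS (a, 0) S).m = _
        rw [hm, hst]
        have h1 : H318.st S.e0 S.z S.m = Sum.inr (x, 4 * l - 1) := h.tip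
        rw [h1]
        simp [trE]
      ev := by
        have h1 := h.ev
        simp only [Int.even_iff] at ha h1 ⊢
        omega
      gq :=
        { good := good_tr hp h.gq.good
          row := fun v h1 h2 h3 h4 => by
            have h5 := h.gq.row (v.1 + a, v.2 + 0) (by dsimp only; omega) (by dsimp only; omega)
              (by dsimp only; omega) (by dsimp only; omega)
            exact ⟨fun h6 => h5.1 ((mF _).1 h6), h5.2⟩
          ne := fun y h1 h2 h3 => by
            refine h.gq.ne (y + a) (by omega) (by omega) ?_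
            have h4 : trE (a, 0) S.e0 = Sum.inr (y, -1) := h3
            have h5 : S.e0 = (trE (a, 0)).symm (Sum.inr (y, -1)) := by
              rw [← h4, Equiv.symm_apply_apply]
            rw [h5]
            simp [trE] } }

theorem trS_Dv {Q : ℝ} (hQ : 0 < Q) {a : ℤ} (ha : Even a) (hG : Good S.z) (x r : ℤ) (k : ℕ) :
    Dv Q (trS (a, 0) S) (x - a) r k = Dv Q S x r k := by
  have hp : Even ((a, (0 : ℤ)).1 + (a, (0 : ℤ)).2) := by simpa using ha
  unfold Dv EQ
  refine (Ex_tr hQ hp S.F hG _).trans ?_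
  refine Ex_congr fun T _ => ?_
  refine J_tr hp rfl (win x r) (win (x - a) r) (fun y => ?_) k S.D S.e0 _
  unfold win
  have h1 : (x - a - r ≤ y ∧ y ≤ x - a + r) ↔ (x - r ≤ y + a ∧ y + a ≤ x + r) := by
    constructor <;> intro h <;> constructor <;> omega
  simp only [h1]

/-- **every state has the displacement of a state at `1`** -/
theorem exists_tr {Q : ℝ} (hQ : 0 < Q) {l x ρ : ℤ} (h : TC S l x ρ) (r : ℤ) (k : ℕ) :
    ∃ S' : St, TC S' l 1 ρ ∧ Dv Q S' 1 r k = Dv Q S x r k := by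
  have hx : Even (x - 1) := by
    have h1 := h.ev
    simp only [Int.even_iff] at h1 ⊢
    omega
  refine ⟨trS (x - 1, 0) S, ?_, ?_⟩
  · have := trS_TC hx h
    rwa [show x - (x - 1) = 1 by ring] at this
  · have := trS_Dv hQ hx h.gq.good x r k
    rwa [show x - (x - 1) = 1 by ring] at this

end Vale.Agent.P167.H685.Q
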