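import Vale.Agent.P167.H685.Q.Defs

/-!
# P167, general `q`, block Q-NSYM: the common part, abstract form
-/

namespace Vale.Agent.P167.H685.Q

open Finset Vale.Agent.P167 Vale.Agent.P167.FK Vale.Agent.P167.FKA
open Vale.Agent.P167.H558 (StopSet Past)
open Vale.Agent.P167.H318 (St TA TB Flat PO Lo HB J ex hit Visit)

open Classical in
/-- the revealed squares: the strand until it enters height `4 l'`, and everything outside of the half
box of radius `r` around its abscissa -/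
noncomputable def RC (S : St) (x ρ l' r : ℤ) (ω : Cfg) : Finset (ℤ × ℤ) :=
  S.RV (Lo x ρ (4 * l')) ω ∪
    S.F.filter fun v => v ∉ HB (hdv (S.X1 (Lo x ρ (4 * l')) ω)).1 r

/-- `s` is determined by the revealed squares (for the configurations of the state `S`) -/
def PastS (S : St) (R : Cfg → Finset (ℤ × ℤ)) (s : Cfg → ℝ) : Prop :=
  ∀ ω ω' : Cfg, (∀ v, v ∉ S.F → ω v = S.z v) → (∀ v, v ∉ S.F → ω' v = S.z v) →
    (∀ v ∈ R ω, ω' v = ω v) → s ω' = s ω

/-- **SUCCA**: from every state at scale `M ^ 2 * l'` a part `s` of mass at least `c` of the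
configurations, determined by the strand until it enters the scale `l'` and everything at distance
`M l'` of this point, on which the observable has the same mean value for all the states -/
def SUCCA (Q : ℝ) : Prop := ∃ (c C α : ℝ) (L : ℤ), 0 < c ∧ 0 < C ∧ 0 < α ∧ 1 ≤ L ∧
  ∀ (M l' : ℤ) (k : ℕ), L ≤ M → 1 ≤ k → L * k ≤ l' → ∃ a b : ℝ, c ≤ a ∧
    ∀ S : St, TC S (M ^ 2 * l') 1 (M ^ 3 * l') → ∃ s : Cfg → ℝ, (∀ ω, 0 ≤ s ω ∧ s ω ≤ 1) ∧
      PastS S (RC S 1 (M ^ 3 * l') l' (M * l')) s ∧ EQ Q S s = a ∧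
      |EQ Q S (fun ω => s ω * J S.D S.e0 (win 1 (M ^ 3 * l' / 2)) k ω) - b| ≤
        C * (M : ℝ) ^ (-α) * k

end Vale.Agent.P167.H685.Q
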