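import Vale.Agent.P167.H318.GT

/-!
# P167, general `q`, block Q-NSYM: a medial edge which is joined to the two banks of the explored
strand is passed by the strand

Law free version of `H318.passes`: the open and dual paths to the banks are hypotheses.
-/

namespace Vale.Agent.P167.H685.Q

open Vale.Agent.P167 Vale.Agent.P167.H318 Vale.Agent.P167.H192 Vale.Agent.P145.FB
  Vale.Agent.P167.H558
open MeasureTheory Relation
open Vale.Agent.P167.H632 (Ex sq_inl sq_inr ex_rect)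

variable {S : H318.St} {u w l H x h0 : ℤ}

/-- **the strand passes `e` before it comes below `h0`** -/
theorem passes_bank (hB : TB S u w (4 * l) H x) (hl : 1 ≤ l) (hh' : h0 ≤ 4 * l - 1)
    (hx1 : u - w ≤ x) (hx2 : x ≤ u + w)
    {ω : Cfg} {e : Ed} (heLo : hdv e ∈ Lo u w (4 * l)) (heh : h0 ≤ (hdv e).2)
    {Rg Rg' : Set (ℤ × ℤ)}
    (hRg : ∀ s ∈ Rg, ∀ s' ∈ Rg, ∀ v, PStep {v} s s' → v ∈ S.D ∧ v ∉ Lo u w h0)
    (hRg' : ∀ s ∈ Rg', ∀ s' ∈ Rg', ∀ v, PStep {v} s s' → v ∈ S.D ∧ v ∉ Lo u w h0)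
    (hct : ∃ i ≤ S.m, PConn (op (S.cf ω)) Rg (ls e) (ls (H318.st S.e0 S.z i)))
    (hct' : ∃ i ≤ S.m, PConn (op (S.cf ω))ᶜ Rg' (rs e) (rs (H318.st S.e0 S.z i))) :
    ∃ i, S.m ≤ i ∧ i ≤ hit S.D S.e0 (Lo u w h0) (S.cf ω) ∧ i < ex S.D S.e0 (S.cf ω) ∧
      H318.st S.e0 (S.cf ω) i = e := by
  have hmono : ∀ v, v ∈ Lo u w h0 → v ∈ Lo u w (4 * l) := fun v hv =>
    ⟨hv.1, hv.2.1, hv.2.2.1, by have := hv.2.2.2; omega⟩
  have htipLo : ((x, 4 * l - 1) : ℤ × ℤ) ∈ Lo u w (4 * l) :=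
    ⟨by dsimp only; omega, by dsimp only; omega, by dsimp only; omega, by dsimp only; omega⟩
  obtain ⟨i, hi, hct⟩ := hct
  obtain ⟨i', hi', hct'⟩ := hct'
  -- the domain without the low zone
  have hflat : Flat S.D u w h0 :=
    ⟨fun v hv => hB.flat.mem v (hmono v hv), hB.flat.not⟩
  obtain ⟨D', hD', hco⟩ := coCut S.D u w h0 hB.co hflat
  set ξ := S.cf ω with hξ
  set n := hit S.D S.e0 (Lo u w h0) ξ with hn
  have h0' : tlv S.e0 ∉ (↑D' : Set (ℤ × ℤ)) := fun h => hB.st ((hD' _).1 (Finset.mem_coe.1 h)).1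
  have hnD : hdv (H318.st S.e0 ξ n) ∉ (↑D' : Set (ℤ × ℤ)) := by
    intro h
    have h1 := (hD' _).1 (Finset.mem_coe.1 h)
    rcases Bs.hit_spec hB.st (Lo u w h0) ξ with h2 | h2
    · exact h1.2 h2
    · exact h2 h1.1
  obtain ⟨V, hV⟩ := walk_pot (ex_of_coConn hco) h0' hnD
  have hmn : S.m ≤ n := by
    by_contra hcon
    have h1 := Bs.hit_min (not_le.1 hcon)
    have h2 := Bs.hit_spec hB.st (Lo u w h0) ξ
    rw [← hn, hξ, st_m ω n (by omega)] at h2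
    rcases h2 with h2 | h2
    · exact h1.1 (Finset.mem_coe.2 (hB.fresh _ (hmono _ h2)))
    · exact h2 h1.2
  have hdD : ∀ i ≤ S.m, hdv (H318.st S.e0 S.z i) ∈ D' := by
    intro i hi
    rw [hD']
    rcases lt_or_eq_of_le hi with h1 | h1
    · have h2 := Bs.hit_min h1
      refine ⟨h2.2, fun h3 => h2.1 (Finset.mem_coe.2 (hB.fresh _ (hmono _ h3)))⟩
    · subst h1
      have h2 : hdv (H318.st S.e0 S.z S.m) = (x, 4 * l - 1) := hB.tip_hdv
      rw [h2]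
      refine ⟨hB.flat.mem _ htipLo, fun h3 => ?_⟩
      have := h3.2.2.2
      dsimp only at this
      omega
  have hcD : ∀ j < n, hdv (H318.st S.e0 ξ j) ∈ D' := fun j hj =>
    (hD' _).2 ⟨(Bs.hit_min hj).2, (Bs.hit_min hj).1⟩
  have hVp : ∀ i ≤ S.m, V (ls (H318.st S.e0 S.z i)) = V (rs (H318.st S.e0 S.z i)) + 1 := by
    intro i hi
    rw [hV _ (Or.inl (Finset.mem_coe.2 (hdD i hi)))]
    congr 1
    rw [← st_m ω i hi]
    exact cnt_eq_one (D := D') (fun h => h0' (Finset.mem_coe.2 h)) hcD (by omega)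
  have hVc := Pt0.chain hVp
  -- squares of the regions
  have hRD : ∀ s ∈ Rg, ∀ s' ∈ Rg, ∀ v, PStep {v} s s' → v ∈ (↑D' : Set (ℤ × ℤ)) :=
    fun s hs s' hs' v hv => Finset.mem_coe.2 ((hD' _).2 (hRg s hs s' hs' v hv))
  have hRD' : ∀ s ∈ Rg', ∀ s' ∈ Rg', ∀ v, PStep {v} s s' → v ∈ (↑D' : Set (ℤ × ℤ)) :=
    fun s hs s' hs' v hv => Finset.mem_coe.2 ((hD' _).2 (hRg' s hs s' hs' v hv))
  -- values
  have v1 : V (ls e) = V (ls S.tip) := by
    rw [pot_open_path hV h0' hnD hRD (FK.even_ls e) hct]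
    exact (hVc i hi).1
  have v2 : V (rs e) = V (rs S.tip) := by
    rw [pot_dual_path hV h0' hnD hRD' (FK.odd_rs e) hct']
    exact (hVc i' hi').2
  have v3 : V (ls S.tip) = V (rs S.tip) + 1 := hVp S.m le_rfl
  have heD : hdv e ∈ D' := by
    rw [hD']
    exact ⟨hB.flat.mem _ heLo, fun h => by have h1 := h.2.2.2; omega⟩
  have h4 := hV e (Or.inl (Finset.mem_coe.2 heD))
  rw [v1, v2, v3] at h4
  obtain ⟨k, hk, hke⟩ := cnt_pos (e0 := S.e0) (ξ := ξ) (n := n) (e := e) (by omega)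
  refine ⟨k, ?_, hk, ?_, hke⟩
  · by_contra hcon
    have h5 := Bs.hit_min (not_le.1 hcon)
    rw [hξ, st_m ω k (by omega)] at hke
    rw [hke] at h5
    exact h5.1 (Finset.mem_coe.2 (hB.fresh _ heLo))
  · refine lt_of_le_of_ne (hk.trans (Bs.hit_le_ex hB.st)) fun h5 => ?_
    have h6 := Bs.ex_spec hB.st ξ
    rw [← h5, hke] at h6
    exact h6 (hB.flat.mem _ heLo)

end Vale.Agent.P167.H685.Q
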