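import Vale.Agent.P167.H685.Q.Expl
import Vale.Agent.P167.H685.Q.Pass

/-!
# P167, general `q`, block Q-NSYM: universality of the displacement, definitions

States are those of `H318` (`D`, fresh squares `F`, states `z` of the other squares, first edge `e0`),
the law is `FK.Ex Q S.F S.z`; all functions are functions of the full configuration.
-/

namespace Vale.Agent.P167.H685.Q

open Finset Vale.Agent.P167 Vale.Agent.P167.FK Vale.Agent.P167.FKA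
open Vale.Agent.P145.FB (PStep PConn)
open Vale.Agent.P167.H558 (StopSet Past)
open Vale.Agent.P167.H318 (St TA TB Flat PO Lo HB J ex hit Visit)

/-- expectation in the state `S` -/
noncomputable def EQ (Q : ℝ) (S : St) (Φ : Cfg → ℝ) : ℝ := FK.Ex Q S.F S.z Φ

/-- probability in the state `S` -/
noncomputable def PQ (Q : ℝ) (S : St) (A : Set Cfg) : ℝ := FK.Pr Q S.F S.z A

/-- conditions on the known configuration: the lower half box is closed -/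
structure Gq (S : St) (x ρ : ℤ) : Prop where
  good : Good S.z
  row : ∀ v : ℤ × ℤ, x - ρ - 1 ≤ v.1 → v.1 ≤ x + ρ + 1 → -ρ - 1 ≤ v.2 → v.2 < 0 →
    v ∉ S.F ∧ S.z v = false
  ne : ∀ y, x - ρ ≤ y → y ≤ x + ρ → S.e0 ≠ Sum.inr (y, -1)

/-- **states with the tip at height `4 l` above `x`**; everything in the half box `(x, ρ)` is fresh or
visited by the explored strand, everything below height `4 l` is fresh; arbitrary elsewhere -/
structure TC (S : St) (l x ρ : ℤ) : Prop extends TB S x ρ (4 * l) (ρ + 1) x where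
  gq : Gq S x ρ

/-- the window -/
noncomputable def win (x ρ : ℤ) : ℤ → ℝ := fun y => if x - ρ ≤ y ∧ y ≤ x + ρ then 1 else 0

/-- the mean displacement -/
noncomputable def Dv (Q : ℝ) (S : St) (x ρ : ℤ) (k : ℕ) : ℝ := EQ Q S (J S.D S.e0 (win x ρ) k)

/-! ### inputs -/

/-- **ESC** for general `q` -/
def ESCQ (Q : ℝ) : Prop := ∃ C α : ℝ, 0 < C ∧ 0 < α ∧ ∀ (S : St) (b r R : ℤ), 1 ≤ r → r ≤ R →
  S.Ok → Gq S b R → (∀ v ∈ HB b R, v ∈ S.D) → (∀ x, b - R ≤ x → x ≤ b + R → (x, (-1 : ℤ)) ∉ S.D) →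
  (∀ v ∈ HB b r, v ∈ S.F) → PO S (HB b R) → hdv S.tip ∈ HB b r →
  PQ Q S {ξ | Visit S.D S.e0 S.m (HB b R)ᶜ ξ} ≤ C * ((r : ℝ) / R) ^ α

/-- **SM** for general `q`, `B` = number of heights which are needed above the observable -/
def SMQ (Q : ℝ) : Prop := ∃ (C : ℝ) (B : ℤ), 0 < C ∧ 1 ≤ B ∧ ∀ (S : St) (u w y : ℤ) (k : ℕ)
  (ψ : ℤ → ℝ), 1 ≤ k → B * (k : ℤ) ≤ y → TA S u w y → Gq S u w → (∀ x, |ψ x| ≤ 1) →
  (∀ x, ψ x ≠ 0 → u - w + B * k ≤ x ∧ x ≤ u + w - B * k) →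
  EQ Q S (fun ξ => J S.D S.e0 ψ k ξ ^ 2) ≤ C * (k : ℝ) ^ 2

/-! ### the regions -/

/-- the half box as a finite set of squares -/
noncomputable def hbF (x r : ℤ) : Finset (ℤ × ℤ) := Finset.Icc (x - r) (x + r) ×ˢ Finset.Icc 0 r

theorem mem_hbF {x r : ℤ} {v : ℤ × ℤ} : v ∈ hbF x r ↔ v ∈ HB x r := by
  simp only [hbF, HB, Finset.mem_product, Finset.mem_Icc, Set.mem_ofPred_eq]
  tauto

/-- the half box with the row below it -/
def Wr (x r : ℤ) : Set (ℤ × ℤ) := {v | x - r ≤ v.1 ∧ v.1 ≤ x + r ∧ -1 ≤ v.2 ∧ v.2 ≤ r}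

/-- the exploration from outside: `I = hbF x r`, core `HB x s` -/
noncomputable def RW (x r s : ℤ) : Cfg → Finset (ℤ × ℤ) := Rx (Wr x r) (HB x s) (hbF x r)

/-- `e` is an entrance of the pattern -/
def Ent' (x r : ℤ) (g : Pat) (e : Ed) : Prop := Ent (Wr x r) ↑(hbF x r \ g.1) (pc g) e

open Classical in
/-- **the good patterns**: exactly one entrance, at height `≥ h` -/
noncomputable def GG (x r s h : ℤ) : Finset Pat :=
  ((hbF x r).powerset ×ˢ (hbF x r).powerset).filter fun g => pat (RW x r s) (pc g) = g ∧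
    One (Wr x r) ↑(hbF x r \ g.1) (pc g) ∧ ∃ e, Ent' x r g e ∧ h ≤ (hdv e).2

open Classical in
/-- the entrance -/
noncomputable def est (x r : ℤ) (g : Pat) : Ed :=
  if h : ∃ e, Ent' x r g e then h.choose else Sum.inr (0, 0)

/-- sites at height at least `h` -/
def Up' (x ρ h : ℤ) : Set (ℤ × ℤ) :=
  {v | x - ρ ≤ v.1 ∧ v.1 ≤ x + ρ + 1 ∧ h ≤ v.2 ∧ v.2 ≤ ρ + 1}

/-- **the links** between the entrance and the two banks of the explored strand of `S`, off the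
squares of `I` and above height `h` -/
def LkS (S : St) (x r ρ h : ℤ) (g : Pat) : Set Cfg := {ω |
  (∃ i ≤ S.m, PConn (op ω ∩ (↑(hbF x r))ᶜ) (Up' x ρ h) (ls (est x r g))
    (ls (H318.st S.e0 S.z i))) ∧
  (∃ i ≤ S.m, PConn ((op ω)ᶜ ∩ (↑(hbF x r))ᶜ) (Up' x ρ h) (rs (est x r g))
    (rs (H318.st S.e0 S.z i)))}

/-- the strand from `e` enters the zone of height `4 l'` in the centre `|y - x| ≤ s` before it leaves
the half box of radius `r` -/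
def Chi (x r s l' : ℤ) (e : Ed) (ω : Cfg) : Prop :=
  hit (hbF x r) e (Lo x r (4 * l')) ω < ex (hbF x r) e ω ∧
    |(hdv (H318.st e ω (hit (hbF x r) e (Lo x r (4 * l')) ω))).1 - x| ≤ s

/-- **SUCCQ**: the mass of the common part. `r = l / Λ`, core of radius `s = l / Λ ^ 2`, centre of
radius `l / Λ ^ 3`; `c ν g ≤ P_S (pattern g, links)` and `∑ ν g P_g (Chi) ≥ c` for every small `l'`. -/
def SUCCQ (Q : ℝ) : Prop := ∃ (c : ℝ) (Λ l0 : ℤ), 0 < c ∧ 2 ≤ Λ ∧ 1 ≤ l0 ∧ ∀ x l : ℤ, Odd x →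
  l0 ≤ l → ∃ (h : ℤ) (ν : Pat → ℝ), l / Λ ^ 2 ≤ h ∧ h ≤ l ∧
    (∀ g ∈ GG x (l / Λ) (l / Λ ^ 2) h, 0 ≤ ν g) ∧
    (∀ (S : St) (ρ : ℤ), 20 * l ≤ ρ → TC S l x ρ → ∀ g ∈ GG x (l / Λ) (l / Λ ^ 2) h,
      c * ν g ≤ PQ Q S ({ω | pat (RW x (l / Λ) (l / Λ ^ 2)) ω = g} ∩ LkS S x (l / Λ) ρ h g)) ∧
    (∀ l' : ℤ, 1 ≤ l' → Λ ^ 4 * l' ≤ l →
      c ≤ ∑ g ∈ GG x (l / Λ) (l / Λ ^ 2) h, ν g *
        FK.Pr Q (hbF x (l / Λ) \ g.1) (pc g)
          {ω | Chi x (l / Λ) (l / Λ ^ 3) l' (est x (l / Λ) g) ω}) ∧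
    ∑ g ∈ GG x (l / Λ) (l / Λ ^ 2) h, ν g ≤ 1

end Vale.Agent.P167.H685.Q
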