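import Vale.Agent.P167.H685.Q.Rec3

/-!
# P167, general `q`, block Q-NSYM: escapes of the intermediate state
-/

namespace Vale.Agent.P167.H685.Q

open Finset Vale.Agent.P167 Vale.Agent.P167.FK Vale.Agent.P167.FKA Relation
open Vale.Agent.P167.H558 (StopSet Past)
open Vale.Agent.P167.H192 (ov ov_mem ov_notMem)
open Vale.Agent.P167.H318 (St TA TB Flat PO Lo HB J ex hit Visit CoConn Adj wt mem_RV RV_notMem
  RV_path stopSet_RV past_X1 rv_cf rv_ok st_m RV_sub)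

variable {Q : ℝ} {S : St} {ω ω' ξ : Cfg} {u w l' r : ℤ} {D : Finset (ℤ × ℤ)} {e : Ed} {k : ℕ}
  {ψ ψ' : ℤ → ℝ}

/-- the bound of `ESCQ` -/
def EscB (Q C α : ℝ) : Prop := ∀ (S : St) (b r R : ℤ), 1 ≤ r → r ≤ R →
  S.Ok → Gq S b R → (∀ v ∈ HB b R, v ∈ S.D) → (∀ x, b - R ≤ x → x ≤ b + R → (x, (-1 : ℤ)) ∉ S.D) →
  (∀ v ∈ HB b r, v ∈ S.F) → PO S (HB b R) → hdv S.tip ∈ HB b r →
  PQ Q S {ξ | Visit S.D S.e0 S.m (HB b R)ᶜ ξ} ≤ C * ((r : ℝ) / R) ^ α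

/-- the bound of `SMQ` -/
def SmB (Q C : ℝ) (B : ℤ) : Prop := ∀ (S : St) (u w y : ℤ) (k : ℕ) (ψ : ℤ → ℝ), 1 ≤ k →
  B * (k : ℤ) ≤ y → TA S u w y → Gq S u w → (∀ x, |ψ x| ≤ 1) →
  (∀ x, ψ x ≠ 0 → u - w + B * k ≤ x ∧ x ≤ u + w - B * k) →
  EQ Q S (fun ξ => J S.D S.e0 ψ k ξ ^ 2) ≤ C * (k : ℝ) ^ 2

/-- the half boxes of the zone -/
theorem Zone.hb (hZ : Zone S u w l') {b R : ℤ} (h : |b - u| + R ≤ w) :
    Gq S b R ∧ (∀ v ∈ HB b R, v ∈ S.D) ∧ (∀ x, b - R ≤ x → x ≤ b + R → (x, (-1 : ℤ)) ∉ S.D) ∧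
      PO S (HB b R) := by
  have h1 := abs_le.1 (show |b - u| ≤ w - R by omega)
  refine ⟨hZ.gq.mono (by omega) (by omega), fun v hv => hZ.flat.mem v ?_, fun x h2 h3 =>
    hZ.flat.not x (by omega) (by omega), fun v hv => hZ.po v ?_⟩
  · obtain ⟨h2, h3, h4, h5⟩ := hv
    exact ⟨by omega, by omega, h4, by omega⟩
  · obtain ⟨h2, h3, h4, h5⟩ := hv
    exact ⟨by omega, by omega, h4, by omega⟩

/-- **escape of the intermediate state** -/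
theorem esc_int {C α : ℝ} (hE : EscB Q C α) (hS : S.Ok) {A : Set (ℤ × ℤ)} (hA : ∀ v ∈ A, v ∈ S.F)
    {b r0 R : ℤ} (h1 : 1 ≤ r0) (h2 : r0 ≤ R) (hG : Gq S b R) (hD : ∀ v ∈ HB b R, v ∈ S.D)
    (hn : ∀ x, b - R ≤ x → x ≤ b + R → (x, (-1 : ℤ)) ∉ S.D) (hP : PO S (HB b R))
    (hr : ∀ v ∈ HB b r0, v ∈ A) (ht : hdv (S.X1 A ω) ∈ HB b r0) :
    PQ Q (S.rv (S.RV A ω) ω) {ξ | Visit S.D S.e0 (hit S.D S.e0 A (S.cf ω)) (HB b R)ᶜ ξ} ≤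
      C * ((r0 : ℝ) / R) ^ α := by
  obtain ⟨m1, m2, m3⟩ := rv_int hS hA ω
  have h := hE (S.rv (S.RV A ω) ω) b r0 R h1 h2 (rv_ok hS _ ω) (gq_rv hG _ ω) hD hn
    (fun v hv => Finset.mem_sdiff.2 ⟨hA _ (hr v hv), fun h => RV_notMem h (hr v hv)⟩)
    (m3 _ hP) (by rw [m2]; exact ht)
  rw [m1] at h
  exact h

/-- the strand of the intermediate state -/
theorem int_path (hS : tlv S.e0 ∉ S.D) {A : Set (ℤ × ℤ)} (hω : Cs S ω)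
    (hξ : Cs (S.rv (S.RV A ω) ω) ξ) :
    Cs S ξ ∧ (∀ i ≤ hit S.D S.e0 A ω, H318.st S.e0 ξ i = H318.st S.e0 ω i) ∧
      hit S.D S.e0 A ξ = hit S.D S.e0 A ω := by
  obtain ⟨h1, h2⟩ := cs_rv hω hξ
  have h3 := RV_path (S := S) hS (A := A) (ω := ω) (ω' := ξ) fun q hq => h2 q hq (RV_sub hq)
  rw [hω.cf, h1.cf] at h3
  exact ⟨h1, h3⟩

/-- **the far part of the observable** -/
theorem far_int (hQ : 0 < Q) {Ce α Cs' : ℝ} {B : ℤ} (hCe : 0 < Ce) (hB : 1 ≤ B) (hE : EscB Q Ce α)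
    (hM : SmB Q Cs' B) (hZ : Zone S u w l') (hk : 1 ≤ k) (hBk : B * k ≤ 4 * l') {b r0 R : ℤ}
    (h1 : 1 ≤ r0) (h2 : r0 ≤ R) (hb : |b - u| + R ≤ w)
    (hr : ∀ v ∈ HB b r0, v ∈ Lo u w (4 * l'))
    (hψ : ∀ x, |ψ x| ≤ 1) (hs : ∀ x, ψ x ≠ 0 → u - w + B * k ≤ x ∧ x ≤ u + w - B * k)
    (hoff : ∀ x, b - R ≤ x → x ≤ b + R + 1 → ψ x = 0) (hω : Cs S ω)
    (ht : hdv (S.X1 (Lo u w (4 * l')) ω) ∈ HB b r0) :
    EQ Q (S.rv (S.RV (Lo u w (4 * l')) ω) ω) (fun ξ => |J S.D S.e0 ψ k ξ|) ≤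
      (Cs' + 1) / 2 * k * Real.sqrt (Ce * ((r0 : ℝ) / R) ^ α) := by
  have hkB : (k : ℤ) ≤ B * k := by nlinarith
  have hk1 : (1 : ℤ) ≤ k := by exact_mod_cast hk
  obtain ⟨g1, g2, g3, g4⟩ := hZ.hb hb
  set A := Lo u w (4 * l') with hA
  set S' := S.rv (S.RV A ω) ω with hS'
  have hesc := esc_int (Q := Q) hE hZ.toOk hZ.fr h1 h2 g1 g2 g3 g4 hr ht
  rw [← hS'] at hesc
  have hsm := hM S' u w (4 * l') k ψ hk hBk (hZ.ta ω) (gq_rv hZ.gq _ ω) hψ hs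
  have hp : 0 < Ce * ((r0 : ℝ) / R) ^ α := by
    have h3 : (0 : ℝ) < r0 := by exact_mod_cast (by omega : 0 < r0)
    have h4 : (0 : ℝ) < R := by exact_mod_cast (by omega : 0 < R)
    positivity
  have hcs := cs_bound hQ S' (X := fun ξ => J S.D S.e0 ψ k ξ) (κ := (k : ℝ))
    (by exact_mod_cast hk) hp hsm hesc
  refine le_trans (EQ_mono hQ fun ξ hξ => ?_) hcs
  by_cases hV : Visit S.D S.e0 (hit S.D S.e0 A (S.cf ω)) (HB b R)ᶜ ξ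
  · rw [Set.indicator_of_mem (show ξ ∈ {ξ | Visit S.D S.e0 (hit S.D S.e0 A (S.cf ω)) (HB b R)ᶜ ξ}
      from hV)]
    simp
  · obtain ⟨p1, p2, p3⟩ := int_path hZ.st hω hξ
    have h0 : J S.D S.e0 ψ k ξ = 0 := by
      rw [hω.cf] at hV
      refine J_off (h := 4 * l') (u := u) (w := w) (fun i hi => ?_) (by omega)
        (fun x hx => ?_) hV hoff
      · rw [← p3] at hi
        exact (H318.Bs.hit_min hi).1
      · have h3 := hs x hx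
        exact ⟨by omega, by omega⟩
    have h3 : |J S.D S.e0 ψ k ξ| = 0 := by rw [h0, abs_zero]
    rw [h3, zero_mul]

/-- the first moment of the intermediate state -/
theorem abs_int (hQ : 0 < Q) {Cs' : ℝ} {B : ℤ} (hM : SmB Q Cs' B) (hZ : Zone S u w l')
    (hk : 1 ≤ k) (hBk : B * k ≤ 4 * l') {lam : ℝ} (hl : 0 < lam) (hψ : ∀ x, |ψ x| ≤ lam)
    (hs : ∀ x, ψ x ≠ 0 → u - w + B * k ≤ x ∧ x ≤ u + w - B * k) (ω : Cfg) :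
    EQ Q (S.rv (S.RV (Lo u w (4 * l')) ω) ω) (fun ξ => |J S.D S.e0 ψ k ξ|) ≤
      (Cs' + 1) / 2 * k * lam := by
  have hsm := hM (S.rv (S.RV (Lo u w (4 * l')) ω) ω) u w (4 * l') k (fun x => lam⁻¹ * ψ x) hk hBk
    (hZ.ta ω) (gq_rv hZ.gq _ ω) (fun x => by
      rw [abs_mul, abs_of_pos (inv_pos.2 hl), inv_mul_le_iff₀ hl, mul_one]
      exact hψ x) (fun x hx => hs x fun h => hx (by rw [h, mul_zero]))
  have h1 := abs_bound hQ _ (κ := (k : ℝ)) (by exact_mod_cast hk) hsm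
  have e1 : EQ Q (S.rv (S.RV (Lo u w (4 * l')) ω) ω) (fun ξ => |J S.D S.e0 ψ k ξ|) =
      lam * EQ Q (S.rv (S.RV (Lo u w (4 * l')) ω) ω)
        (fun ξ => |J S.D S.e0 (fun x => lam⁻¹ * ψ x) k ξ|) := by
    rw [← EQ_mul]
    refine EQ_congr fun ξ _ => ?_
    rw [J_smul, abs_mul, abs_of_pos (inv_pos.2 hl), mul_inv_cancel_left₀ hl.ne']
  rw [e1]
  calc _ ≤ lam * ((Cs' + 1) / 2 * k) := mul_le_mul_of_nonneg_left h1 hl.le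
    _ = _ := by ring

end Vale.Agent.P167.H685.Q
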