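import Vale.Agent.P167.H685.Q.Rec8

/-!
# P167, general `q`, block Q-NSYM: the theorem
-/

namespace Vale.Agent.P167.H685.Q

open Finset Vale.Agent.P167 Vale.Agent.P167.FK Vale.Agent.P167.FKA Relation Filter Topology
open Vale.Agent.P167.H558 (StopSet Past)
open Vale.Agent.P167.H318 (St TA TB Flat PO Lo HB J ex hit Visit CoConn Adj wt mem_RV RV_notMem
  RV_path stopSet_RV past_X1 rv_cf rv_ok st_m RV_sub)
open Vale.Agent.P167.H365.NQ (SYMQ SymQE)

variable {Q : ℝ} {S : St} {ω ω' ξ : Cfg} {u w l' r : ℤ} {D : Finset (ℤ × ℤ)} {e : Ed} {k : ℕ}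
  {ψ ψ' : ℤ → ℝ}

/-- **the displacement of a strand from far away**, with explicit errors -/
theorem land (hQ : 0 < Q) {Ce α Cs' : ℝ} {B : ℤ} (hCe : 0 < Ce) (hα : 0 < α) (hCs : 0 < Cs')
    (hB : 1 ≤ B) (hE : EscB Q Ce α) (hM : SmB Q Cs' B) {M : ℤ} (hM32 : 32 ≤ M) (hk : 1 ≤ k)
    (hl1 : 1 ≤ l') (hBk : B * k ≤ 4 * l') (hw : 8 * M * (M * l') ≤ w)
    (hZ2 : Zone S u (2 * w) l') (hZ4 : Zone S u (4 * w - 1) l') (hF : ∀ v ∈ Lo u (4 * w) (4 * w + 1), v ∈ S.D)
    (hψ : ∀ x, |ψ x| ≤ 1) (hL : ∀ x x' : ℤ, |ψ x - ψ x'| ≤ |(x : ℝ) - x'| / w)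
    (hs : ∀ x, ψ x ≠ 0 → u - w ≤ x ∧ x ≤ u + w) {g ε : ℝ} (hε : 0 ≤ ε)
    (hg : ∀ (S1 : St) (x : ℤ), TC S1 l' x (M * l') → |Dv Q S1 x (M * l' / 2) k - g| ≤ ε * k) :
    |EQ Q S (J S.D S.e0 ψ k) - g * EQ Q S (fun ω => H365.NQ.wf ψ (H318.st S.e0 ω (ex S.D S.e0 ω)))| ≤
      ε * k + (Cs' + 1) / 2 * k * (1 / M + 2 * Real.sqrt (Ce * (32 / (M : ℝ)) ^ α)) +
        |g| * (1 / M + 4 * (Ce * (32 / (M : ℝ)) ^ α)) := by
  have hk1 : (1 : ℤ) ≤ k := by exact_mod_cast hk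
  have hkB : (k : ℤ) ≤ B * k := by nlinarith
  have hMR : (0 : ℝ) < M := by exact_mod_cast (by omega : 0 < M)
  set P := Ce * (32 / (M : ℝ)) ^ α with hP
  have hP0 : 0 < P := by positivity
  have hsP : 0 < Real.sqrt P := Real.sqrt_pos.2 hP0
  set r := M * l' with hr
  have hr32 : 32 * l' ≤ r := by rw [hr]; nlinarith
  have hwr : 256 * r ≤ w := by
    refine le_trans ?_ hw
    have : 0 ≤ r := by omega
    nlinarith
  have hwR : (0 : ℝ) < w := by exact_mod_cast (by omega : 0 < w)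
  set A := Lo u (2 * w) (4 * l') with hA
  set Z : ℤ → Prop := fun x => |x - u| ≤ w + w / 2 with hZdef
  set I : Cfg → ℝ := fun ω => iz A Z (S.X1 A ω) with hI
  have hI0 : ∀ ω, 0 ≤ I ω := fun ω => iz_nonneg _ _ _
  have hI1 : ∀ ω, I ω ≤ 1 := fun ω => iz_le_one _ _ _
  have hlam : (0 : ℝ) < 1 / M := by positivity
  have hrw : (r : ℝ) / w ≤ 1 / M := by
    rw [div_le_div_iff₀ hwR hMR, one_mul]
    have h1 : r * M ≤ w := by
      refine le_trans ?_ hw
      have h2 : 0 ≤ r := by omega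
      have h3 : 0 ≤ M * r := by positivity
      calc r * M = M * r := by ring
        _ ≤ 8 * (M * r) := by omega
        _ = 8 * M * r := by ring
    exact_mod_cast h1
  have hmod : ∀ x y : ℤ, |y - x| ≤ r → |ψ y - ψ x| ≤ 1 / M := by
    intro x y h
    refine (hL y x).trans (le_trans ?_ hrw)
    refine div_le_div_of_nonneg_right ?_ hwR.le
    have : ((|y - x| : ℤ) : ℝ) ≤ r := by exact_mod_cast h
    rwa [Int.cast_abs, Int.cast_sub] at this
  have hs2 : ∀ x, ψ x ≠ 0 → u - 2 * w + B * k ≤ x ∧ x ≤ u + 2 * w - B * k := fun x hx => by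
    have := hs x hx
    omega
  have hgen := gen (Y := fun _ => 1) (Z := Z) (ψ := ψ) (lam := 1 / (M : ℝ)) hQ hCe hB hE hM hZ2 hk
    hBk hr32 (fun x hx => by
      have : |x - u| ≤ w + w / 2 := hx
      omega) hψ hs2 hlam (fun x y _ h => hmod x y (by omega)) (fun _ _ _ _ _ => rfl)
    (fun _ => ⟨zero_le_one, le_rfl⟩) hg
  rw [← hA] at hgen
  simp only [one_mul] at hgen
  -- the escape probabilities
  have hp1 : Ce * (((4 * l' - 1 : ℤ) : ℝ) / ((r / 2 - 1 : ℤ) : ℝ)) ^ α ≤ P := by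
    refine mul_le_mul_of_nonneg_left (ratio_le (by omega) (by omega) (by omega) ?_ hα) hCe.le
    have h1 : (4 * l' - 1) * M = 4 * r - M := by rw [hr]; ring
    rw [h1]
    omega
  have hp3 : Ce * (((4 * l' - 1 : ℤ) : ℝ) / ((w / 4 : ℤ) : ℝ)) ^ α ≤ P := by
    refine mul_le_mul_of_nonneg_left (ratio_le (by omega) (by omega) (by omega) ?_ hα) hCe.le
    have h1 : (4 * l' - 1) * M = 4 * r - M := by rw [hr]; ring
    rw [h1]
    omega
  set K := (Cs' + 1) / 2 * (k : ℝ) with hK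
  have hK0 : 0 ≤ K := by positivity
  have hkR : (0 : ℝ) ≤ k := by positivity
  have b1 : |EQ Q S (fun ω => I ω * (J S.D S.e0 ψ k ω - g * ψ (hdv (S.X1 A ω)).1))| ≤
      ε * k + K * (1 / M + Real.sqrt P) := by
    refine hgen.trans (add_le_add ?_ ?_)
    · have h1 : EQ Q S (fun ω => iz A Z (S.X1 A ω)) ≤ 1 := by
        calc _ ≤ EQ Q S (fun _ => 1) := EQ_mono hQ fun ω _ => hI1 ω
          _ = 1 := EQ_const hQ 1
      have h2 : 0 ≤ ε * k := mul_nonneg hε hkR
      calc _ ≤ ε * k * 1 := mul_le_mul_of_nonneg_left h1 h2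
        _ = _ := mul_one _
    · refine mul_le_mul_of_nonneg_left ?_ hK0
      have := Real.sqrt_le_sqrt hp1
      linarith
  -- the far entrances
  have hfar : ∀ ω, Cs S ω → hdv (S.X1 A ω) ∈ A → ¬ Z (hdv (S.X1 A ω)).1 →
      ∃ b, Hb S b (w / 4) ∧ (∀ v ∈ HB b (4 * l' - 1), v ∈ A) ∧
        hdv (S.X1 A ω) ∈ HB b (4 * l' - 1) ∧
        (∀ v : ℤ × ℤ, b - w / 4 - 1 ≤ v.1 → v.1 ≤ b + w / 4 + 1 → 0 ≤ v.2 → v.2 ≤ w / 4 + 1 →
          v ∈ S.D) ∧ ∀ x, b - w / 4 ≤ x → x ≤ b + w / 4 + 1 → ψ x = 0 := by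
    intro ω hω h1 h2
    have h3 : ¬ |(hdv (S.X1 A ω)).1 - u| ≤ w + w / 2 := h2
    obtain ⟨a1, a2, a3, a4⟩ := h1
    have h4 : u + (w + w / 2) < (hdv (S.X1 A ω)).1 ∨ (hdv (S.X1 A ω)).1 < u - (w + w / 2) := by
      by_contra hcon
      push Not at hcon
      exact h3 (abs_le.2 ⟨by omega, by omega⟩)
    rcases h4 with h4 | h4
    · refine ⟨(hdv (S.X1 A ω)).1 - (4 * l' - 1), hZ4.Hb ?_, fun v hv => ?_, ?_, ?_, ?_⟩
      · rw [abs_of_nonneg (by omega)]
        omega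
      · obtain ⟨c1, c2, c3, c4⟩ := hv
        exact ⟨by omega, by omega, c3, by omega⟩
      · exact ⟨by omega, by omega, a3, by omega⟩
      · intro v c1 c2 c3 c4
        exact hF v ⟨by omega, by omega, c3, by omega⟩
      · intro x c1 c2
        by_contra hne
        have := hs x hne
        omega
    · refine ⟨(hdv (S.X1 A ω)).1 + (4 * l' - 1), hZ4.Hb ?_, fun v hv => ?_, ?_, ?_, ?_⟩
      · rw [abs_of_nonpos (by omega)]
        omega
      · obtain ⟨c1, c2, c3, c4⟩ := hv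
        exact ⟨by omega, by omega, c3, by omega⟩
      · exact ⟨by omega, by omega, a3, by omega⟩
      · intro v c1 c2 c3 c4
        exact hF v ⟨by omega, by omega, c3, by omega⟩
      · intro x c1 c2
        by_contra hne
        have := hs x hne
        omega
  have b2 : |EQ Q S (fun ω => (1 - I ω) * J S.D S.e0 ψ k ω)| ≤ K * Real.sqrt P := by
    have h1 : |EQ Q S (fun ω => (1 - I ω) * J S.D S.e0 ψ k ω)| ≤
        EQ Q S (fun ω => (1 - I ω) * |J S.D S.e0 ψ k ω|) := by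
      refine (EQ_abs hQ _).trans (EQ_mono hQ fun ω _ => ?_)
      have := hI1 ω
      rw [abs_mul, abs_of_nonneg (by linarith : 0 ≤ 1 - I ω)]
    refine h1.trans ?_
    have e2 := EQ_stop hQ hZ2.gq.good (stopSet_RV hZ2.st A) (RV_cf A)
      (pastS_X1 hZ2.st A (fun ω => Finset.Subset.refl _) fun e => 1 - iz A Z e)
      (fun ω => |J S.D S.e0 ψ k ω|)
    refine e2.le.trans ?_
    have hpt : ∀ ω, Cs S ω → (1 - iz A Z (S.X1 A ω)) * EQ Q (S.rv (S.RV A ω) ω)
        (fun ω => |J S.D S.e0 ψ k ω|) ≤ K * Real.sqrt P := by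
      intro ω hω
      by_cases h2 : hdv (S.X1 A ω) ∈ A ∧ Z (hdv (S.X1 A ω)).1
      · have h3 : iz A Z (S.X1 A ω) = 1 := if_pos h2
        rw [h3, sub_self, zero_mul]
        positivity
      have h3 : iz A Z (S.X1 A ω) = 0 := if_neg h2
      rw [h3, sub_zero, one_mul]
      by_cases h4 : hdv (S.X1 A ω) ∈ A
      · have h5 : ¬ Z (hdv (S.X1 A ω)).1 := fun h => h2 ⟨h4, h⟩
        obtain ⟨b, c1, c2, c3, c4, c5⟩ := hfar ω hω h4 h5
        have h6 := far_Hb hQ hCe hB hE hM hZ2 hk hBk (r0 := 4 * l' - 1) (R := w / 4) (by omega)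
          (by omega) c1 c2 hψ hs2 c5 hω c3
        refine h6.trans (mul_le_mul_of_nonneg_left ?_ hK0)
        exact Real.sqrt_le_sqrt hp3
      · have h6 : EQ Q (S.rv (S.RV A ω) ω) (fun ω => |J S.D S.e0 ψ k ω|) =
            EQ Q (S.rv (S.RV A ω) ω) (fun _ => 0) := by
          refine EQ_congr fun ξ hξ => ?_
          obtain ⟨p1, p2, p3⟩ := int_path hZ2.st hω hξ
          have h7 : hdv (S.X1 A ξ) ∉ A := by
            have h8 : S.X1 A ξ = S.X1 A ω := by
              show H318.st S.e0 (S.cf ξ) (hit S.D S.e0 A (S.cf ξ)) =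
                H318.st S.e0 (S.cf ω) (hit S.D S.e0 A (S.cf ω))
              rw [p1.cf, hω.cf, p3, p2 _ le_rfl]
            rw [h8]
            exact h4
          rw [no_J hZ2 p1 (by omega) h7 (fun x hx => by
            have := hs x hx
            omega), abs_zero]
        rw [h6, EQ_const hQ]
        positivity
    calc _ ≤ EQ Q S (fun _ => K * Real.sqrt P) := EQ_mono hQ hpt
      _ = _ := EQ_const hQ _
  -- the landing point
  set W : Cfg → ℝ := fun ω => H365.NQ.wf ψ (H318.st S.e0 ω (ex S.D S.e0 ω)) with hW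
  have b3 : |EQ Q S (fun ω => I ω * ψ (hdv (S.X1 A ω)).1 - W ω)| ≤ 1 / M + 4 * P := by
    refine (EQ_abs hQ _).trans ?_
    have e2 := EQ_stop (Y := fun _ => 1) hQ hZ2.gq.good (stopSet_RV hZ2.st A) (RV_cf A)
      (fun _ _ _ _ _ => rfl) (fun ω => |I ω * ψ (hdv (S.X1 A ω)).1 - W ω|)
    simp only [one_mul] at e2
    refine e2.le.trans ?_
    have hpt : ∀ ω, Cs S ω → EQ Q (S.rv (S.RV A ω) ω)
        (fun ω => |I ω * ψ (hdv (S.X1 A ω)).1 - W ω|) ≤ 1 / M + 4 * P := by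
      intro ω hω
      have h2 := EQ_past (R := S.RV A) (Q := Q) hQ hω (Z := fun ω => S.X1 A ω)
        (fun ω' _ h' => past_X1 hZ2.st A ω ω' h')
        (fun e ω' => |iz A Z e * ψ (hdv e).1 - W ω'|)
      refine h2.le.trans ?_
      by_cases h3 : hdv (S.X1 A ω) ∈ A ∧ Z (hdv (S.X1 A ω)).1
      · have h4 : iz A Z (S.X1 A ω) = 1 := if_pos h3
        rw [h4]
        simp only [one_mul]
        have h5 : |(hdv (S.X1 A ω)).1 - u| ≤ w + w / 2 := h3.2
        obtain ⟨c1, c2⟩ := abs_le.1 h5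
        obtain ⟨a1, a2, a3, a4⟩ := h3.1
        have h6 := foot_int (a := ψ (hdv (S.X1 A ω)).1) (lam := 1 / (M : ℝ)) hQ hE hZ2
          (b := (hdv (S.X1 A ω)).1) (r0 := 4 * l' - 1) (R := r / 2 - 1) (by omega) (by omega)
          (hZ2.Hb (by omega)) (fun v hv => by
            obtain ⟨d1, d2, d3, d4⟩ := hv
            exact ⟨by omega, by omega, d3, by omega⟩)
          (fun v d1 d2 d3 d4 => hF v ⟨by omega, by omega, d3, by omega⟩) hω
          (show hdv (S.X1 A ω) ∈ HB (hdv (S.X1 A ω)).1 (4 * l' - 1) from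
            ⟨by omega, by omega, a3, by omega⟩) hψ (hψ _) hlam.le
          (fun y hy => by
            rw [abs_sub_comm]
            exact hmod _ _ (by omega))
        refine h6.trans ?_
        linarith
      · have h4 : iz A Z (S.X1 A ω) = 0 := if_neg h3
        rw [h4]
        simp only [zero_mul]
        by_cases h5 : hdv (S.X1 A ω) ∈ A
        · have h6 : ¬ Z (hdv (S.X1 A ω)).1 := fun h => h3 ⟨h5, h⟩
          obtain ⟨b, c1, c2, c3, c4, c5⟩ := hfar ω hω h5 h6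
          have h7 := foot_int (a := 0) (lam := 0) hQ hE hZ2
            (b := b) (r0 := 4 * l' - 1) (R := w / 4) (by omega) (by omega) c1 c2 c4 hω c3 hψ
            (by rw [abs_zero]; exact zero_le_one) le_rfl
            (fun y hy => by
              have := abs_le.1 hy
              rw [c5 y (by omega) (by omega), sub_self, abs_zero])
          refine h7.trans ?_
          linarith
        · have h6 : EQ Q (S.rv (S.RV A ω) ω) (fun ω => |0 - W ω|) =
            EQ Q (S.rv (S.RV A ω) ω) (fun _ => 0) := by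
            refine EQ_congr fun ξ hξ => ?_
            obtain ⟨p1, p2, p3⟩ := int_path hZ2.st hω hξ
            have h7 : hdv (S.X1 A ξ) ∉ A := by
              have h8 : S.X1 A ξ = S.X1 A ω := by
                show H318.st S.e0 (S.cf ξ) (hit S.D S.e0 A (S.cf ξ)) =
                  H318.st S.e0 (S.cf ω) (hit S.D S.e0 A (S.cf ω))
                rw [p1.cf, hω.cf, p3, p2 _ le_rfl]
              rw [h8]
              exact h5
            have h9 : W ξ = 0 := no_foot hZ2 p1 h7 (fun x hx => by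
              have := hs x hx
              omega)
            rw [h9, sub_zero, abs_zero]
          rw [h6, EQ_const hQ]
          positivity
    calc _ ≤ EQ Q S (fun _ => 1 / (M : ℝ) + 4 * P) := EQ_mono hQ hpt
      _ = _ := EQ_const hQ _
  -- the sum
  have e1 : EQ Q S (J S.D S.e0 ψ k) - g * EQ Q S W =
      EQ Q S (fun ω => I ω * (J S.D S.e0 ψ k ω - g * ψ (hdv (S.X1 A ω)).1)) +
      EQ Q S (fun ω => (1 - I ω) * J S.D S.e0 ψ k ω) +
      g * EQ Q S (fun ω => I ω * ψ (hdv (S.X1 A ω)).1 - W ω) := by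
    rw [← EQ_mul, ← EQ_mul, ← EQ_sub, ← EQ_add, ← EQ_add]
    refine EQ_congr fun ω _ => ?_
    ring
  rw [e1]
  refine (abs_add_le _ _).trans ((add_le_add (abs_add_le _ _) le_rfl).trans ?_)
  rw [abs_mul]
  calc _ ≤ (ε * k + K * (1 / M + Real.sqrt P)) + K * Real.sqrt P + |g| * (1 / M + 4 * P) :=
        add_le_add (add_le_add b1 b2) (mul_le_mul_of_nonneg_left b3 (abs_nonneg _))
    _ = _ := by ring

/-- the last error -/
noncomputable def Er2 (K0 Ce α x : ℝ) : ℝ :=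
  K0 * (1 / x + 2 * Real.sqrt (Ce * (32 / x) ^ α)) + 3 * K0 * (1 / x + 4 * (Ce * (32 / x) ^ α))

theorem tendsto_Er2 (K0 Ce : ℝ) {α : ℝ} (hα : 0 < α) : Tendsto (Er2 K0 Ce α) atTop (𝓝 0) := by
  have a0 : Tendsto (fun x : ℝ => 1 / x) atTop (𝓝 0) := tendsto_const_nhds.div_atTop tendsto_id
  have a2 := tendsto_P (Ce := Ce) hα
  have a3 := ((Real.continuous_sqrt.tendsto 0).comp a2).const_mul 2
  have a5 := ((a0.add a3).const_mul K0).add ((a0.add (a2.const_mul 4)).const_mul (3 * K0))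
  simp only [Real.sqrt_zero, mul_zero, add_zero] at a5
  exact a5

/-- the state of `SYMQ` satisfies the hypotheses on the zone -/
theorem zone_of {v : ℤ} (hok : S.Ok) (hG : Good S.z)
    (hF : ∀ v, v ∈ S.F ↔ v ∈ Lo u (4 * w) (4 * w + 1))
    (hn : ∀ v : ℤ × ℤ, nm (v - (u, 0)) ≤ 4 * w → v.2 < 0 → v ∉ S.D ∧ S.z v = false)
    (he : ∀ x, u - 4 * w ≤ x → x ≤ u + 4 * w → S.e0 ≠ Sum.inr (x, -1)) (hv : v + 1 ≤ 4 * w)
    (h1 : 1 ≤ l') (h4 : 4 * l' ≤ v) : Zone S u v l' := by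
  have hn' : ∀ q : ℤ × ℤ, u - v - 1 ≤ q.1 → q.1 ≤ u + v + 1 → -v - 1 ≤ q.2 → q.2 < 0 →
      q ∉ S.D ∧ S.z q = false := by
    intro q a1 a2 a3 a4
    refine hn q ?_ a4
    unfold nm
    refine max_le (abs_le.2 ?_) (abs_le.2 ?_)
    · show -(4 * w) ≤ q.1 - u ∧ q.1 - u ≤ 4 * w
      omega
    · show -(4 * w) ≤ q.2 - 0 ∧ q.2 - 0 ≤ 4 * w
      omega
  exact
    { toOk := hok
      gq := ⟨hG, fun q a1 a2 a3 a4 =>
        ⟨fun h => (hn' q a1 a2 a3 a4).1 (hok.sub h), (hn' q a1 a2 a3 a4).2⟩,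
        fun y a1 a2 => he y (by omega) (by omega)⟩
      flat := ⟨fun q hq => hok.sub ((hF q).2 ⟨by have := hq.1; omega, by have := hq.2.1; omega,
        hq.2.2.1, by have := hq.2.2.2; omega⟩), fun x a1 a2 => (hn' (x, -1) (by dsimp only; omega)
          (by dsimp only; omega) (by dsimp only; omega) (by dsimp only; omega)).1⟩
      fr := fun q hq => (hF q).2 ⟨by have := hq.1; omega, by have := hq.2.1; omega,
        hq.2.2.1, by have := hq.2.2.2; omega⟩
      po := fun q hq => Or.inl ((hF q).2 ⟨by have := hq.1; omega, by have := hq.2.1; omega,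
        hq.2.2.1, by have := hq.2.2.2; omega⟩)
      l1 := h1
      lw := h4 }

/-- **Q-NSYM-REC**: the displacement of a strand which comes from far away is a universal multiple of
the weight of its landing point -/
theorem symq (hQ : 0 < Q) (hS : SUCCA Q) (hE' : ESCQ Q) (hM' : SMQ Q) : SYMQ Q := by
  obtain ⟨Ce, α, hCe, hα, hE⟩ := hE'
  obtain ⟨Cs', B, hCs, hB, hM⟩ := hM'
  have hE : EscB Q Ce α := hE
  have hM : SmB Q Cs' B := hM
  set K0 := (Cs' + 1) / 2 with hK0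
  have hK0p : 0 < K0 := by positivity
  refine ⟨3 * K0, fun ε hε => ?_⟩
  obtain ⟨M0, hM0⟩ := exists_int (tendsto_Er2 K0 Ce hα) (δ := ε / 2) (by positivity)
  obtain ⟨M, Λ, h1, h2, h3, h4⟩ := univ hQ hS hCe hα hCs hB hE hM (half_pos hε) M0
  refine ⟨8 * M * (M * Λ), fun k w hk hw => ?_⟩
  obtain ⟨g, hg, hg'⟩ := h4 k hk
  refine ⟨g, hg, fun u S ψ hk hw hok hG hF hn he hψ hL hs => ?_⟩
  have hk1 : (1 : ℤ) ≤ k := by exact_mod_cast hk
  have hΛ1 : 1 ≤ Λ := by omega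
  have hl1 : 1 ≤ Λ * k := by nlinarith
  have hMl : 32 * (Λ * k) ≤ M * (Λ * k) := by nlinarith
  have hw' : 8 * M * (M * (Λ * k)) ≤ w := by
    calc _ = 8 * M * (M * Λ) * k := by ring
      _ ≤ w := hw
  have hw2 : 256 * (M * (Λ * k)) ≤ w := by
    refine le_trans ?_ hw'
    have : 0 ≤ M * (Λ * k) := by omega
    nlinarith
  have hBk : B * k ≤ 4 * (Λ * k) := by nlinarith
  have hkR : (0 : ℝ) ≤ k := by positivity
  have key := land hQ hCe hα hCs hB hE hM h2 hk hl1 hBk hw'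
    (zone_of hok hG hF hn he (by omega) hl1 (by omega))
    (zone_of hok hG hF hn he (by omega) hl1 (by omega))
    (fun v hv => hok.sub ((hF v).2 hv)) hψ hL hs (half_pos hε).le hg'
  have hMR : (0 : ℝ) < M := by exact_mod_cast (by omega : 0 < M)
  set P := Ce * (32 / (M : ℝ)) ^ α with hP
  have hP0 : 0 < P := by positivity
  have h5 : |g| * (1 / M + 4 * P) ≤ 3 * K0 * k * (1 / M + 4 * P) :=
    mul_le_mul_of_nonneg_right hg (by positivity)
  have h6 := hM0 M h1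
  have h7 : Er2 K0 Ce α M = K0 * (1 / M + 2 * Real.sqrt P) + 3 * K0 * (1 / M + 4 * P) := rfl
  rw [h7] at h6
  refine key.trans ?_
  calc _ ≤ ε / 2 * k + K0 * k * (1 / M + 2 * Real.sqrt P) + 3 * K0 * k * (1 / M + 4 * P) :=
        add_le_add le_rfl h5
    _ = ε / 2 * k + (K0 * (1 / M + 2 * Real.sqrt P) + 3 * K0 * (1 / M + 4 * P)) * k := by ring
    _ ≤ ε / 2 * k + ε / 2 * k := add_le_add le_rfl (mul_le_mul_of_nonneg_right h6 hkR)
    _ = ε * k := by ring

end Vale.Agent.P167.H685.Q
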