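import Vale.Agent.P167.H685.Q.Det4
import Vale.Agent.P167.H685.Q.Rec9
import Vale.Agent.P167.H632.Q.SMQ
import Vale.Agent.P167.H318.Q.SuccA
import Vale.Agent.P167.H166Q.Tail
import Vale.Agent.P167.H950.Q.Hit
import Vale.Agent.P167.H704.Q.MassB
import Vale.Agent.P167.H704.Q.Minor

/-!
# P167, general `q`, block Q-NSYM: universality of the displacement, from RSW and strong RSW
-/

namespace Vale.Agent.P167.H685.Q

open Vale.Agent.P167 Vale.Agent.P167.FK Vale.Agent.P167.FKA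

/-- **`SYMQ` for every `Q ≥ 1` with RSW and strong RSW** -/
theorem symq_all {Q : ℝ} (hQ : 1 ≤ Q) (hR : RSW Q) (hS : H192.Q.SRSW Q) : H365.NQ.SYMQ Q := by
  have hQ0 : 0 < Q := by linarith
  have hE := H632Q.escq hQ hS
  exact symq hQ0 (H318.UQ.succa hQ0 (H704.Q.minor' hQ hR)
    (H704.Q.gref' hQ hR (H950.Q.hit_q hQ hR) (H166Q.tail hQ hR hS hE) Det.det)) hE
    (H632Q.smq hQ hE)

end Vale.Agent.P167.H685.Q
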