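import Vale.Agent.P167.H166Q.GDefs
import Vale.Agent.P167.H192.Q.ArcP
import Vale.Agent.P167.H704.Q.MinA

/-!
# P167, general `q`, block Q-NSYM, GREF: arcs, potential and crossings (deterministic)
-/

namespace Vale.Agent.P167.H685.Q.Det

open Finset Vale.Agent.P145.FB Vale.Agent.P153 Vale.Agent.P153.Topo Vale.Agent.P167
  Vale.Agent.P167.H632 Vale.Agent.P167.H871 Vale.Agent.P167.H704 Vale.Agent.P167.FK
  Vale.Agent.P167.FKA Vale.Agent.P167.H704.Q
open Vale.Agent.P167.H318 (St TB Lo Pt0 Cl0 FlatAt st hs_notF hit ex Visit st_m rv_m RV_notMem)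
open Vale.Agent.P167.H318.UQ (Rc mem_Rc Oc Dc Cq Aq Gt Te Tw ArE ArW An LB RB)
open Vale.Agent.P167.H192.ArcP (Tp side_vals bot_east bot_west)
open Vale.Agent.P167.H685.Q (TC hbF mem_hbF)
open Relation

variable {S : St} {y n ρ r R : ℤ} {u : Pt → ℤ} {b : Bool} {ξ : Cfg} {s t p : Pt}

/-! ### values of the potential -/

theorem tp_of (h : TC S n y ρ) (hn : 1 ≤ n) (hρ : 0 ≤ ρ) : Tp S y (4 * n) where
  ok := h.toOk
  hh := by omega
  htip := by
    rw [h.tip]
    simp [hdv, h.ev]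
  cl := fun j h1 h2 => h.fresh _ ⟨by dsimp only; omega, by dsimp only; omega, h1, by dsimp only; omega⟩
  hx := h.flat.not y (by omega) (by omega)
  ne := h.gq.ne y (by omega) (by omega)

theorem flat_low (h : TC S n y ρ) (hn : 1 ≤ n) (hu : Pt0 S y (4 * n) u) {v : Pt} (h1 : v.1 ≠ y)
    (h2 : y - ρ ≤ v.1) (h3 : v.1 ≤ y + ρ) (h4 : 0 ≤ v.2) (h5 : v.2 ≤ 4 * n - 1) : FlatAt u v := by
  have hρ : 0 ≤ ρ := by omega
  have hLo : v ∈ Lo y ρ (4 * n) := ⟨h2, h3, h4, by omega⟩
  exact hu.flat h.toOk (by omega) (tp_of h hn hρ).htip (h.flat.mem _ hLo)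
    (fun h6 => (hs_notF h6).1 (h.fresh _ hLo)) fun h6 => h1 h6.1

/-- values in the east -/
theorem val_east (h : TC S n y ρ) (hn : 1 ≤ n) (hu : Pt0 S y (4 * n) u) {a : Pt} (h1 : y + 1 ≤ a.1)
    (h2 : a.1 ≤ y + ρ) (h3 : 0 ≤ a.2) (h4 : a.2 ≤ 4 * n) : u a = u (ls S.tip) := by
  have hρ : 0 ≤ ρ := by omega
  have hb := bot_east (tp_of h hn hρ) hu (c := y + ρ) (fun c h5 h6 =>
    ⟨h.flat.mem _ ⟨by dsimp only; omega, by dsimp only; omega, le_rfl, by dsimp only; omega⟩,
      h.flat.not c (by omega) (by omega), h.gq.ne c (by omega) (by omega)⟩) (a := a.1) (by omega) h2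
  have key : ∀ k : ℕ, (k : ℤ) ≤ 4 * n → u (a.1, (k : ℤ)) = u (a.1, 0) := by
    intro k
    induction k with
    | zero => intro _; rfl
    | succ k ih =>
      intro hk
      have h5 := flat_low h hn hu (v := (a.1, (k : ℤ))) (by dsimp only; omega)
        (by dsimp only; omega) (by dsimp only; omega) (by dsimp only; omega)
        (by dsimp only; push_cast at hk; omega)
      rw [← ih (by push_cast at hk; omega), ← h5.2.1]
      push_cast
      rfl
  have := key a.2.toNat (by omega)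
  rw [Int.toNat_of_nonneg h3] at this
  rw [← hb, ← this]

/-- values in the west -/
theorem val_west (h : TC S n y ρ) (hn : 1 ≤ n) (hu : Pt0 S y (4 * n) u) {a : Pt}
    (h1 : y - ρ + 1 ≤ a.1) (h2 : a.1 ≤ y) (h3 : 0 ≤ a.2) (h4 : a.2 ≤ 4 * n) :
    u a = u (rs S.tip) := by
  have hρ : 0 ≤ ρ := by omega
  have hb := bot_west (tp_of h hn hρ) hu (c := y - ρ) (fun c h5 h6 =>
    ⟨h.flat.mem _ ⟨by dsimp only; omega, by dsimp only; omega, le_rfl, by dsimp only; omega⟩,
      h.flat.not c (by omega) (by omega), h.gq.ne c (by omega) (by omega)⟩) (a := a.1) h2 (by omega)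
  have key : ∀ k : ℕ, (k : ℤ) ≤ 4 * n → u (a.1, (k : ℤ)) = u (a.1, 0) := by
    intro k
    induction k with
    | zero => intro _; rfl
    | succ k ih =>
      intro hk
      have h5 := flat_low h hn hu (v := (a.1 - 1, (k : ℤ))) (by dsimp only; omega)
        (by dsimp only; omega) (by dsimp only; omega) (by dsimp only; omega)
        (by dsimp only; push_cast at hk; omega)
      have h6 := h5.1
      have h7 := h5.2.2
      dsimp only at h6 h7
      rw [sub_add_cancel] at h6 h7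
      rw [← ih (by push_cast at hk; omega), h6, ← h7]
      push_cast
      rfl
  have := key a.2.toNat (by omega)
  rw [Int.toNat_of_nonneg h3] at this
  rw [← hb, ← this]

theorem mem_An {v : Pt} : v ∈ An y r R ↔ v ∈ H318.HB y R ∧ v ∉ H318.HB y r := by
  unfold An
  rw [Finset.mem_sdiff, mem_hbF, mem_hbF]

/-- the potential is constant along the arcs -/
theorem arc_const (h : TC S n y ρ) (hn : 1 ≤ n) (hu : Pt0 S y (4 * n) u) (hr : 4 * n ≤ r + 1)
    {G Rg : Set Pt} (hG : G ⊆ ↑(S.F ∩ An y r R)) (hst : PConn G Rg s t) : u t = u s := by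
  obtain ⟨-, h1⟩ := hst
  induction h1 with
  | refl => rfl
  | @tail a c _ hac ih =>
    obtain ⟨v, hv, hst, -⟩ := H318.pstep_sq hac.1
    have h2 := Finset.mem_inter.1 (Finset.mem_coe.1 (hG hv))
    have h3 := mem_An.1 h2.2
    have h4 : FlatAt u v := by
      refine hu.flat h.toOk (by omega) ?_ (h.sub h2.1) (fun h6 => (hs_notF h6).1 h2.1) fun h6 => ?_
      · rw [h.tip]
        simp [hdv, h.ev]
      · have h7 := h3.1.2.2.1
        obtain ⟨c1, c2, c3⟩ := h6
        exact h3.2 ⟨by omega, by omega, h7, by omega⟩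
    rw [← ih, h4.step hst]

/-! ### paths -/

/-- squares of a path at height at least `m` -/
theorem up_path {G Rg : Set Pt} {m : ℤ} (h : PConn G (Rg ∩ {w | m ≤ w.2}) s t) :
    PConn (G ∩ {v | m ≤ v.2}) Set.univ s t := by
  obtain ⟨h0, h1⟩ := h
  induction h1 with
  | refl => exact PConn.refl (Set.mem_univ _)
  | @tail a c ha hac ih =>
    have ham : a ∈ Rg ∩ {w : Pt | m ≤ w.2} := (show PConn G _ s a from ⟨h0, ha⟩).right_mem
    have h2 := ham.2
    have h3 := hac.2.2
    simp only [Set.mem_ofPred_eq] at h2 h3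
    refine ih.tail ⟨hac.1.1, hac.1.2.1, hac.1.2.2, ?_⟩ (Set.mem_univ _)
    exact le_min h2 h3

/-- the sites of colour `b` of a strand are joined by the squares which it visits -/
theorem strand_path {A : Finset Pt} {g : Ed} {N : ℕ} (h : ∀ k < N, hdv (st g ξ k) ∈ A) :
    PConn (cs b ξ ∩ ↑A) Set.univ (bk b g) (bk b (st g ξ N)) := by
  induction N with
  | zero => exact PConn.refl (Set.mem_univ _)
  | succ N ih =>
    have h1 := ih fun k hk => h k (by omega)
    have h3 := h N (by omega)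
    obtain ⟨n1, n2⟩ := H166.nx_step ξ (st g ξ N)
    rw [H318.Bs.st_succ]
    rcases hb : ξ (hdv (st g ξ N)) with _ | _
    · cases b
      · obtain ⟨s1, s2, s3⟩ := (n2 hb).2
        refine h1.tail ⟨s1, s2, ?_⟩ (Set.mem_univ _)
        show (min (rs (st g ξ N)).1 (rs (nx ξ (st g ξ N))).1,
          min (rs (st g ξ N)).2 (rs (nx ξ (st g ξ N))).2) ∈ _
        rw [Set.mem_singleton_iff.1 s3]
        exact ⟨hb, h3⟩
      · show PConn _ _ _ (ls (nx ξ (st g ξ N)))
        rw [(n2 hb).1]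
        exact h1
    · cases b
      · show PConn _ _ _ (rs (nx ξ (st g ξ N)))
        rw [(n1 hb).2]
        exact h1
      · obtain ⟨s1, s2, s3⟩ := (n1 hb).1
        refine h1.tail ⟨s1, s2, ?_⟩ (Set.mem_univ _)
        show (min (ls (st g ξ N)).1 (ls (nx ξ (st g ξ N))).1,
          min (ls (st g ξ N)).2 (ls (nx ξ (st g ξ N))).2) ∈ _
        rw [Set.mem_singleton_iff.1 s3]
        exact ⟨hb, h3⟩

/-- the bank sites are corners of the square ahead -/
theorem cor_bk (b : Bool) (e : Ed) : Cor (hdv e) (bk b e) := by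
  unfold Cor bk
  rcases e with ⟨i, j⟩ | ⟨i, j⟩ <;> by_cases hp : Even (i + j) <;> cases b <;>
    simp [hdv, ls, rs, hp]

end Vale.Agent.P167.H685.Q.Det
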