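import Vale.Agent.P167.H685.Q.Det1

/-!
# P167, general `q`, block Q-NSYM, GREF: the arms of the gate (deterministic)
-/

namespace Vale.Agent.P167.H685.Q.Det

open Finset Vale.Agent.P145.FB Vale.Agent.P153 Vale.Agent.P153.Topo Vale.Agent.P167
  Vale.Agent.P167.H632 Vale.Agent.P167.H871 Vale.Agent.P167.H704 Vale.Agent.P167.FK
  Vale.Agent.P167.FKA Vale.Agent.P167.H704.Q
open Vale.Agent.P167.H318 (St TB Lo Pt0 Cl0 FlatAt st hs_notF hit ex Visit st_m rv_m RV_notMem)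
open Vale.Agent.P167.H318.UQ (Rc mem_Rc Oc Dc Cq Aq Gt Te Tw ArE ArW An LB RB)
open Vale.Agent.P167.H192.ArcP (Tp side_vals bot_east bot_west past')
open Vale.Agent.P167.H685.Q (TC hbF mem_hbF)
open Relation

variable {S : St} {x y n ρ r R K3 K : ℤ} {u : Pt → ℤ} {b : Bool} {ξ : Cfg} {s t p : Pt} {e : Ed}

/-- left end of the side of colour `b` -/
def al (b : Bool) (y r R : ℤ) : ℤ := if b then y + r + 1 else y - R

/-- right end of the side of colour `b` -/
def be (b : Bool) (y r R : ℤ) : ℤ := if b then y + R + 1 else y - r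

/-- an arc of colour `b` from the bank to the side, in the half annulus -/
def ArcW (b : Bool) (S : St) (y r R : ℤ) (ξ : Cfg) : Prop := ∃ s p : Pt,
  (∃ i ≤ S.m, bk b (st S.e0 S.z i) = s) ∧ p.2 = 0 ∧ al b y r R ≤ p.1 ∧ p.1 ≤ be b y r R ∧
    PConn (cs b ξ ∩ ↑(S.F ∩ An y r R)) Set.univ s p

/-- the window -/
def Wn (y R : ℤ) : Set Pt := {w | y - R ≤ w.1 ∧ w.1 ≤ y + R + 1 ∧ 0 ≤ w.2 ∧ w.2 ≤ R + 1}

theorem arc_win (hr : 0 ≤ r) (hR : 0 ≤ R) (hp : p.2 = 0) (h1 : al b y r R ≤ p.1)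
    (h2 : p.1 ≤ be b y r R) (h : PConn (cs b ξ ∩ ↑(S.F ∩ An y r R)) Set.univ s p) :
    PConn (cs b ξ ∩ ↑(S.F ∩ An y r R)) (Wn y R) s p := by
  refine (path_rg (R := Wn y R) ?_ (fun v hv c hc => ?_) h.symm).symm
  · unfold al at h1
    unfold be at h2
    refine ⟨?_, ?_, ?_, ?_⟩ <;> split_ifs at h1 h2 <;> omega
  · have h3 := (mem_An.1 (Finset.mem_inter.1 (Finset.mem_coe.1 hv.2)).2).1
    obtain ⟨c1, c2⟩ := hc
    obtain ⟨a1, a2, a3, a4⟩ := h3
    exact ⟨by omega, by omega, by omega, by omega⟩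

/-- **the part of the arc in the strip** -/
theorem arc_mid (h : TC S n y ρ) (hn : 1 ≤ n) (hu : Pt0 S y (4 * n) u) (hr : 4 * n ≤ r)
    (hrR : r ≤ R) (hR : R + 1 ≤ ρ) (hs : u s = u (bk b S.tip)) (hs2 : 2 * n ≤ s.2) (hp : p.2 = 0)
    (hP : PConn (cs b ξ ∩ ↑(S.F ∩ An y r R)) (Wn y R) s p) :
    ∃ z z' : Pt, z.2 = n ∧ z'.2 = 2 * n ∧
      PConn (cs b ξ ∩ ↑(S.F ∩ An y r R)) (Rect (al b y r R) (be b y r R) n (2 * n)) z z' ∧
      PConn (cs b ξ ∩ ↑(S.F ∩ An y r R) ∩ {v | n ≤ v.2}) Set.univ z' s := by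
  set G := cs b ξ ∩ (↑(S.F ∩ An y r R) : Set Pt) with hG
  have hGA : G ⊆ ↑(S.F ∩ An y r R) := Set.inter_subset_right
  have hjump : u (ls S.tip) = u (rs S.tip) + 1 := past' (tp_of h hn (by omega)) hu S.m le_rfl
  -- first time at height `n`
  obtain ⟨t, ht, h1, -⟩ := pconn_cut_first (fun w : Pt => -w.2) (fun a c hac => by
    have := hac.2.1
    omega) hP (R := -n) (by omega) (by omega)
  obtain ⟨z, z', hz, hz', -, h3, h4⟩ := cut2 (fun w : Pt => w.2) row_inc (show n ≤ 2 * n by omega)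
    h1.symm (by omega) hs2
  refine ⟨z, z', hz, hz', ?_, ?_⟩
  · -- potential
    have huz : ∀ w : Pt, ∀ Rg, PConn G Rg s w → u w = u (bk b S.tip) := fun w Rg hw => by
      rw [arc_const h hn hu (by omega) hGA hw, hs]
    have hzs : u z = u (bk b S.tip) := by
      have h5 : PConn G Set.univ s z :=
        ((h3.mono subset_rfl (Set.subset_univ _)).trans (h4.mono subset_rfl (Set.subset_univ _))).symm
      exact huz z _ h5
    have hnz : z ≠ z' := by
      rintro rfl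
      omega
    have key : ∀ a : Pt, PConn G (Wn y R ∩ {w | n ≤ w.2 ∧ w.2 ≤ 2 * n}) z a →
        a = z ∨ PConn G (Rect (al b y r R) (be b y r R) n (2 * n)) z a := by
      intro a ha
      obtain ⟨h0, ha⟩ := ha
      induction ha with
      | refl => exact Or.inl rfl
      | @tail a c ha hac ih =>
        have hza : PConn G (Wn y R ∩ {w : Pt | n ≤ w.2 ∧ w.2 ≤ 2 * n}) z a := ⟨h0, ha⟩
        have ham := hza.right_mem
        have hcm := hac.2
        have ua : u a = u (bk b S.tip) := by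
          rw [arc_const h hn hu (by omega) hGA hza, hzs]
        have uc : u c = u (bk b S.tip) := by
          rw [arc_const h hn hu (by omega) hGA (hza.tail hac.1 hcm), hzs]
        obtain ⟨v, hv, hvs, hve⟩ := H318.pstep_sq hac.1
        have hvA := mem_An.1 (Finset.mem_inter.1 (Finset.mem_coe.1 (hGA hv))).2
        obtain ⟨⟨w1, w2, w3, w4⟩, w5, w6⟩ := ham
        obtain ⟨⟨c1, c2, c3, c4⟩, c5, c6⟩ := hcm
        have hst1 := hac.1.1
        have hst2 := hac.1.2.1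
        have hv1 : v.1 = min a.1 c.1 := by rw [hve]
        have hv2 : v.2 = min a.2 c.2 := by rw [hve]
        have hside : al b y r R ≤ a.1 ∧ a.1 ≤ be b y r R ∧ al b y r R ≤ c.1 ∧ c.1 ≤ be b y r R := by
          have hout : ¬ (y - r ≤ v.1 ∧ v.1 ≤ y + r) := fun h5 =>
            hvA.2 ⟨h5.1, h5.2, by omega, by omega⟩
          cases b
          · -- west
            have e1 : ∀ w : Pt, w.1 ≤ y + R + 1 → 0 ≤ w.2 → w.2 ≤ 2 * n → u w = u (rs S.tip) →
                w.1 ≤ y := by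
              intro w k1 k2 k3 k4
              by_contra hcon
              have := val_east h hn hu (a := w) (by omega) (by omega) k2 (by omega)
              omega
            have k1 := e1 a w2 w3 w6 ua
            have k2 := e1 c c2 c3 c6 uc
            simp only [al, be, Bool.false_eq_true, if_false]
            omega
          · have e1 : ∀ w : Pt, y - R ≤ w.1 → 0 ≤ w.2 → w.2 ≤ 2 * n → u w = u (ls S.tip) →
                y + 1 ≤ w.1 := by
              intro w k1 k2 k3 k4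
              by_contra hcon
              have := val_west h hn hu (a := w) (by omega) (by omega) k2 (by omega)
              omega
            have k1 := e1 a w1 w3 w6 ua
            have k2 := e1 c c1 c3 c6 uc
            simp only [al, be, if_true]
            omega
        obtain ⟨s1, s2, s3, s4⟩ := hside
        have hcR : c ∈ Rect (al b y r R) (be b y r R) n (2 * n) := ⟨s3, s4, c5, c6⟩
        have haR : a ∈ Rect (al b y r R) (be b y r R) n (2 * n) := ⟨s1, s2, w5, w6⟩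
        rcases ih with h5 | h5
        · subst h5
          exact Or.inr ((PConn.refl haR).tail hac.1 hcR)
        · exact Or.inr (h5.tail hac.1 hcR)
    have h3' : PConn G (Wn y R ∩ {w | n ≤ w.2 ∧ w.2 ≤ 2 * n}) z z' := by
      refine h3.mono subset_rfl ?_
      rintro w ⟨⟨hw1, hw2⟩, hw3⟩
      exact ⟨hw1, hw3⟩
    rcases key z' h3' with h5 | h5
    · exact absurd h5.symm hnz
    · exact h5
  · have h5 : PConn G (Wn y R ∩ {w : Pt | n ≤ w.2}) z' s := by
      refine h4.mono subset_rfl ?_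
      rintro w ⟨hw1, hw2⟩
      refine ⟨hw1, ?_⟩
      simp only [Set.mem_ofPred_eq] at hw2 ⊢
      omega
    exact up_path h5

/-- left end of the crossing -/
def aH (b : Bool) (x n K3 K : ℤ) : ℤ := if b then x + (K3 + 3) * n else x - 2 * (K * n)

/-- right end of the crossing -/
def bH (b : Bool) (x n K3 K : ℤ) : ℤ := if b then x + 2 * (K * n) else x - (K3 + 3) * n

/-- the tube -/
noncomputable def Tb (b : Bool) (K x n : ℤ) : Finset Pt := if b then Te K x n else Tw K x n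

/-- the far end -/
def fe' (b : Bool) (x n K : ℤ) : ℤ := if b then x + 2 * (K * n) else x - 2 * (K * n)

theorem mem_Aq {v : Pt} : v ∈ Aq K3 K x n ↔ (x - K * n ≤ v.1 ∧ v.1 ≤ x + K * n ∧ 0 ≤ v.2 ∧
    v.2 ≤ K * n) ∧ ¬ (x - K3 * n ≤ v.1 ∧ v.1 ≤ x + K3 * n ∧ 0 ≤ v.2 ∧ v.2 ≤ 4 * n - 1) := by
  unfold Aq Cq
  rw [Finset.mem_sdiff, mem_hbF, mem_Rc]
  constructor
  · rintro ⟨⟨h1, h2, h3, h4⟩, h5⟩
    exact ⟨⟨h1, h2, h3, h4⟩, fun h6 => h5 ⟨⟨h6.1, h6.2.1⟩, h6.2.2⟩⟩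
  · rintro ⟨⟨h1, h2, h3, h4⟩, h5⟩
    exact ⟨⟨h1, h2, h3, h4⟩, fun h6 => h5 ⟨h6.1.1, h6.1.2, h6.2⟩⟩

theorem mem_Tb {v : Pt} : v ∈ Tb b K x n ↔
    (if b then x + K * n + 1 else x - 2 * (K * n)) ≤ v.1 ∧
    v.1 ≤ (if b then x + 2 * (K * n) else x - K * n - 1) ∧ n ≤ v.2 ∧ v.2 ≤ 2 * n - 1 := by
  unfold Tb Te Tw
  cases b <;> simp only [Bool.false_eq_true, if_false, if_true, mem_Rc] <;> tauto

/-- **the gate arc and the arm of colour `b`** -/
theorem arms (h : TC S n y ρ) (hn : 1 ≤ n) (hx : |y - x| ≤ 2 * n) (hK3 : 0 ≤ K3)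
    (hr : (K3 + 8) * n ≤ r) (hrR : r ≤ R) (hRK : R + 3 * n ≤ K * n) (hρ : 3 * (K * n) ≤ ρ)
    (hbank : ∀ s : Pt, (∃ i ≤ S.m, bk b (st S.e0 S.z i) = s) → s ∈ Wn y R →
      4 * n ≤ s.2 ∧ PConn (cs b ξ ∩ ↑(hbF x (K * n)) ∩ {v | 4 * n ≤ v.2}) Set.univ (bk b e) s)
    (hA : ArcW b S y r R ξ) (hH : ξ ∈ Hc b (aH b x n K3 K) (bH b x n K3 K) n (2 * n)) :
    (∃ p : Pt, p.2 = 0 ∧ al b y r R ≤ p.1 ∧ p.1 ≤ be b y r R ∧
      PConn (cs b ξ ∩ ↑(Aq K3 K x n)) Set.univ (bk b e) p) ∧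
    ∃ t : Pt, t.1 = fe' b x n K ∧
      PConn (cs b ξ ∩ ↑((Aq K3 K x n ∪ Tb b K x n).filter fun v => n ≤ v.2)) Set.univ (bk b e) t := by
  have hx' := abs_le.1 hx
  have hKn : 0 ≤ K * n := by nlinarith
  have hK3n : 0 ≤ K3 * n := by positivity
  have h8 : (K3 + 8) * n = K3 * n + 8 * n := by ring
  have h3' : (K3 + 3) * n = K3 * n + 3 * n := by ring
  obtain ⟨s, p, hsb, hp, hp1, hp2, hP⟩ := hA
  have hP' := arc_win (r := r) (R := R) (by omega) (by omega) hp hp1 hp2 hP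
  have hsW := hP'.left_mem
  obtain ⟨hs4, hsp⟩ := hbank s hsb hsW
  obtain ⟨u, hu⟩ := H318.exists_pt0 (S := S) h.toOk (show (1 : ℤ) ≤ 4 * n by omega) (by
    rw [h.tip]
    simp [hdv, h.ev]) (h.flat.not y (by omega) (by omega))
  have hus : u s = u (bk b S.tip) := by
    obtain ⟨i, hi, rfl⟩ := hsb
    have h1 := H318.Pt0.chain (past' (tp_of h hn (by omega)) hu) i hi
    cases b
    · exact h1.2
    · exact h1.1
  have hAnAq : ∀ v : Pt, v ∈ An y r R → v ∈ Aq K3 K x n := by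
    intro v hv
    obtain ⟨⟨a1, a2, a3, a4⟩, a5⟩ := mem_An.1 hv
    refine mem_Aq.2 ⟨⟨by omega, by omega, a3, by omega⟩, fun h6 => a5 ?_⟩
    exact ⟨by omega, by omega, a3, by omega⟩
  have hstr : ∀ v : Pt, v ∈ hbF x (K * n) → 4 * n ≤ v.2 → v ∈ Aq K3 K x n := by
    intro v hv h1
    obtain ⟨a1, a2, a3, a4⟩ := mem_hbF.1 hv
    exact mem_Aq.2 ⟨⟨a1, a2, a3, a4⟩, fun h6 => by omega⟩
  constructor
  · refine ⟨p, hp, hp1, hp2, ?_⟩
    refine (hsp.mono ?_ subset_rfl).trans (hP.mono ?_ subset_rfl)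
    · rintro v ⟨⟨hv1, hv2⟩, hv3⟩
      exact ⟨hv1, Finset.mem_coe.2 (hstr v (Finset.mem_coe.1 hv2) hv3)⟩
    · rintro v ⟨hv1, hv2⟩
      exact ⟨hv1, Finset.mem_coe.2 (hAnAq v (Finset.mem_inter.1 (Finset.mem_coe.1 hv2)).2)⟩
  · obtain ⟨z, z', hz, hz', hzz, hzs⟩ := arc_mid h hn hu (by omega) hrR (by omega) hus (by omega)
      hp hP'
    obtain ⟨w, w', hw, hw', hwp, hww⟩ := hH
    have hpar : (z.1 + z.2) % 2 = pr b := by
      have h1 := hzz.parity
      have h2 := hzs.parity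
      have h3 : (s.1 + s.2) % 2 = pr b := by
        obtain ⟨i, hi, rfl⟩ := hsb
        exact bk_par b _
      omega
    have hab : al b y r R ≤ be b y r R := by
      unfold al be
      split_ifs <;> omega
    obtain ⟨q, hq1, hq2⟩ := meet (F := cs b ξ) (hzz.mono Set.inter_subset_left subset_rfl)
      (c := n) (d := 2 * n) hz.le hz'.ge hpar hww (by
        rw [hw]
        unfold al aH
        split_ifs <;> omega) (by
        rw [hw']
        unfold be bH
        split_ifs <;> omega) hwp hab (by omega)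
    set V := (Aq K3 K x n ∪ Tb b K x n).filter fun v => n ≤ v.2 with hV
    have hVA : ∀ v : Pt, v ∈ Aq K3 K x n → n ≤ v.2 → v ∈ V := fun v h1 h2 =>
      Finset.mem_filter.2 ⟨Finset.mem_union_left _ h1, h2⟩
    -- the pieces
    have f1 : PConn (cs b ξ ∩ ↑V) Set.univ (bk b e) s := by
      refine hsp.mono ?_ subset_rfl
      rintro v ⟨⟨hv1, hv2⟩, hv3⟩
      have hv3' : 4 * n ≤ v.2 := hv3
      exact ⟨hv1, Finset.mem_coe.2 (hVA v (hstr v (Finset.mem_coe.1 hv2) hv3) (by omega))⟩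
    have f2 : PConn (cs b ξ ∩ ↑V) Set.univ z' s := by
      refine hzs.mono ?_ subset_rfl
      rintro v ⟨⟨hv1, hv2⟩, hv3⟩
      exact ⟨hv1, Finset.mem_coe.2 (hVA v (hAnAq v
        (Finset.mem_inter.1 (Finset.mem_coe.1 hv2)).2) hv3)⟩
    have f3 : PConn (cs b ξ ∩ ↑V) Set.univ z z' := by
      have h1 : PConn (cs b ξ ∩ ↑(S.F ∩ An y r R)) (Set.univ ∩ {w | n ≤ w.2}) z z' := by
        refine hzz.mono subset_rfl ?_
        intro v hv
        exact ⟨Set.mem_univ _, (mem_rect.1 hv).2.2.1⟩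
      refine (up_path h1).mono ?_ subset_rfl
      rintro v ⟨⟨hv1, hv2⟩, hv3⟩
      exact ⟨hv1, Finset.mem_coe.2 (hVA v (hAnAq v
        (Finset.mem_inter.1 (Finset.mem_coe.1 hv2)).2) hv3)⟩
    have f4 : PConn (cs b ξ ∩ ↑V) Set.univ z q := by
      refine (congr_rect (G := cs b ξ ∩ ↑V) (fun v hv k1 k2 k3 k4 => ⟨hv, ?_⟩) hq1).mono subset_rfl
        (Set.subset_univ _)
      refine Finset.mem_coe.2 (hVA v (mem_Aq.2 ⟨?_, ?_⟩) k3)
      · unfold al at k1
        unfold be at k2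
        refine ⟨?_, ?_, ?_, ?_⟩ <;> split_ifs at k1 k2 <;> omega
      · intro h6
        unfold al at k1
        unfold be at k2
        split_ifs at k1 k2 <;> omega
    have hsq : ∀ v : Pt, v ∈ cs b ξ → aH b x n K3 K ≤ v.1 → v.1 < bH b x n K3 K → n ≤ v.2 →
        v.2 < 2 * n → v ∈ cs b ξ ∩ ↑V := by
      intro v hv k1 k2 k3 k4
      refine ⟨hv, Finset.mem_coe.2 (Finset.mem_filter.2 ⟨?_, k3⟩)⟩
      by_cases h6 : x - K * n ≤ v.1 ∧ v.1 ≤ x + K * n
      · refine Finset.mem_union_left _ (mem_Aq.2 ⟨⟨h6.1, h6.2, by omega, by omega⟩, fun h7 => ?_⟩)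
        unfold aH at k1
        unfold bH at k2
        split_ifs at k1 k2 <;> omega
      · refine Finset.mem_union_right _ (mem_Tb.2 ?_)
        unfold aH at k1
        unfold bH at k2
        refine ⟨?_, ?_, k3, by omega⟩ <;> split_ifs at k1 k2 ⊢ <;> omega
    have f5 : PConn (cs b ξ ∩ ↑V) Set.univ w q :=
      (congr_rect (G := cs b ξ ∩ ↑V) (fun v hv k1 k2 k3 k4 => hsq v hv k1 k2 k3 k4) hq2).mono
        subset_rfl (Set.subset_univ _)
    have f6 : PConn (cs b ξ ∩ ↑V) Set.univ w w' :=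
      (congr_rect (G := cs b ξ ∩ ↑V) (fun v hv k1 k2 k3 k4 => hsq v hv k1 k2 k3 k4) hww).mono
        subset_rfl (Set.subset_univ _)
    have f7 : PConn (cs b ξ ∩ ↑V) Set.univ (bk b e) q := ((f1.trans f2.symm).trans f3.symm).trans f4
    cases b
    · exact ⟨w, hw, f7.trans f5.symm⟩
    · exact ⟨w', hw', (f7.trans f5.symm).trans f6⟩

end Vale.Agent.P167.H685.Q.Det
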