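import Vale.Agent.P167.H685.Q.Det2
import Vale.Agent.P167.H704.Q.Minor

/-!
# P167, general `q`, block Q-NSYM, GREF: the gate (deterministic)
-/

namespace Vale.Agent.P167.H685.Q.Det

open Finset Vale.Agent.P145.FB Vale.Agent.P153 Vale.Agent.P153.Topo Vale.Agent.P167
  Vale.Agent.P167.H632 Vale.Agent.P167.H871 Vale.Agent.P167.H704 Vale.Agent.P167.FK
  Vale.Agent.P167.FKA Vale.Agent.P167.H704.Q
open Vale.Agent.P167.H318 (St TB Lo Pt0 Cl0 FlatAt st hs_notF hit ex Visit st_m rv_m RV_notMem)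
open Vale.Agent.P167.H318.UQ (Rc mem_Rc Oc Dc Cq Aq Gt Te Tw ArE ArW An LB RB)
open Vale.Agent.P167.H685.Q (TC hbF mem_hbF)
open Vale.Agent.P167.H166Q (K4 HT nxt OArcW DArcW TL)
open Relation

variable {S : St} {x y y1 n ρ r R l K3 K Λ : ℤ} {b : Bool} {ω ξ : Cfg} {s : Pt} {e : Ed}

theorem cf_self (h : ∀ v, v ∉ S.F → ω v = S.z v) : S.cf ω = ω := by
  funext v
  by_cases hv : v ∈ S.F
  · exact H192.ov_mem hv
  · rw [show S.cf ω v = S.z v from H192.ov_notMem hv, h v hv]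

/-- the strands of the next state and of `ξ` up to the tip -/
theorem nxt_st (hS : tlv S.e0 ∉ S.D) (hA : ∀ q ∈ Lo x ρ (4 * n), q ∈ S.F)
    (hω : ∀ v, v ∉ S.F → ω v = S.z v)
    (hξ : ∀ v, v ∉ (nxt S x ρ n ω).F → ξ v = (nxt S x ρ n ω).z v) :
    (nxt S x ρ n ω).m = hit S.D S.e0 (Lo x ρ (4 * n)) ω ∧
    ∀ i ≤ hit S.D S.e0 (Lo x ρ (4 * n)) ω,
      st S.e0 (nxt S x ρ n ω).z i = st S.e0 ω i ∧ st S.e0 ξ i = st S.e0 ω i := by
  have h1 := rv_m (R := S.RV (Lo x ρ (4 * n)) ω) (ω := ω) hS subset_rfl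
    fun q hq => ⟨hA q hq, fun h => RV_notMem h hq⟩
  rw [cf_self hω] at h1
  obtain ⟨h1, h2, -, -⟩ := h1
  refine ⟨h2, fun i hi => ⟨h1 i hi, ?_⟩⟩
  have h3 := st_m (S := nxt S x ρ n ω) ξ i (by rw [show (nxt S x ρ n ω).m = _ from h2]; exact hi)
  rw [cf_self hξ] at h3
  exact h3.trans (h1 i hi)

/-- **the bank sites near the tip are joined to the tip** -/
theorem bank_near (hT : TC S l y1 ρ) (hn : 1 ≤ n) (hnl : n ≤ l)
    (hω : ∀ v, v ∉ S.F → ω v = S.z v) (hH : HT S l y1 ρ n y ω)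
    (hξ : ∀ v, v ∉ (nxt S y1 ρ n ω).F → ξ v = (nxt S y1 ρ n ω).z v)
    (h1 : |y1 - x| ≤ n) (h2 : |y - y1| ≤ n) (hRl : R ≤ l) (hK : 20 * l + n ≤ K * n)
    (hKρ : K * n ≤ ρ) :
    ∀ s : Pt, (∃ i ≤ (nxt S y1 ρ n ω).m, bk b (st (nxt S y1 ρ n ω).e0 (nxt S y1 ρ n ω).z i) = s) →
      s ∈ Wn y R → 4 * n ≤ s.2 ∧
        PConn (cs b ξ ∩ ↑(hbF x (K * n)) ∩ {v | 4 * n ≤ v.2}) Set.univ
          (bk b (Sum.inr (y, 4 * n - 1))) s := by
  rw [abs_le] at h1 h2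
  have hLo : ∀ q ∈ Lo y1 ρ (4 * n), q ∈ S.F := fun q hq =>
    hT.fresh q ⟨hq.1, hq.2.1, hq.2.2.1, by have := hq.2.2.2; omega⟩
  obtain ⟨hm, hst⟩ := nxt_st hT.st hLo hω hξ
  set N := hit S.D S.e0 (Lo y1 ρ (4 * n)) ω with hN
  rintro s ⟨i, hi, rfl⟩ hs
  rw [hm] at hi
  have hi1 : st (nxt S y1 ρ n ω).e0 (nxt S y1 ρ n ω).z i = st S.e0 ω i := (hst i hi).1
  rw [hi1] at hs ⊢
  obtain ⟨w1, w2, w3, w4⟩ := hs
  have hc := cor_bk b (st S.e0 ω i)
  obtain ⟨c1, c2⟩ := hc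
  by_cases him : i < S.m
  · exfalso
    have h3 := st_m (S := S) ω i him.le
    rw [cf_self hω] at h3
    have h4 := H318.Bs.hit_min (D := S.D) (e0 := S.e0) (A := ↑S.F) (ξ := S.z) him
    rw [← h3] at h4
    have h5 : 0 ≤ (hdv (st S.e0 ω i)).2 ∨ (hdv (st S.e0 ω i)).2 = -1 := by omega
    rcases h5 with h5 | h5
    · refine h4.1 (Finset.mem_coe.2 (hT.fresh _ ⟨?_, ?_, h5, ?_⟩)) <;> omega
    · refine hT.flat.not (hdv (st S.e0 ω i)).1 (by omega) (by omega) ?_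
      rw [← h5]
      exact h4.2
  · have hsq : ∀ k, i ≤ k → k < N → 4 * n ≤ (hdv (st S.e0 ω k)).2 ∧
        hdv (st S.e0 ω k) ∈ hbF x (K * n) := by
      intro k hk1 hk2
      have h3 := hH.2 k (by omega) hk2
      have h4 := (H318.Bs.hit_min hk2).1
      obtain ⟨a1, a2, a3, a4⟩ := h3
      have h5 : 4 * n ≤ (hdv (st S.e0 ω k)).2 := by
        by_contra hcon
        exact h4 ⟨by omega, by omega, a3, by omega⟩
      exact ⟨h5, mem_hbF.2 ⟨by omega, by omega, a3, by omega⟩⟩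
    have hend : st S.e0 ω N = Sum.inr (y, 4 * n - 1) := hH.1
    constructor
    · rcases hi.lt_or_eq with h3 | h3
      · have := (hsq i le_rfl h3).1
        omega
      · rw [h3, hend]
        cases b
        · show 4 * n ≤ (rs (Sum.inr (y, 4 * n - 1))).2
          simp only [rs]
          split_ifs <;> simp
        · show 4 * n ≤ (ls (Sum.inr (y, 4 * n - 1))).2
          simp only [ls]
          split_ifs <;> simp
    · have h3 := strand_path (b := b) (ξ := ξ) (g := st S.e0 ξ i) (N := N - i)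
        (A := (hbF x (K * n)).filter fun v => 4 * n ≤ v.2) (fun k hk => by
          rw [← H318.Bs.st_add, (hst (i + k) (by omega)).2]
          obtain ⟨h4, h5⟩ := hsq (i + k) (by omega) (by omega)
          exact Finset.mem_filter.2 ⟨h5, h4⟩)
      rw [← H318.Bs.st_add, Nat.add_sub_cancel' hi, (hst N le_rfl).2, (hst i hi).2, hend] at h3
      refine h3.symm.mono ?_ subset_rfl
      rintro v ⟨hv1, hv2⟩
      have hv3 := Finset.mem_filter.1 (Finset.mem_coe.1 hv2)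
      exact ⟨⟨hv1, Finset.mem_coe.2 hv3.1⟩, hv3.2⟩

/-- **the gate** -/
theorem gate (hK3 : 16 ≤ K3) (hΛ : 2 ≤ Λ) (hK : 20 * K4 Λ K3 + 20 ≤ K) (hn : 1 ≤ n)
    (h1 : |y1 - x| ≤ n) (h2 : |y - y1| ≤ n) (hρ : 4 * (K * n) ≤ ρ) (hT : TC S (K4 Λ K3 * n) y1 ρ)
    (hω : ∀ v, v ∉ S.F → ω v = S.z v) (hH : HT S (K4 Λ K3 * n) y1 ρ n y ω)
    (hT' : TC (nxt S y1 ρ n ω) n y (ρ - n))
    (hξ : ∀ v, v ∉ (nxt S y1 ρ n ω).F → ξ v = (nxt S y1 ρ n ω).z v)
    (hL : TL (nxt S y1 ρ n ω) K3 K Λ x y n ξ) :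
    Gt K3 K x n ξ (Sum.inr (y, 4 * n - 1)) ∧ ArE K3 K x n ξ (Sum.inr (y, 4 * n - 1)) ∧
      ArW K3 K x n ξ (Sum.inr (y, 4 * n - 1)) := by
  obtain ⟨⟨s, p, ls1, lp, l1, l2, lc⟩, ⟨s', p', rs1, rp, r1, r2, rc⟩, he, hw, -⟩ := hL
  have h1' := abs_le.1 h1
  have h2' := abs_le.1 h2
  have hyx : |y - x| ≤ 2 * n := abs_le.2 ⟨by omega, by omega⟩
  -- the radii
  obtain ⟨a, ha⟩ : ∃ a, a = (K3 + 8) * n := ⟨_, rfl⟩
  have ha1 : 24 * n ≤ a := by
    rw [ha]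
    nlinarith
  have hab : a ≤ Λ * a := by nlinarith
  have hbc : Λ * a ≤ Λ * (Λ * a) := by nlinarith
  have hc4 : Λ * (Λ * a) = K4 Λ K3 * n := by
    rw [ha]
    unfold K4
    ring
  have hKn : 20 * (K4 Λ K3 * n) + 20 * n ≤ K * n := by nlinarith
  have hKl : n ≤ K * n := by omega
  have hnear : ∀ (b : Bool) (R : ℤ), R ≤ K4 Λ K3 * n → ∀ s : Pt,
      (∃ i ≤ (nxt S y1 ρ n ω).m, bk b (st (nxt S y1 ρ n ω).e0 (nxt S y1 ρ n ω).z i) = s) →
      s ∈ Wn y R → 4 * n ≤ s.2 ∧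
        PConn (cs b ξ ∩ ↑(hbF x (K * n)) ∩ {v | 4 * n ≤ v.2}) Set.univ
          (bk b (Sum.inr (y, 4 * n - 1))) s := fun b R hR =>
    bank_near hT hn (by omega) hω hH hξ h1 h2 hR (by omega) (by omega)
  obtain ⟨⟨p1, e1, e2, e3, e4⟩, t1, f1, f2⟩ := arms (b := true) (x := x) (K := K) (K3 := K3)
    (r := a) (R := Λ * a) (e := Sum.inr (y, 4 * n - 1)) (ξ := ξ) hT' hn hyx (by omega) ha.ge hab
    (by omega) (by omega) (hnear true _ (by omega)) ⟨s, p, ls1, lp, by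
      simp only [al, if_true]
      rw [ha]
      omega, by
      simp only [be, if_true]
      rw [ha]
      omega, by
      rw [ha]
      exact lc⟩ he
  obtain ⟨⟨p2, g1, g2, g3, g4⟩, t2, k1, k2⟩ := arms (b := false) (x := x) (K := K) (K3 := K3)
    (r := Λ * a) (R := Λ * (Λ * a)) (e := Sum.inr (y, 4 * n - 1)) (ξ := ξ) hT' hn hyx (by omega)
    (ha.ge.trans hab) hbc (by omega) (by omega) (hnear false _ (by omega)) ⟨s', p', rs1, rp, by
      simp only [al, Bool.false_eq_true, if_false]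
      rw [ha]
      omega, by
      simp only [be, Bool.false_eq_true, if_false]
      rw [ha]
      omega, by
      rw [ha, ← opc]
      exact rc⟩ hw
  simp only [al, be, if_true, Bool.false_eq_true, if_false] at e2 e3 g2 g3
  refine ⟨⟨⟨y, rfl, ?_, by omega⟩, ⟨p1, e1, by omega, e4⟩, ⟨p2, g1, by omega, ?_⟩⟩,
    ⟨t1, ?_, f2⟩, ⟨t2, ?_, ?_⟩⟩
  · have := hT'.ev
    rw [Int.even_iff] at this
    rw [Int.odd_iff]
    omega
  · unfold Dc
    rw [opc]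
    exact g4
  · rw [f1]
    simp only [fe', if_true]
    exact le_rfl
  · rw [k1]
    simp only [fe', Bool.false_eq_true, if_false]
    omega
  · unfold Dc
    rw [opc]
    exact k2

end Vale.Agent.P167.H685.Q.Det
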