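import Vale.Agent.P167.H685.Q.Det3
import Vale.Agent.P167.H318.MR

/-!
# P167, general `q`, block Q-NSYM, GREF: `DET`
-/

namespace Vale.Agent.P167.H685.Q.Det

open Finset Vale.Agent.P145.FB Vale.Agent.P153 Vale.Agent.P153.Topo Vale.Agent.P167
  Vale.Agent.P167.H632 Vale.Agent.P167.H871 Vale.Agent.P167.H704 Vale.Agent.P167.FK
  Vale.Agent.P167.FKA Vale.Agent.P167.H704.Q
open Vale.Agent.P167.H318 (St TB Lo Pt0 Cl0 FlatAt st hs_notF hit ex Visit st_m rv_m RV_notMem)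
open Vale.Agent.P167.H318.UQ (Rc mem_Rc Oc Dc Cq Aq Gt Te Tw ArE ArW An LB RB Ctr)
open Vale.Agent.P167.H685.Q (TC hbF mem_hbF)
open Vale.Agent.P167.H166Q (K4 HT nxt OArcW DArcW TL DET)
open Relation

variable {S : St} {x y n ρ l' K3 K Λ : ℤ} {ω ξ : Cfg}

/-- the strand of a configuration of the state up to the tip -/
theorem tip_strand (hξ : ∀ v, v ∉ S.F → ξ v = S.z v) : ∀ i ≤ S.m, st S.e0 ξ i = st S.e0 S.z i := by
  intro i hi
  have h3 := st_m (S := S) ξ i hi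
  rwa [cf_self hξ] at h3

/-- **the strand comes down to the low zone near the tip** -/
theorem ctr_tc (hn : 1 ≤ n) (h16 : 16 ≤ K3) (hK : K3 + 8 ≤ K) (hl : 1 ≤ l') (hl4 : 4 * l' ≤ n)
    (hx : |y - x| ≤ 2 * n) (hρ : 3 * (K * n) ≤ ρ) (hS : TC S n y ρ)
    (hξ : ∀ v, v ∉ S.F → ξ v = S.z v)
    (hV : ¬ Visit S.D S.e0 S.m (H318.HB y ((K3 - 4) * n))ᶜ ξ) :
    Ctr K3 K x n l' ξ (Sum.inr (y, 4 * n - 1)) := by
  have hx' := abs_le.1 hx
  have e1 : (K3 - 4) * n = K3 * n - 4 * n := by ring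
  have e2 : K3 * n + 8 * n ≤ K * n := by nlinarith
  have e3 : 16 * n ≤ K3 * n := by nlinarith
  have hm := tip_strand hξ
  have htip : st S.e0 ξ S.m = Sum.inr (y, 4 * n - 1) := (hm S.m le_rfl).trans hS.tip
  have hev : hdv (Sum.inr (y, 4 * n - 1)) = (y, 4 * n - 1) := by simp [hdv, hS.ev]
  set N := ex S.D S.e0 ξ with hN
  -- the tip is in the domain
  have hin : ∀ v : Pt, y - ρ ≤ v.1 → v.1 ≤ y + ρ → 0 ≤ v.2 → v.2 ≤ ρ → v ∈ S.D := fun v a1 a2 a3 a4 =>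
    hS.flat'.mem v ⟨a1, a2, a3, by omega⟩
  have hmN : S.m < N := by
    by_contra hcon
    have h1 : N ≤ S.m := not_lt.1 hcon
    have h2 := H318.Bs.ex_spec hS.st ξ
    rw [← hN] at h2
    rcases h1.lt_or_eq with h3 | h3
    · rw [hm N h1] at h2
      exact h2 (H318.Bs.hit_min h3).2
    · rw [h3, htip, hev] at h2
      exact h2 (hin _ (by dsimp only; omega) (by dsimp only; omega) (by dsimp only; omega)
        (by dsimp only; omega))
  have hbox : ∀ j, S.m ≤ j → j < N → hdv (st S.e0 ξ j) ∈ H318.HB y ((K3 - 4) * n) := by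
    intro j h1 h2
    by_contra h3
    exact hV ⟨j, h1, h2, h3⟩
  -- the last square is at height `0`
  have hlast : (hdv (st S.e0 ξ (N - 1))).2 = 0 ∧ (hdv (st S.e0 ξ N)).2 = -1 := by
    have h1 := hbox (N - 1) (by omega) (by omega)
    have h2 := H318.Bs.ex_spec hS.st ξ
    rw [← hN] at h2
    obtain ⟨a1, a2, a3, a4⟩ := h1
    have h3 := H318.hdv_nx ξ (st S.e0 ξ (N - 1))
    have h4 : nx ξ (st S.e0 ξ (N - 1)) = st S.e0 ξ N := by
      rw [← H318.Bs.st_succ]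
      congr 1
      omega
    rw [h4] at h3
    have h5 : ¬ 0 ≤ (hdv (st S.e0 ξ N)).2 := fun h6 =>
      h2 (hin _ (by omega) (by omega) h6 (by omega))
    omega
  -- times from the tip
  have hadd : ∀ k, st (Sum.inr (y, 4 * n - 1)) ξ k = st S.e0 ξ (S.m + k) := by
    intro k
    rw [H318.Bs.st_add, htip]
  have hle : hit (hbF x (K * n)) (Sum.inr (y, 4 * n - 1)) (Lo x (K * n) (4 * l')) ξ ≤ N - 1 - S.m := by
    refine H318.Bs.hit_le (Or.inl ?_)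
    rw [hadd, show S.m + (N - 1 - S.m) = N - 1 by omega]
    obtain ⟨a1, a2, a3, a4⟩ := hbox (N - 1) (by omega) (by omega)
    exact ⟨by omega, by omega, a3, by omega⟩
  have hex : N - S.m ≤ ex (hbF x (K * n)) (Sum.inr (y, 4 * n - 1)) ξ := by
    by_contra hcon
    have h1 : ex (hbF x (K * n)) (Sum.inr (y, 4 * n - 1)) ξ < N - S.m := not_le.1 hcon
    have hne : ∃ k, hdv (st (Sum.inr (y, 4 * n - 1)) ξ k) ∈ (∅ : Set Pt) ∨
        hdv (st (Sum.inr (y, 4 * n - 1)) ξ k) ∉ hbF x (K * n) := by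
      refine ⟨N - S.m, Or.inr fun h2 => ?_⟩
      rw [hadd, show S.m + (N - S.m) = N by omega, mem_hbF] at h2
      have := h2.2.2.1
      omega
    have h2 := Nat.sInf_mem (s := {k | hdv (st (Sum.inr (y, 4 * n - 1)) ξ k) ∈ (∅ : Set Pt) ∨
        hdv (st (Sum.inr (y, 4 * n - 1)) ξ k) ∉ hbF x (K * n)}) hne
    change hdv (st (Sum.inr (y, 4 * n - 1)) ξ (ex (hbF x (K * n)) (Sum.inr (y, 4 * n - 1)) ξ)) ∈
      (∅ : Set Pt) ∨ hdv (st (Sum.inr (y, 4 * n - 1)) ξ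
        (ex (hbF x (K * n)) (Sum.inr (y, 4 * n - 1)) ξ)) ∉ hbF x (K * n) at h2
    rcases h2 with h2 | h2
    · exact h2
    · apply h2
      rw [hadd, mem_hbF]
      obtain ⟨a1, a2, a3, a4⟩ := hbox (S.m + ex (hbF x (K * n)) (Sum.inr (y, 4 * n - 1)) ξ)
        (by omega) (by omega)
      exact ⟨by omega, by omega, a3, by omega⟩
  refine ⟨by omega, ?_⟩
  rw [hadd]
  obtain ⟨a1, a2, a3, a4⟩ := hbox (S.m + hit (hbF x (K * n)) (Sum.inr (y, 4 * n - 1))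
    (Lo x (K * n) (4 * l')) ξ) (by omega) (by omega)
  have e4 : (K3 - 1) * n = K3 * n - n := by ring
  rw [abs_le]
  constructor <;> omega

/-- **(P5)** -/
theorem det : DET := by
  intro K3 K Λ hK3 hΛ hK S x y1 y ρ n l' ω ξ hn hl hl4 h1 h2 hρ hT hω hH hT' hξ hL
  have h1' := abs_le.1 h1
  have h2' := abs_le.1 h2
  have hyx : |y - x| ≤ 2 * n := abs_le.2 ⟨by omega, by omega⟩
  obtain ⟨g1, g2, g3⟩ := gate hK3 hΛ hK hn h1 h2 hρ hT hω hH hT' hξ hL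
  have hK4 : K3 + 8 ≤ K4 Λ K3 := by
    unfold K4
    nlinarith [mul_nonneg (show (0 : ℤ) ≤ Λ - 2 by omega) (show (0 : ℤ) ≤ K3 + 8 by omega)]
  have hKn : n ≤ K * n := by nlinarith
  exact ⟨g1, g2, g3, ctr_tc hn hK3 (by omega) hl hl4 hyx (by omega) hT' hξ hL.2.2.2.2⟩

end Vale.Agent.P167.H685.Q.Det
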