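import Vale.Agent.P167.H685.Q.Glue

/-!
# P167, general `q`, block Q-NSYM: the exploration from outside

`W` = the squares of `I` together with closed squares (the row below `I`), `K ⊆ I` the core. The squares
of `I` which are visited by the strands from outside of `W` before they leave `W` or hit `K` are
revealed.
-/

namespace Vale.Agent.P167.H685.Q

open Finset Vale.Agent.P167.FK Vale.Agent.P167.FKA
open Vale.Agent.P167.H318 (st)
open Vale.Agent.P167.H318.Bs (st_zero st_succ st_add tlv_st st_congr)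
open Vale.Agent.P167.H558 (StopSet Past)

variable {W K : Set (ℤ × ℤ)} {I : Finset (ℤ × ℤ)} {ω ω' : Cfg}

open Classical in
/-- `ω` on `I`, closed elsewhere. -/
noncomputable def clo (I : Finset (ℤ × ℤ)) (ω : Cfg) : Cfg := fun v => if v ∈ I then ω v else false

theorem clo_in {v : ℤ × ℤ} (h : v ∈ I) : clo I ω v = ω v := by
  unfold clo; rw [if_pos h]

theorem clo_out {v : ℤ × ℤ} (h : v ∉ I) : clo I ω v = false := by
  unfold clo; rw [if_neg h]

/-- The strand of an edge from outside of `W` visits `v` before it leaves `W` or hits `K`. -/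
def Vs (W K : Set (ℤ × ℤ)) (ω : Cfg) (v : ℤ × ℤ) : Prop :=
  ∃ (e : Ed) (n : ℕ), tlv e ∉ W ∧ hdv (st e ω n) = v ∧
    ∀ i ≤ n, hdv (st e ω i) ∈ W ∧ hdv (st e ω i) ∉ K

open Classical in
/-- The exploration. -/
noncomputable def Rx (W K : Set (ℤ × ℤ)) (I : Finset (ℤ × ℤ)) (ω : Cfg) : Finset (ℤ × ℤ) :=
  I.filter fun v => Vs W K (clo I ω) v

theorem mem_Rx {v : ℤ × ℤ} : v ∈ Rx W K I ω ↔ v ∈ I ∧ Vs W K (clo I ω) v := by
  classical
  unfold Rx
  rw [Finset.mem_filter]

theorem Rx_sub (ω : Cfg) : Rx W K I ω ⊆ I := fun _ h => (mem_Rx.1 h).1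

theorem Rx_notK {v : ℤ × ℤ} (h : v ∈ Rx W K I ω) : v ∉ K := by
  obtain ⟨-, e, n, -, h2, h3⟩ := mem_Rx.1 h
  rw [← h2]
  exact (h3 n le_rfl).2

/-- The explored strands. -/
theorem st_Rx (h : ∀ v ∈ Rx W K I ω, ω' v = ω v) {e : Ed} (he : tlv e ∉ W) {n : ℕ}
    (hn : ∀ i < n, hdv (st e (clo I ω) i) ∈ W ∧ hdv (st e (clo I ω) i) ∉ K) :
    ∀ i ≤ n, st e (clo I ω') i = st e (clo I ω) i := by
  refine st_congr fun i hi => ?_
  by_cases h1 : hdv (st e (clo I ω) i) ∈ I
  · rw [clo_in h1, clo_in h1]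
    exact h _ (mem_Rx.2 ⟨h1, e, i, he, rfl, fun j hj => hn j (by omega)⟩)
  · rw [clo_out h1, clo_out h1]

theorem stop_Rx : StopSet (Rx W K I) := by
  intro ω ω' h
  ext v
  rw [mem_Rx, mem_Rx]
  refine and_congr_right fun _ => ⟨?_, ?_⟩
  · rintro ⟨e, n, h1, h2, h3⟩
    -- the strands agree
    have key : ∀ m ≤ n, ∀ i ≤ m, st e (clo I ω') i = st e (clo I ω) i := by
      intro m
      induction m with
      | zero =>
        intro _ i hi
        obtain rfl : i = 0 := by omega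
        rfl
      | succ m ih =>
        intro hm
        have ih' := ih (by omega)
        refine st_Rx h h1 fun i hi => ?_
        rw [← ih' i (by omega)]
        exact h3 i (by omega)
    refine ⟨e, n, h1, ?_, fun i hi => ?_⟩
    · rw [← key n le_rfl n le_rfl]
      exact h2
    · rw [← key n le_rfl i hi]
      exact h3 i hi
  · rintro ⟨e, n, h1, h2, h3⟩
    have key := st_Rx h h1 (n := n) fun i hi => h3 i hi.le
    refine ⟨e, n, h1, ?_, fun i hi => ?_⟩
    · rw [key n le_rfl]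
      exact h2
    · rw [key i hi]
      exact h3 i hi

/-- An entrance of the unexplored region is a strand from outside of `W` which hits `K`. -/
theorem Ent.core (hIW : ↑I ⊆ W) (hKI : K ⊆ ↑I) {e : Ed}
    (h : Ent W ↑(I \ Rx W K I ω) (clo I ω) e) : Ent W K (clo I ω) e := by
  obtain ⟨h1, n, h2, h3⟩ := h
  have h4 : ∀ v, v ∉ (↑(I \ Rx W K I ω) : Set (ℤ × ℤ)) → v ∉ K := fun v hv hvK =>
    hv (Finset.mem_coe.2 (Finset.mem_sdiff.2 ⟨Finset.mem_coe.1 (hKI hvK),
      fun h5 => Rx_notK h5 hvK⟩))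
  refine ⟨h1, n, ?_, fun i hi => ⟨(h3 i hi).1, h4 _ (h3 i hi).2⟩⟩
  by_contra hcon
  have h5 := Finset.mem_sdiff.1 (Finset.mem_coe.1 h2)
  refine h5.2 (mem_Rx.2 ⟨h5.1, e, n, h1, rfl, fun i hi => ?_⟩)
  rcases Nat.lt_or_ge i n with h7 | h7
  · exact ⟨(h3 i h7).1, h4 _ (h3 i h7).2⟩
  · obtain rfl : i = n := by omega
    exact ⟨hIW (Finset.mem_coe.2 h5.1), hcon⟩

/-- At most one strand from outside hits the core: at most one entrance. -/
theorem one_Rx (hIW : ↑I ⊆ W) (hKI : K ⊆ ↑I) (h : One W K (clo I ω)) :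
    One W ↑(I \ Rx W K I ω) (clo I ω) :=
  fun e e' he he' => h e e' (he.core hIW hKI) (he'.core hIW hKI)

theorem Rx_clo : Rx W K I (clo I ω) = Rx W K I ω := by
  refine stop_Rx ω (clo I ω) fun v hv => clo_in (Rx_sub ω hv)

theorem pat_clo : pat (Rx W K I) (clo I ω) = pat (Rx W K I) ω :=
  pat_congr stop_Rx fun _ hv => clo_in (Rx_sub ω hv)

/-- `pc` of the pattern of `ω` agrees with `ω` on the known squares. -/
theorem pc_eq_clo {v : ℤ × ℤ} (hv : v ∉ I \ Rx W K I ω) (hvW : v ∈ W) :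
    pc (pat (Rx W K I) ω) v = clo I ω v :=
  pc_agree (W := W) (I := I) (R := Rx W K I) (fun _ _ h => clo_out h) pat_clo v hvW hv

/-- The pattern of the configuration of a pattern. -/
theorem pat_pc (ω : Cfg) : pat (Rx W K I) (pc (pat (Rx W K I) ω)) = pat (Rx W K I) ω := by
  refine pat_congr stop_Rx fun v hv => ?_
  have h1 : v ∈ (pat (Rx W K I) ω).1 := hv
  unfold pc
  rw [cf_in h1]
  by_cases h2 : ω v = true
  · rw [h2]
    simpa using mem_pat_snd.2 ⟨hv, h2⟩
  · have h3 : ω v = false := by simpa using h2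
    rw [h3]
    simp only [decide_eq_false_iff_not]
    exact fun h4 => h2 (mem_pat_snd.1 h4).2

/-- The one-entrance condition of a pattern. -/
theorem one_pc (hIW : ↑I ⊆ W) (hKI : K ⊆ ↑I) (h : One W K (clo I ω)) :
    One W ↑(I \ (pat (Rx W K I) ω).1) (pc (pat (Rx W K I) ω)) :=
  (one_Rx hIW hKI h).congr fun _ hv hvI => pc_eq_clo (fun h' => hvI (Finset.mem_coe.2 h')) hv

end Vale.Agent.P167.H685.Q
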