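import Vale.Agent.P167.FKA.All
import Vale.Agent.P167.H558.Stop2

/-!
# P167, general `q`, block Q-NSYM: the strong Markov property of the random-cluster measure

`R` is a stopping set of squares (`H558.StopSet`), the squares of `R ω` are revealed.
-/

namespace Vale.Agent.P167.H685.Q

open Finset Vale.Agent.P167.FK Vale.Agent.P167.FKA
open Vale.Agent.P167.H259 (f_markov f_fkg f_comp f_comp2)
open Vale.Agent.P167.H558 (StopSet Past)

variable {Q : ℝ} {D : Finset (ℤ × ℤ)} {η : Cfg} {R : Cfg → Finset (ℤ × ℤ)} {F Y : Cfg → ℝ}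

/-- The event `R = K` does not depend on the squares off `K`. -/
theorem ind_stop (hR : StopSet R) (K A : Finset (ℤ × ℤ)) :
    Ind (A \ K) ({ω | R ω = K}.indicator 1) := by
  have key : ∀ ω ω' : Cfg, (∀ v, v ∉ A \ K → ω v = ω' v) → R ω = K → R ω' = K := by
    intro ω ω' h1 h2
    rw [← h2]
    refine hR ω ω' fun i hi => (h1 i fun h3 => ?_).symm
    rw [h2] at hi
    exact (Finset.mem_sdiff.1 h3).2 hi
  intro ω ω' h1
  by_cases h2 : R ω = K
  · have h3 := key ω ω' h1 h2
    rw [Set.indicator_of_mem (show ω ∈ {ω | R ω = K} from h2),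
      Set.indicator_of_mem (show ω' ∈ {ω | R ω = K} from h3)]
    rfl
  · have h3 : R ω' ≠ K := fun h3 => h2 (key ω' ω (fun v hv => (h1 v hv).symm) h3)
    rw [Set.indicator_of_notMem (show ω ∉ {ω | R ω = K} from h2),
      Set.indicator_of_notMem (show ω' ∉ {ω | R ω = K} from h3)]

/-- **The strong Markov property.** -/
theorem ex_strong (hQ : 0 < Q) (hη : Good η) (hR : StopSet R) (F : Cfg → ℝ) :
    Ex Q D η F = Ex Q D η (fun ω => Ex Q (D \ R ω) ω F) := by
  classical
  rw [Ex_split (α := Finset (ℤ × ℤ)) R F,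
    Ex_split (α := Finset (ℤ × ℤ)) R (fun ω => Ex Q (D \ R ω) ω F)]
  refine Finset.sum_congr rfl fun K _ => ?_
  rw [markov f_markov hQ Finset.sdiff_subset hη (ind_stop hR K D)]
  refine Ex_congr fun S _ => ?_
  by_cases h : R (cf D η S) = K
  · rw [h]
  · rw [Set.indicator_of_notMem (show cf D η S ∉ {ω | R ω = K} from h), zero_mul, zero_mul]

/-- The squares of `D` which are not revealed do not change the past. -/
theorem past_cf {γ : Type*} {Z : Cfg → γ} (hZ : Past R Z) (D : Finset (ℤ × ℤ)) (ω : Cfg)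
    (S : Finset (ℤ × ℤ)) : Z (cf (D \ R ω) ω S) = Z ω :=
  hZ ω _ fun _ hi => cf_out fun h => (Finset.mem_sdiff.1 h).2 hi

/-- **The strong Markov property** with a factor which is determined by the past. -/
theorem ex_strong_mul (hQ : 0 < Q) (hη : Good η) (hR : StopSet R) (hY : Past R Y) (F : Cfg → ℝ) :
    Ex Q D η (fun ω => Y ω * F ω) = Ex Q D η (fun ω => Y ω * Ex Q (D \ R ω) ω F) := by
  rw [ex_strong hQ hη hR]
  refine Ex_congr fun S _ => ?_
  rw [← Ex_mul_left]
  exact Ex_congr fun T _ => by rw [past_cf hY]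

/-- A bound of the conditional expectations on an event of the past. -/
theorem ex_strong_le (hQ : 0 < Q) (hη : Good η) (hR : StopSet R) (hY : Past R Y)
    {W : Cfg → ℝ} (h : ∀ ω, Good ω → Y ω * Ex Q (D \ R ω) ω F ≤ W ω) :
    Ex Q D η (fun ω => Y ω * F ω) ≤ Ex Q D η W := by
  rw [ex_strong_mul hQ hη hR hY]
  exact Ex_mono hQ fun S _ => h _ (f_good.1 D η S hη)

/-- Functions which agree on the configurations of `D` with the past `ω`. -/
theorem ex_past_congr (ω : Cfg) {F G : Cfg → ℝ}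
    (h : ∀ ω', (∀ v, v ∉ D \ R ω → ω' v = ω v) → F ω' = G ω') :
    Ex Q (D \ R ω) ω F = Ex Q (D \ R ω) ω G :=
  Ex_congr fun _ _ => h _ fun _ hv => cf_out hv

end Vale.Agent.P167.H685.Q
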