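import Vale.Agent.P167.H685.Q.One
import Vale.Agent.P167.H685.Q.Stop

/-!
# P167, general `q`, block Q-NSYM: the common part of the laws (Doeblin minorization)

`R` explores the squares of `I` (stopping set), `pat R ω` is the set of the explored squares together
with the explored open squares, `𝒢` is a finite set of patterns `g` with
`One W (I \ g.1) (cf g.1 eta0 g.2)`, `Lk g` is an event which does not depend on the squares of `I`.
The density `s ω = c ν g 1 {ω ∈ Lk g} / P (Lk g, pat = g)`, `g = pat ω`, satisfies `0 ≤ s ≤ 1` if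
`c ν g ≤ P (Lk g, pat = g)`, and `E (s Φ) = c ∑ ν g E_g (φ g)` if `Φ = φ (pat ω)` on `Lk`: this does not
depend on the domain and on the outside.
-/

namespace Vale.Agent.P167.H685.Q

open Finset Vale.Agent.P167.FK Vale.Agent.P167.FKA
open Vale.Agent.P167.H259 (f_markov f_fkg f_comp f_comp2)
open Vale.Agent.P167.H558 (StopSet Past)

theorem cf_in {A : Finset (ℤ × ℤ)} {ω : Cfg} {S : Finset (ℤ × ℤ)} {v : ℤ × ℤ} (h : v ∈ A) :
    cf A ω S v = decide (v ∈ S) := by simp [cf, h]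

/-- Patterns: the explored squares and the explored open squares. -/
abbrev Pat := Finset (ℤ × ℤ) × Finset (ℤ × ℤ)

open Classical in
/-- The pattern of a configuration. -/
noncomputable def pat (R : Cfg → Finset (ℤ × ℤ)) (ω : Cfg) : Pat :=
  (R ω, (R ω).filter fun v => ω v = true)

/-- The configuration of a pattern (closed off the explored squares). -/
noncomputable def pc (g : Pat) : Cfg := cf g.1 eta0 g.2

theorem good_pc (g : Pat) : Good (pc g) := f_good.1 _ _ _ f_good.2.1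

variable {Q : ℝ} {D I : Finset (ℤ × ℤ)} {W : Set (ℤ × ℤ)} {η ω ω' : Cfg}
  {R : Cfg → Finset (ℤ × ℤ)} {Lk : Pat → Set Cfg} {𝒢 : Finset Pat} {ν : Pat → ℝ} {c : ℝ} {g : Pat}

theorem pat_fst : (pat R ω).1 = R ω := rfl

theorem mem_pat_snd {v : ℤ × ℤ} : v ∈ (pat R ω).2 ↔ v ∈ R ω ∧ ω v = true := by
  classical
  unfold pat
  rw [Finset.mem_filter]

theorem pat_congr (hR : StopSet R) (h : ∀ v ∈ R ω, ω' v = ω v) : pat R ω' = pat R ω := by
  have h1 : R ω' = R ω := hR ω ω' h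
  refine Prod.ext h1 ?_
  ext v
  rw [mem_pat_snd, mem_pat_snd, h1]
  constructor
  · rintro ⟨h2, h3⟩
    exact ⟨h2, by rw [← h v h2]; exact h3⟩
  · rintro ⟨h2, h3⟩
    exact ⟨h2, by rw [h v h2]; exact h3⟩

theorem pat_eq_congr (hR : StopSet R) (hg : pat R ω = g) (h : ∀ v ∈ g.1, ω' v = ω v) :
    pat R ω' = g := by
  rw [← hg]
  refine pat_congr hR fun v hv => h v ?_
  rw [← hg]
  exact hv

/-- The event `pat = g` does not depend on the squares off `g.1`. -/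
theorem ind_pat (hR : StopSet R) (g : Pat) (A : Finset (ℤ × ℤ)) :
    Ind (A \ g.1) ({ω | pat R ω = g}.indicator 1) := by
  have key : ∀ ω ω' : Cfg, (∀ v, v ∉ A \ g.1 → ω v = ω' v) → pat R ω = g → pat R ω' = g :=
    fun ω ω' h1 h2 => pat_eq_congr hR h2 fun v hv =>
      (h1 v fun h3 => (Finset.mem_sdiff.1 h3).2 hv).symm
  intro ω ω' h1
  by_cases h2 : pat R ω = g
  · have h3 := key ω ω' h1 h2
    rw [Set.indicator_of_mem (show ω ∈ {ω | pat R ω = g} from h2),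
      Set.indicator_of_mem (show ω' ∈ {ω | pat R ω = g} from h3)]
    rfl
  · have h3 : pat R ω' ≠ g := fun h3 => h2 (key ω' ω (fun v hv => (h1 v hv).symm) h3)
    rw [Set.indicator_of_notMem (show ω ∉ {ω | pat R ω = g} from h2),
      Set.indicator_of_notMem (show ω' ∉ {ω | pat R ω = g} from h3)]

/-- On `pat = g` the configuration agrees with `pc g` on the known squares of `W`. -/
theorem pc_agree (hrow : ∀ v ∈ W, v ∉ I → ω v = false)
    (hg : pat R ω = g) : ∀ v ∈ W, v ∉ I \ g.1 → pc g v = ω v := by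
  intro v hv hvI
  subst hg
  by_cases h : v ∈ R ω
  · have h1 : v ∈ (pat R ω).1 := h
    unfold pc
    rw [cf_in h1]
    by_cases h2 : ω v = true
    · rw [h2]
      simpa using mem_pat_snd.2 ⟨h, h2⟩
    · have h3 : ω v = false := by simpa using h2
      rw [h3]
      simp only [decide_eq_false_iff_not]
      exact fun h4 => h2 (mem_pat_snd.1 h4).2
  · have h1 : v ∉ (pat R ω).1 := h
    have h2 : v ∉ I := fun h3 => hvI (Finset.mem_sdiff.2 ⟨h3, h1⟩)
    unfold pc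
    rw [cf_out h1, hrow v hv h2]
    rfl

/-- The density of the common part. -/
noncomputable def dens (Q : ℝ) (D : Finset (ℤ × ℤ)) (η : Cfg) (R : Cfg → Finset (ℤ × ℤ))
    (Lk : Pat → Set Cfg) (𝒢 : Finset Pat) (ν : Pat → ℝ) (c : ℝ) (ω : Cfg) : ℝ :=
  ∑ g ∈ 𝒢, c * ν g / Pr Q D η ({ω | pat R ω = g} ∩ Lk g) *
    ({ω | pat R ω = g}.indicator 1 ω * (Lk g).indicator 1 ω)

theorem dens_nonneg (hQ : 0 < Q) (hc : 0 ≤ c) (hν : ∀ g ∈ 𝒢, 0 ≤ ν g) (ω : Cfg) :
    0 ≤ dens Q D η R Lk 𝒢 ν c ω :=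
  Finset.sum_nonneg fun g hg => mul_nonneg (div_nonneg (mul_nonneg hc (hν g hg))
    (Pr_nonneg hQ _)) (mul_nonneg (ind_nonneg _ _) (ind_nonneg _ _))

theorem dens_le_one (hc : 0 ≤ c) (hν : ∀ g ∈ 𝒢, 0 ≤ ν g)
    (hM : ∀ g ∈ 𝒢, c * ν g ≤ Pr Q D η ({ω | pat R ω = g} ∩ Lk g)) (ω : Cfg) :
    dens Q D η R Lk 𝒢 ν c ω ≤ 1 := by
  classical
  unfold dens
  by_cases h : pat R ω ∈ 𝒢
  · rw [Finset.sum_eq_single_of_mem _ h fun g _ hg => ?_]
    · have h1 := hM _ h
      have h2 : (0 : ℝ) ≤ c * ν (pat R ω) := mul_nonneg hc (hν _ h)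
      have h3 : ({ω' | pat R ω' = pat R ω}.indicator 1 ω *
        (Lk (pat R ω)).indicator 1 ω : ℝ) ≤ 1 :=
        mul_le_one₀ (ind_le_one _ _) (ind_nonneg _ _) (ind_le_one _ _)
      have h4 : c * ν (pat R ω) / Pr Q D η ({ω' | pat R ω' = pat R ω} ∩ Lk (pat R ω)) ≤ 1 :=
        div_le_one_of_le₀ h1 (h2.trans h1)
      exact mul_le_one₀ h4 (mul_nonneg (ind_nonneg _ _) (ind_nonneg _ _)) h3
    · rw [Set.indicator_of_notMem (show ω ∉ {ω | pat R ω = g} from fun h' => hg h'.symm)]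
      simp
  · rw [Finset.sum_eq_zero fun g hg => ?_]
    · exact zero_le_one
    · rw [Set.indicator_of_notMem (show ω ∉ {ω | pat R ω = g} from fun h' => h (by rw [h']; exact hg))]
      simp

/-- The density vanishes off the event `Lk` and for the other patterns. -/
theorem dens_eq_zero (h : ¬ (pat R ω ∈ 𝒢 ∧ ω ∈ Lk (pat R ω))) : dens Q D η R Lk 𝒢 ν c ω = 0 := by
  refine Finset.sum_eq_zero fun g hg => ?_
  by_cases h1 : pat R ω = g
  · have h2 : ω ∉ Lk g := fun h3 => h ⟨by rw [h1]; exact hg, by rw [h1]; exact h3⟩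
    rw [Set.indicator_of_notMem h2]
    simp
  · rw [Set.indicator_of_notMem (show ω ∉ {ω | pat R ω = g} from h1)]
    simp

/-- The density is determined by the pattern and the event `Lk`. -/
theorem dens_congr (hR : StopSet R) (h : ∀ v ∈ R ω, ω' v = ω v)
    (hL : ω ∈ Lk (pat R ω) ↔ ω' ∈ Lk (pat R ω)) :
    dens Q D η R Lk 𝒢 ν c ω' = dens Q D η R Lk 𝒢 ν c ω := by
  have h1 := pat_congr hR h
  refine Finset.sum_congr rfl fun g _ => ?_
  congr 1
  by_cases h3 : pat R ω = g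
  · rw [Set.indicator_of_mem (show ω' ∈ {ω | pat R ω = g} from h1.trans h3),
      Set.indicator_of_mem (show ω ∈ {ω | pat R ω = g} from h3)]
    rw [h3] at hL
    by_cases h4 : ω ∈ Lk g
    · rw [Set.indicator_of_mem h4, Set.indicator_of_mem (hL.1 h4)]; rfl
    · rw [Set.indicator_of_notMem h4, Set.indicator_of_notMem fun h5 => h4 (hL.2 h5)]; rfl
  · rw [Set.indicator_of_notMem (show ω' ∉ {ω | pat R ω = g} from fun h4 => h3 (h1.symm.trans h4)),
      Set.indicator_of_notMem (show ω ∉ {ω | pat R ω = g} from h3), zero_mul, zero_mul]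

/-- The part of one pattern. -/
theorem ex_pat (hQ : 0 < Q) (hη : Good η) (hID : I ⊆ D) (hVW : ↑I ⊆ W)
    (hrow : ∀ v ∈ W, v ∉ I → v ∉ D ∧ η v = false) (hR : StopSet R)
    (hLk : Ind I ((Lk g).indicator 1)) (hO : One W ↑(I \ g.1) (pc g)) {Φ φ : Cfg → ℝ}
    (hφ : ∀ ξ ξ' : Cfg, (∀ v ∈ W, ξ' v = ξ v) → φ ξ' = φ ξ)
    (hΦ : ∀ ω, (∀ v, v ∉ D → ω v = η v) → ω ∈ Lk g → pat R ω = g → Φ ω = φ ω) :
    Ex Q D η (fun ω => {ω | pat R ω = g}.indicator 1 ω * (Lk g).indicator 1 ω * Φ ω) =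
      Pr Q D η ({ω | pat R ω = g} ∩ Lk g) * Ex Q (I \ g.1) (pc g) φ := by
  set A := I \ g.1 with hA
  have hAD : A ⊆ D := Finset.sdiff_subset.trans hID
  have hInd : Ind A (fun ω => ({ω | pat R ω = g}.indicator 1 : Cfg → ℝ) ω *
      ((Lk g).indicator 1 : Cfg → ℝ) ω) := (ind_pat hR g I).mul (hLk.mono Finset.sdiff_subset)
  rw [markov f_markov hQ hAD hη hInd]
  have key : ∀ S, ({ω | pat R ω = g}.indicator 1 (cf D η S) * (Lk g).indicator 1 (cf D η S) : ℝ) *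
      Ex Q A (cf D η S) Φ = ({ω | pat R ω = g}.indicator 1 (cf D η S) *
        (Lk g).indicator 1 (cf D η S) : ℝ) * Ex Q A (pc g) φ := by
    intro S
    by_cases h1 : pat R (cf D η S) = g
    · by_cases h2 : cf D η S ∈ Lk g
      · congr 1
        have e1 : Ex Q A (cf D η S) Φ = Ex Q A (cf D η S) φ := by
          refine Ex_congr fun T hT => hΦ _ (fun v hv => ?_) ?_ ?_
          · rw [cf_out fun h => hv (hAD h), cf_out hv]
          · have h3 := hLk (cf A (cf D η S) T) (cf D η S) fun v hv =>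
              cf_out fun h => hv (Finset.mem_sdiff.1 h).1
            rw [Set.indicator_of_mem h2] at h3
            by_contra hcon
            rw [Set.indicator_of_notMem hcon] at h3
            simp at h3
          · exact pat_eq_congr hR h1 fun v hv => cf_out fun h => (Finset.mem_sdiff.1 h).2 hv
        rw [e1]
        have hrow' : ∀ v ∈ W, v ∉ I → cf D η S v = false := fun v hv hvI => by
          rw [cf_out (hrow v hv hvI).1]
          exact (hrow v hv hvI).2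
        have hag := pc_agree hrow' h1
        refine ex_eq_of_one hQ (f_good.1 _ _ _ hη) (good_pc g) (W := W)
          (fun v hv => hVW ?_) hag (hO.congr fun v hv hvA => ?_) hφ
        · exact Finset.mem_coe.2 (Finset.mem_sdiff.1 (Finset.mem_coe.1 hv)).1
        · exact (hag v hv fun h => hvA (Finset.mem_coe.2 h)).symm
      · rw [Set.indicator_of_notMem h2]
        simp
    · rw [Set.indicator_of_notMem (show cf D η S ∉ {ω | pat R ω = g} from h1)]
      simp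
  have e2 : Ex Q D η (fun ω => {ω | pat R ω = g}.indicator 1 ω * (Lk g).indicator 1 ω *
      Ex Q A ω Φ) = Ex Q D η (fun ω => Ex Q A (pc g) φ *
        ({ω | pat R ω = g}.indicator 1 ω * (Lk g).indicator 1 ω)) := by
    refine Ex_congr fun S _ => ?_
    rw [key S]
    ring
  rw [e2, Ex_mul_left, mul_comm]
  congr 1
  unfold Pr
  refine Ex_congr fun S _ => ?_
  rw [ind_inter]

/-- **The common part of the laws.** -/
theorem ex_dens (hQ : 0 < Q) (hη : Good η) (hID : I ⊆ D) (hVW : ↑I ⊆ W)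
    (hrow : ∀ v ∈ W, v ∉ I → v ∉ D ∧ η v = false) (hR : StopSet R)
    (hLk : ∀ g ∈ 𝒢, Ind I ((Lk g).indicator 1)) (hO : ∀ g ∈ 𝒢, One W ↑(I \ g.1) (pc g))
    (hc : 0 < c) (hν : ∀ g ∈ 𝒢, 0 ≤ ν g)
    (hM : ∀ g ∈ 𝒢, c * ν g ≤ Pr Q D η ({ω | pat R ω = g} ∩ Lk g)) {Φ : Cfg → ℝ}
    {φ : Pat → Cfg → ℝ} (hφ : ∀ g ∈ 𝒢, ∀ ξ ξ' : Cfg, (∀ v ∈ W, ξ' v = ξ v) → φ g ξ' = φ g ξ)
    (hΦ : ∀ ω, (∀ v, v ∉ D → ω v = η v) → ω ∈ Lk (pat R ω) → pat R ω ∈ 𝒢 →
      Φ ω = φ (pat R ω) ω) :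
    Ex Q D η (fun ω => dens Q D η R Lk 𝒢 ν c ω * Φ ω) =
      c * ∑ g ∈ 𝒢, ν g * Ex Q (I \ g.1) (pc g) (φ g) := by
  have e1 : Ex Q D η (fun ω => dens Q D η R Lk 𝒢 ν c ω * Φ ω) =
      ∑ g ∈ 𝒢, Ex Q D η (fun ω => c * ν g / Pr Q D η ({ω | pat R ω = g} ∩ Lk g) *
        ({ω | pat R ω = g}.indicator 1 ω * (Lk g).indicator 1 ω * Φ ω)) := by
    rw [← Ex_sum]
    refine Ex_congr fun S _ => ?_
    unfold dens
    rw [Finset.sum_mul]
    exact Finset.sum_congr rfl fun g _ => by ring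
  rw [e1, Finset.mul_sum]
  refine Finset.sum_congr rfl fun g hg => ?_
  rw [Ex_mul_left, ex_pat hQ hη hID hVW hrow hR (hLk g hg) (hO g hg) (hφ g hg)
    (fun ω h1 h2 h3 => by subst h3; exact hΦ ω h1 h2 hg)]
  set M := Pr Q D η ({ω | pat R ω = g} ∩ Lk g) with hMdef
  by_cases h : M = 0
  · have h1 := hM g hg
    rw [← hMdef, h] at h1
    have h2 : ν g = 0 := by
      have h3 := hν g hg
      nlinarith
    rw [h2]
    simp
  · field_simp

/-- The mass of the common part. -/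
theorem ex_dens_one (hQ : 0 < Q) (hη : Good η) (hID : I ⊆ D) (hVW : ↑I ⊆ W)
    (hrow : ∀ v ∈ W, v ∉ I → v ∉ D ∧ η v = false) (hR : StopSet R)
    (hLk : ∀ g ∈ 𝒢, Ind I ((Lk g).indicator 1)) (hO : ∀ g ∈ 𝒢, One W ↑(I \ g.1) (pc g))
    (hc : 0 < c) (hν : ∀ g ∈ 𝒢, 0 ≤ ν g)
    (hM : ∀ g ∈ 𝒢, c * ν g ≤ Pr Q D η ({ω | pat R ω = g} ∩ Lk g)) :
    Ex Q D η (dens Q D η R Lk 𝒢 ν c) = c * ∑ g ∈ 𝒢, ν g := by
  have h := ex_dens (Φ := fun _ => 1) (φ := fun _ _ => 1) hQ hη hID hVW hrow hR hLk hO hc hν hM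
    (fun _ _ _ _ _ => rfl) (fun _ _ _ _ => rfl)
  simp only [mul_one, Ex_const hQ] at h
  exact h

end Vale.Agent.P167.H685.Q
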