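import Vale.Agent.P167.H167.Q.Mix
import Vale.Agent.P167.H318.Base

/-!
# P167, general `q`, block Q-NSYM: regions with at most one entrance

`W` set of squares (revealed squares and fresh squares), `U ⊆ W` the fresh squares. `Ent W U ω e`: the
strand from `e` enters `W` and visits `U` before it leaves `W`. If there is at most one entrance, the
law of the squares of `U` does not depend on the squares off `W`: no planarity is used, a square of
`U` whose two strands both come from outside of `W` is visited twice by the strand of the entrance.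
-/

namespace Vale.Agent.P167.H685.Q

open Finset Vale.Agent.P167.FK Vale.Agent.P167.FKA
open Vale.Agent.P167.H318 (st)
open Vale.Agent.P167.H318.Bs (st_zero st_succ st_add tlv_st st_congr)
open Vale.Agent.P167.H259 (f_markov f_fkg f_comp f_comp2)

variable {Q : ℝ} {ω ω' ξ ξ' : Cfg} {W U : Set (ℤ × ℤ)} {D : Finset (ℤ × ℤ)}

/-- Every strand is periodic. -/
theorem period (hG : Good ω) (e : Ed) : ∃ p : ℕ, 0 < p ∧ st e ω p = e := by
  obtain ⟨ℓ, hl, he⟩ := hG e
  have hin : ∀ n : ℕ, (nx ω)^[n] e ∈ ℓ := by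
    intro n
    induction n with
    | zero => exact he
    | succ n ih => rw [Function.iterate_succ_apply']; exact hl.nx_mem ih
  obtain ⟨m, n, hmn, h1⟩ : ∃ m n : ℕ, m < n ∧ (nx ω)^[m] e = (nx ω)^[n] e := by
    by_contra hcon
    push Not at hcon
    have hinj : Function.Injective fun n : ℕ => (⟨(nx ω)^[n] e, hin n⟩ : ℓ) := by
      intro m n hmn
      have hmn' : (nx ω)^[m] e = (nx ω)^[n] e := congrArg Subtype.val hmn
      rcases lt_trichotomy m n with h | h | h
      · exact absurd hmn' (hcon m n h)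
      · exact h
      · exact absurd hmn'.symm (hcon n m h)
    exact not_injective_infinite_finite _ hinj
  refine ⟨n - m, by omega, ?_⟩
  have h2 : (nx ω)^[m] ((nx ω)^[n - m] e) = (nx ω)^[m] e := by
    rw [← Function.iterate_add_apply, show m + (n - m) = n by omega, h1]
  exact ((s_nx ω).1.iterate m) h2

/-- The strand from `e` enters `W` and visits `U` before it leaves `W`. -/
def Ent (W U : Set (ℤ × ℤ)) (ω : Cfg) (e : Ed) : Prop :=
  tlv e ∉ W ∧ ∃ n : ℕ, hdv (st e ω n) ∈ U ∧ ∀ i < n, hdv (st e ω i) ∈ W ∧ hdv (st e ω i) ∉ U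

/-- There is at most one entrance. -/
def One (W U : Set (ℤ × ℤ)) (ω : Cfg) : Prop := ∀ e e', Ent W U ω e → Ent W U ω e' → e = e'

theorem Ent.congr (h : ∀ v ∈ W, v ∉ U → ω' v = ω v) {e : Ed} (he : Ent W U ω e) :
    Ent W U ω' e := by
  obtain ⟨h1, n, h2, h3⟩ := he
  have h4 : ∀ i ≤ n, st e ω' i = st e ω i := st_congr fun i hi => h _ (h3 i hi).1 (h3 i hi).2
  exact ⟨h1, n, by rw [h4 n le_rfl]; exact h2, fun i hi => by rw [h4 i hi.le]; exact h3 i hi⟩

theorem One.congr (h : ∀ v ∈ W, v ∉ U → ω' v = ω v) (hO : One W U ω) : One W U ω' :=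
  fun e e' he he' => hO e e' (he.congr fun v h1 h2 => (h v h1 h2).symm)
    (he'.congr fun v h1 h2 => (h v h1 h2).symm)

/-- A strand which visits a square of `U` and leaves `W` comes from an entrance. -/
theorem exists_ent (hG : Good ω) {e : Ed} (heU : hdv e ∈ U) (hUW : U ⊆ W)
    (hex : ∃ n, hdv (st e ω n) ∉ W) :
    ∃ b n, Ent W U ω b ∧ st b ω n = e ∧ ∀ i ≤ n, hdv (st b ω i) ∈ W := by
  classical
  obtain ⟨p, hp, hpe⟩ := period hG e
  -- the exit before the period
  have hmod : ∀ n, st e ω (n % p) = st e ω n := by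
    intro n
    have hk : ∀ k, st e ω (p * k) = e := by
      intro k
      induction k with
      | zero => rfl
      | succ k ih => rw [Nat.mul_succ, st_add, ih, hpe]
    conv_rhs => rw [← Nat.div_add_mod n p, st_add, hk]
  have hex' : ∃ k, k < p ∧ hdv (st e ω (p - 1 - k)) ∉ W := by
    obtain ⟨n, hn⟩ := hex
    have h1 := Nat.mod_lt n hp
    refine ⟨p - 1 - n % p, by omega, ?_⟩
    rw [show p - 1 - (p - 1 - n % p) = n % p by omega, hmod]
    exact hn
  obtain ⟨hk1, hk2⟩ := Nat.find_spec hex'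
  have hmin : ∀ k < Nat.find hex', hdv (st e ω (p - 1 - k)) ∈ W := by
    intro k hk
    by_contra hcon
    exact Nat.find_min hex' hk ⟨by omega, hcon⟩
  set k := Nat.find hex' with hkdef
  -- the entrance
  have hpk : p - 1 - k + 1 = p - k := by omega
  have hst : ∀ i, st (st e ω (p - k)) ω i = st e ω (p - k + i) := fun i => (st_add _ _).symm
  have hend : st (st e ω (p - k)) ω k = e := by
    rw [hst, show p - k + k = p by omega, hpe]
  have hW : ∀ i ≤ k, hdv (st (st e ω (p - k)) ω i) ∈ W := by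
    intro i hi
    rcases Nat.lt_or_ge i k with h | h
    · rw [hst, show p - k + i = p - 1 - (k - 1 - i) by omega]
      exact hmin _ (by omega)
    · rw [show i = k by omega, hend]
      exact hUW heU
  have hU : ∃ n, hdv (st (st e ω (p - k)) ω n) ∈ U := ⟨k, by rw [hend]; exact heU⟩
  refine ⟨st e ω (p - k), k, ⟨?_, Nat.find hU, Nat.find_spec hU, fun i hi => ?_⟩, hend, hW⟩
  · rw [← hpk, tlv_st]
    exact hk2
  · have h1 : Nat.find hU ≤ k := Nat.find_le (by rw [hend]; exact heU)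
    exact ⟨hW i (by omega), Nat.find_min hU hi⟩

/-- Two medial edges of the same strand are in the same loop. -/
theorem same_of_st {b e e' : Ed} {n m : ℕ} (hG : Good ω) (h : st b ω n = e) (h' : st b ω m = e') :
    ∃ ℓ, IsLoop ω ℓ ∧ e ∈ ℓ ∧ e' ∈ ℓ := by
  obtain ⟨ℓ, hl, hb⟩ := hG b
  have hin : ∀ n : ℕ, st b ω n ∈ ℓ := by
    intro n
    induction n with
    | zero => exact hb
    | succ n ih => rw [st_succ]; exact hl.nx_mem ih
  exact ⟨ℓ, hl, h ▸ hin n, h' ▸ hin m⟩

/-- The loop condition in terms of the strands. -/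
theorem PC_iff_st (hG : Good ω) {a : ℤ × ℤ} (ha : ω a = false) :
    PC ω (pa a) (pb a) ↔ ∃ n, st (ia a) ω n = ib a := by
  obtain ⟨ℓ, hl, h1⟩ := hG (ia a)
  rw [← same_loop_iff hl ha h1]
  constructor
  · intro h2
    refine hl.induct (p := fun e => ∃ n, st (ia a) ω n = e) ?_ h1 h2 ⟨0, rfl⟩
    rintro e _ ⟨n, rfl⟩
    exact ⟨n + 1, st_succ n⟩
  · rintro ⟨n, hn⟩
    obtain ⟨ℓ', hl', h2, h3⟩ := same_of_st hG (st_zero (e0 := ia a) (ξ := ω)) hn
    rwa [hl.eq_of_mem hl' h1 h2]

/-- symmetric form -/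
theorem st_symm (hG : Good ω) {e e' : Ed} (h : ∃ n, st e ω n = e') : ∃ n, st e' ω n = e := by
  obtain ⟨n, rfl⟩ := h
  obtain ⟨p, hp, hpe⟩ := period hG e
  have hk : ∀ k, st e ω (p * k) = e := by
    intro k
    induction k with
    | zero => rfl
    | succ k ih => rw [Nat.mul_succ, st_add, ih, hpe]
  refine ⟨p * n - n, ?_⟩
  rw [← st_add, show n + (p * n - n) = p * n by
    have : n ≤ p * n := Nat.le_mul_of_pos_left n hp
    omega, hk]

/-- **One direction.** -/
theorem same_imp (hG : Good ξ) (hG' : Good ξ') (hUW : U ⊆ W) (hag : ∀ v ∈ W, ξ' v = ξ v)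
    (hO : One W U ξ) {a : ℤ × ℤ} (haU : a ∈ U) (h : ∃ n, st (ia a) ξ n = ib a) :
    ∃ n, st (ia a) ξ' n = ib a := by
  have hca : hdv (ia a) ∈ U := by rw [hdv_ia]; exact haU
  have hcb : hdv (ib a) ∈ U := by rw [hdv_ib]; exact haU
  by_cases h1 : ∃ n, hdv (st (ia a) ξ n) ∉ W
  · by_cases h2 : ∃ n, hdv (st (ib a) ξ n) ∉ W
    · obtain ⟨b, n, hb, hbn, hbW⟩ := exists_ent hG hca hUW h1
      obtain ⟨b', n', hb', hbn', hbW'⟩ := exists_ent hG hcb hUW h2
      obtain rfl := hO b b' hb hb'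
      have e1 : st b ξ' n = ia a := by
        rw [st_congr (fun i hi => hag _ (hbW i hi.le)) n le_rfl, hbn]
      have e2 : st b ξ' n' = ib a := by
        rw [st_congr (fun i hi => hag _ (hbW' i hi.le)) n' le_rfl, hbn']
      obtain ⟨ℓ, hl, m1, m2⟩ := same_of_st hG' e1 e2
      refine hl.induct (p := fun e => ∃ n, st (ia a) ξ' n = e) ?_ m1 m2 ⟨0, rfl⟩
      rintro e _ ⟨n, rfl⟩
      exact ⟨n + 1, st_succ n⟩
    · push Not at h2
      obtain ⟨m, hm⟩ := st_symm hG h
      refine st_symm hG' ⟨m, ?_⟩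
      rw [st_congr (fun i _ => hag _ (h2 i)) m le_rfl, hm]
  · push Not at h1
    obtain ⟨m, hm⟩ := h
    exact ⟨m, by rw [st_congr (fun i _ => hag _ (h1 i)) m le_rfl, hm]⟩

/-- **The connections of the squares of `U` do not depend on the squares off `W`.** -/
theorem PC_iff_of_one (hG : Good ξ) (hG' : Good ξ') (hUW : U ⊆ W) (hag : ∀ v ∈ W, ξ' v = ξ v)
    (hO : One W U ξ) {a : ℤ × ℤ} (haU : a ∈ U) (ha : ξ a = false) :
    PC ξ (pa a) (pb a) ↔ PC ξ' (pa a) (pb a) := by
  have ha' : ξ' a = false := by rw [hag a (hUW haU), ha]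
  rw [PC_iff_st hG ha, PC_iff_st hG' ha']
  exact ⟨same_imp hG hG' hUW hag hO haU, same_imp hG' hG hUW (fun v hv => (hag v hv).symm)
    (hO.congr fun v hv _ => hag v hv) haU⟩

/-- **Regions with at most one entrance**: the law of the squares of `U` does not depend on the
squares off `W`. -/
theorem ex_eq_of_one (hQ : 0 < Q) {V : Finset (ℤ × ℤ)} (hη : Good ω) (hη' : Good ω')
    (hVW : ↑V ⊆ W) (hag : ∀ v ∈ W, v ∉ V → ω' v = ω v) (hO : One W ↑V ω) {F : Cfg → ℝ}
    (hF : ∀ ξ ξ' : Cfg, (∀ v ∈ W, ξ' v = ξ v) → F ξ' = F ξ) : Ex Q V ω F = Ex Q V ω' F := by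
  have hagS : ∀ S, ∀ v ∈ W, cf V ω' S v = cf V ω S v := by
    intro S v hv
    by_cases h : v ∈ V
    · simp [cf, h]
    · rw [cf_out h, cf_out h]
      exact hag v hv h
  -- the function is replaced by a local function
  set F' : Cfg → ℝ := fun ζ => F (fun v => if v ∈ V then ζ v else ω v) with hF'
  have h1 : Ex Q V ω F = Ex Q V ω F' := by
    refine Ex_congr fun S _ => ?_
    rw [hF']
    congr 1
    funext v
    by_cases h : v ∈ V
    · simp [h]
    · rw [cf_out h, if_neg h]
  have h2 : Ex Q V ω' F = Ex Q V ω' F' := by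
    refine Ex_congr fun S _ => ?_
    rw [hF']
    refine hF _ _ fun v hv => ?_
    by_cases h : v ∈ V
    · simp [h]
    · rw [cf_out h]
      simp only [h, if_false]
      exact hag v hv h
  rw [h1, h2]
  refine H167.Q.Ex_eq_of_PC hQ hη hη' (fun S _ a ha haS => ?_) fun ζ ζ' hζ => ?_
  · refine PC_iff_of_one (W := W) (U := ↑V) (f_good.1 _ _ _ hη) (f_good.1 _ _ _ hη') hVW (hagS S)
      (hO.congr fun v _ hv => cf_out (fun h => hv (Finset.mem_coe.2 h))) (Finset.mem_coe.2 ha) ?_
    simp [cf, ha, haS]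
  · rw [hF']
    refine hF _ _ fun v _ => ?_
    by_cases h : v ∈ V
    · simp only [h, if_true]
      rw [hζ v h]
    · simp only [h, if_false]

end Vale.Agent.P167.H685.Q
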