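import Vale.Agent.P167.H685.Q.RecT
import Vale.Agent.P167.H704.Tri

/-!
# P167, general `q`, block Q-NSYM: revealing squares, new states
-/

namespace Vale.Agent.P167.H685.Q

open Finset Vale.Agent.P167 Vale.Agent.P167.FK Vale.Agent.P167.FKA Relation
open Vale.Agent.P167.H259 (f_markov)
open Vale.Agent.P167.H558 (StopSet Past)
open Vale.Agent.P167.H192 (ov ov_mem ov_notMem)
open Vale.Agent.P167.H318 (St TA TB Flat PO Lo HB J ex hit Visit CoConn Adj wt mem_RV RV_notMem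
  RV_path stopSet_RV past_X1 rv_cf rv_ok st_m RV_sub)

variable {Q : ℝ} {S : St} {ω ω' : Cfg} {R : Cfg → Finset (ℤ × ℤ)} {A : Set (ℤ × ℤ)}

/-- `ω` is a configuration of the state `S` -/
def Cs (S : St) (ω : Cfg) : Prop := ∀ v, v ∉ S.F → ω v = S.z v

theorem cs_cf (S : St) (T : Finset (ℤ × ℤ)) : Cs S (FK.cf S.F S.z T) := fun _ hv => cf_out hv

theorem Cs.cf (h : Cs S ω) : S.cf ω = ω := by
  funext v
  show ov S.F S.z ω v = ω v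
  by_cases hv : v ∈ S.F
  · rw [ov_mem hv]
  · rw [ov_notMem hv, h v hv]

theorem cs_St (S : St) (ω : Cfg) : Cs S (S.cf ω) := fun _ hv => ov_notMem hv

theorem ov_eq_cf (F : Finset (ℤ × ℤ)) (z ω : Cfg) : ∃ T, ov F z ω = FK.cf F z T := by
  classical
  refine ⟨F.filter fun v => ω v = true, ?_⟩
  funext v
  by_cases hv : v ∈ F
  · rw [ov_mem hv, cf_in hv]
    simp [hv]
  · rw [ov_notMem hv, cf_out hv]

theorem good_ov {F : Finset (ℤ × ℤ)} {z : Cfg} (hz : Good z) (ω : Cfg) : Good (ov F z ω) := by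
  obtain ⟨T, hT⟩ := ov_eq_cf F z ω
  rw [hT]
  exact f_good.1 _ _ _ hz

theorem Cs.good (h : Cs S ω) (hz : Good S.z) : Good ω := by
  rw [← h.cf]
  exact good_ov hz ω

theorem Ex_eta {D : Finset (ℤ × ℤ)} {η η' : Cfg} (h : ∀ v, v ∉ D → η v = η' v) (Φ : Cfg → ℝ) :
    FK.Ex Q D η Φ = FK.Ex Q D η' Φ := by
  have h1 : ∀ T, FK.cf D η T = FK.cf D η' T := by
    intro T
    funext v
    by_cases hv : v ∈ D
    · rw [cf_in hv, cf_in hv]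
    · rw [cf_out hv, cf_out hv, h v hv]
  unfold FK.Ex Zq
  simp only [h1]

/-- the law of the state with the squares of `R` revealed -/
theorem EQ_rv (h : Cs S ω) (R : Finset (ℤ × ℤ)) (Φ : Cfg → ℝ) :
    EQ Q (S.rv R ω) Φ = FK.Ex Q (S.F \ R) ω Φ := by
  refine Ex_eta (D := S.F \ R) (fun v hv => ?_) Φ
  rw [rv_cf R ω hv, h.cf]

/-- the configurations of the new state -/
theorem cs_rv (h : Cs S ω) {R : Finset (ℤ × ℤ)} (h' : Cs (S.rv R ω) ω') :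
    Cs S ω' ∧ ∀ v ∈ R, v ∈ S.F → ω' v = ω v := by
  constructor
  · intro v hv
    rw [h' v fun h1 => hv (Finset.mem_sdiff.1 h1).1]
    rw [rv_cf R ω fun h1 => hv (Finset.mem_sdiff.1 h1).1, h.cf, h v hv]
  · intro v hv _
    rw [h' v fun h1 => (Finset.mem_sdiff.1 h1).2 hv, rv_cf R ω fun h1 => (Finset.mem_sdiff.1 h1).2 hv,
      h.cf]

theorem EQ_congr {Φ Ψ : Cfg → ℝ} (h : ∀ ω, Cs S ω → Φ ω = Ψ ω) : EQ Q S Φ = EQ Q S Ψ :=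
  Ex_congr fun T _ => h _ (cs_cf S T)

theorem EQ_mono (hQ : 0 < Q) {Φ Ψ : Cfg → ℝ} (h : ∀ ω, Cs S ω → Φ ω ≤ Ψ ω) :
    EQ Q S Φ ≤ EQ Q S Ψ :=
  Ex_mono hQ fun T _ => h _ (cs_cf S T)

theorem EQ_abs (hQ : 0 < Q) (Φ : Cfg → ℝ) : |EQ Q S Φ| ≤ EQ Q S (fun ω => |Φ ω|) := abs_Ex_le hQ Φ

theorem EQ_const (hQ : 0 < Q) (a : ℝ) : EQ Q S (fun _ => a) = a := Ex_const hQ a

theorem EQ_mul (a : ℝ) (Φ : Cfg → ℝ) : EQ Q S (fun ω => a * Φ ω) = a * EQ Q S Φ := Ex_mul_left a Φ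

theorem EQ_add (Φ Ψ : Cfg → ℝ) : EQ Q S (fun ω => Φ ω + Ψ ω) = EQ Q S Φ + EQ Q S Ψ := Ex_add Φ Ψ

theorem EQ_sub (Φ Ψ : Cfg → ℝ) : EQ Q S (fun ω => Φ ω - Ψ ω) = EQ Q S Φ - EQ Q S Ψ := Ex_sub Φ Ψ

theorem EQ_nonneg (hQ : 0 < Q) {Φ : Cfg → ℝ} (h : ∀ ω, Cs S ω → 0 ≤ Φ ω) : 0 ≤ EQ Q S Φ :=
  Ex_nonneg hQ fun T _ => h _ (cs_cf S T)

/-- **strong Markov property** -/
theorem EQ_stop (hQ : 0 < Q) (hz : Good S.z) (hR : StopSet R) (hRc : ∀ ω, R (S.cf ω) = R ω)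
    {Y : Cfg → ℝ} (hY : PastS S R Y) (Φ : Cfg → ℝ) :
    EQ Q S (fun ω => Y ω * Φ ω) = EQ Q S (fun ω => Y ω * EQ Q (S.rv (R ω) ω) Φ) := by
  have hY' : Past R (fun ω => Y (S.cf ω)) := by
    intro ω ω' h
    show Y (S.cf ω') = Y (S.cf ω)
    refine hY _ _ (cs_St S ω) (cs_St S ω') fun v hv => ?_
    rw [hRc] at hv
    show ov S.F S.z ω' v = ov S.F S.z ω v
    by_cases hF : v ∈ S.F
    · rw [ov_mem hF, ov_mem hF, h v hv]
    · rw [ov_notMem hF, ov_notMem hF]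
  have h1 := ex_strong_mul (D := S.F) (η := S.z) hQ hz hR hY' Φ
  have e1 : EQ Q S (fun ω => Y ω * Φ ω) = EQ Q S (fun ω => Y (S.cf ω) * Φ ω) :=
    EQ_congr fun ω h => by rw [h.cf]
  rw [e1]
  refine h1.trans ?_
  refine EQ_congr fun ω h => ?_
  rw [h.cf, EQ_rv h]

/-- a function of the past does not change -/
theorem EQ_past (hQ : 0 < Q) (h : Cs S ω) {γ : Type*} {Z : Cfg → γ}
    (hZ : ∀ ω', Cs S ω' → (∀ v ∈ R ω, ω' v = ω v) → Z ω' = Z ω) (Φ : γ → Cfg → ℝ) :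
    EQ Q (S.rv (R ω) ω) (fun ω' => Φ (Z ω') ω') = EQ Q (S.rv (R ω) ω) (Φ (Z ω)) := by
  refine EQ_congr fun ω' h' => ?_
  obtain ⟨h1, h2⟩ := cs_rv h h'
  have h3 : ∀ v ∈ R ω, ω' v = ω v := by
    intro v hv
    by_cases hF : v ∈ S.F
    · exact h2 v hv hF
    · rw [h1 v hF, h v hF]
  rw [hZ ω' h1 h3]

/-! ### the exploration -/

theorem RV_cf (A : Set (ℤ × ℤ)) (ω : Cfg) : S.RV A (S.cf ω) = S.RV A ω := by
  ext v
  rw [mem_RV, mem_RV, (cs_St S ω).cf]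

theorem X1_cf (A : Set (ℤ × ℤ)) (ω : Cfg) : S.X1 A (S.cf ω) = S.X1 A ω := by
  show H318.st S.e0 (S.cf (S.cf ω)) (hit S.D S.e0 A (S.cf (S.cf ω))) = _
  rw [(cs_St S ω).cf]
  rfl

theorem RC_cf (x ρ l' r : ℤ) (ω : Cfg) : RC S x ρ l' r (S.cf ω) = RC S x ρ l' r ω := by
  unfold RC
  rw [RV_cf, X1_cf]

theorem mem_RC {x ρ l' r : ℤ} {v : ℤ × ℤ} : v ∈ RC S x ρ l' r ω ↔ v ∈ S.RV (Lo x ρ (4 * l')) ω ∨
    (v ∈ S.F ∧ v ∉ HB (hdv (S.X1 (Lo x ρ (4 * l')) ω)).1 r) := by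
  classical
  unfold RC
  rw [Finset.mem_union, Finset.mem_filter]

theorem RV_sub_RC {x ρ l' r : ℤ} : S.RV (Lo x ρ (4 * l')) ω ⊆ RC S x ρ l' r ω :=
  fun _ hv => mem_RC.2 (Or.inl hv)

theorem X1_of_RC (hS : tlv S.e0 ∉ S.D) {x ρ l' r : ℤ} (h : ∀ v ∈ RC S x ρ l' r ω, ω' v = ω v) :
    S.X1 (Lo x ρ (4 * l')) ω' = S.X1 (Lo x ρ (4 * l')) ω :=
  past_X1 hS _ ω ω' fun v hv => h v (RV_sub_RC hv)

theorem stop_RC (hS : tlv S.e0 ∉ S.D) (x ρ l' r : ℤ) : StopSet (RC S x ρ l' r) := by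
  intro ω ω' h
  ext v
  rw [mem_RC, mem_RC, X1_of_RC hS h,
    stopSet_RV hS _ ω ω' fun v hv => h v (RV_sub_RC hv)]

/-- if the squares read before the entrance in `A` are revealed and the square of the entrance is
fresh, then the tip of the new state is the medial edge by which the strand enters `A` -/
theorem rv_m' (hS : tlv S.e0 ∉ S.D) {R : Finset (ℤ × ℤ)} (h1 : S.RV A ω ⊆ R)
    (h2 : hdv (S.X1 A ω) ∈ S.F \ R) :
    (∀ i ≤ hit S.D S.e0 A (S.cf ω), H318.st S.e0 (S.rv R ω).z i = H318.st S.e0 (S.cf ω) i) ∧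
    (S.rv R ω).m = hit S.D S.e0 A (S.cf ω) ∧ (S.rv R ω).tip = S.X1 A ω ∧
    (S.rv R ω).Hs = {v | ∃ i < hit S.D S.e0 A (S.cf ω), hdv (H318.st S.e0 (S.cf ω) i) = v} := by
  classical
  have key : ∀ i < hit S.D S.e0 A (S.cf ω), hdv (H318.st S.e0 (S.cf ω) i) ∉ S.F \ R := by
    intro i hi hmem
    have hF := (Finset.mem_sdiff.1 hmem).1
    exact (Finset.mem_sdiff.1 hmem).2 (h1 (mem_RV.2 ⟨hF, i, hi, rfl⟩))
  have e1 : ∀ i ≤ hit S.D S.e0 A (S.cf ω),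
      H318.st S.e0 (S.rv R ω).z i = H318.st S.e0 (S.cf ω) i :=
    H318.Bs.st_congr fun i hi => rv_cf R ω (key i hi)
  have e2 : (S.rv R ω).m = hit S.D S.e0 A (S.cf ω) := by
    refine H318.Bs.hit_eq_of ?_ ?_
    · show hdv (H318.st S.e0 (S.rv R ω).z _) ∈ (↑(S.F \ R) : Set (ℤ × ℤ)) ∨ _
      rw [e1 _ le_rfl]
      exact Or.inl (Finset.mem_coe.2 h2)
    · intro i hi
      show hdv (H318.st S.e0 (S.rv R ω).z i) ∉ (↑(S.F \ R) : Set (ℤ × ℤ)) ∧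
        hdv (H318.st S.e0 (S.rv R ω).z i) ∈ S.D
      rw [e1 i hi.le]
      exact ⟨fun h => key i hi (Finset.mem_coe.1 h), (H318.Bs.hit_min hi).2⟩
  refine ⟨e1, e2, ?_, ?_⟩
  · show H318.st S.e0 (S.rv R ω).z (S.rv R ω).m = _
    rw [e2, e1 _ le_rfl]
    rfl
  · ext v
    show (∃ i < (S.rv R ω).m, hdv (H318.st S.e0 (S.rv R ω).z i) = v) ↔ _
    rw [e2]
    refine exists_congr fun i => and_congr_right fun hi => ?_
    rw [e1 i hi.le]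

/-- the explored strand is before the entrance in fresh squares -/
theorem m_le_hit (hS : tlv S.e0 ∉ S.D) (hA : ∀ v ∈ A, v ∈ S.F) (ω : Cfg) :
    S.m ≤ hit S.D S.e0 A (S.cf ω) := by
  by_contra hcon
  have h1 := H318.Bs.hit_min (not_le.1 hcon)
  have h2 := H318.Bs.hit_spec hS A (S.cf ω)
  rw [st_m ω _ (not_le.1 hcon).le] at h2
  rcases h2 with h2 | h2
  · exact h1.1 (Finset.mem_coe.2 (hA _ h2))
  · exact h2 h1.2

/-- the visited squares -/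
theorem Hs_sub (hS : tlv S.e0 ∉ S.D) (hA : ∀ v ∈ A, v ∈ S.F) (ω : Cfg) {v : ℤ × ℤ} (hv : v ∈ S.Hs) :
    ∃ i < hit S.D S.e0 A (S.cf ω), hdv (H318.st S.e0 (S.cf ω) i) = v := by
  obtain ⟨i, hi, h⟩ := hv
  refine ⟨i, hi.trans_le (m_le_hit hS hA ω), ?_⟩
  rw [st_m ω i hi.le, h]

end Vale.Agent.P167.H685.Q
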