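import Vale.Agent.P167.H685.Q.Rec1

/-!
# P167, general `q`, block Q-NSYM: the new states
-/

namespace Vale.Agent.P167.H685.Q

open Finset Vale.Agent.P167 Vale.Agent.P167.FK Vale.Agent.P167.FKA Relation
open Vale.Agent.P167.H558 (StopSet Past)
open Vale.Agent.P167.H192 (ov ov_mem ov_notMem)
open Vale.Agent.P167.H318 (St TA TB Flat PO Lo HB J ex hit Visit CoConn Adj wt mem_RV RV_notMem
  RV_path stopSet_RV past_X1 rv_cf rv_ok st_m RV_sub)

variable {Q : ℝ} {S : St} {ω ω' : Cfg} {u w l' r : ℤ}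

/-- the hypotheses on the zone -/
structure Zone (S : St) (u w l' : ℤ) : Prop extends St.Ok S where
  gq : Gq S u w
  flat : Flat S.D u w (w + 1)
  fr : ∀ v ∈ Lo u w (4 * l'), v ∈ S.F
  po : PO S (Lo u w (w + 1))
  l1 : 1 ≤ l'
  lw : 4 * l' ≤ w

theorem Zone.sub' (hZ : Zone S u w l') {v : ℤ × ℤ} (hv : v ∈ Lo u w (4 * l')) : v ∈ S.D :=
  hZ.sub (hZ.fr v hv)

/-- the entrance is from above -/
theorem Zone.tip (hZ : Zone S u w l') (hA : hdv (S.X1 (Lo u w (4 * l')) ω) ∈ Lo u w (4 * l'))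
    (hx : |(hdv (S.X1 (Lo u w (4 * l')) ω)).1 - u| < w) :
    S.X1 (Lo u w (4 * l')) ω = Sum.inr ((hdv (S.X1 (Lo u w (4 * l')) ω)).1, 4 * l' - 1) ∧
      Even ((hdv (S.X1 (Lo u w (4 * l')) ω)).1 + (4 * l' - 1)) := by
  set A := Lo u w (4 * l') with hAdef
  set n := hit S.D S.e0 A (S.cf ω) with hn
  have hX : S.X1 A ω = H318.st S.e0 (S.cf ω) n := rfl
  rw [hX] at hA hx ⊢
  set v := hdv (H318.st S.e0 (S.cf ω) n) with hv
  have hnA : tlv (H318.st S.e0 (S.cf ω) n) ∉ A := by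
    rcases Nat.eq_zero_or_pos n with h0 | h0
    · rw [h0]
      exact fun h => hZ.st (hZ.sub' h)
    · have h1 := (H318.Bs.hit_min (show n - 1 < hit S.D S.e0 A (S.cf ω) by omega)).1
      rwa [← H318.Bs.tlv_st, show n - 1 + 1 = n by omega] at h1
  obtain ⟨v1, v2, v3, v4⟩ := hA
  obtain ⟨b1, b2⟩ := abs_lt.1 hx
  rcases H704.adj_sq (H318.st S.e0 (S.cf ω) n) with ⟨t, ht, ⟨h1, h2⟩ | ⟨h1, h2⟩⟩ |
    ⟨t, ht, ⟨h1, h2, h3⟩ | ⟨h1, h2⟩⟩
  · exfalso
    apply hnA
    rw [← hv] at h1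
    rw [h2, ← h1]
    exact ⟨by dsimp only; omega, by dsimp only; omega, v3, v4⟩
  · exfalso
    apply hnA
    rw [← hv] at h1
    rw [h1] at v1 v2 v3 v4 b1 b2
    dsimp only at v1 v2 v3 v4 b1 b2
    rw [h2]
    exact ⟨by omega, by omega, v3, v4⟩
  · rw [← hv] at h1
    have h5 : v.2 = 4 * l' - 1 := by
      by_contra hne
      apply hnA
      rw [h2, ← h1]
      exact ⟨v1, v2, by dsimp only; omega, by dsimp only; omega⟩
    have hvt : v = (v.1, 4 * l' - 1) := by rw [← h5]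
    refine ⟨?_, ?_⟩
    · rw [ht, ← h1]
      exact congrArg Sum.inr hvt
    · rw [← h1, h5] at h3
      exact h3
  · exfalso
    rw [← hv] at h1
    have h5 : t.2 = -1 := by
      by_contra hne
      apply hnA
      rw [h1] at v1 v2 v3 v4
      dsimp only at v1 v2 v3 v4
      rw [h2]
      exact ⟨v1, v2, by omega, by omega⟩
    have h6 : t = (v.1, -1) := by
      have : v.1 = t.1 := by rw [h1]
      rw [this, ← h5]
    have h0 : n = 0 := by
      by_contra hne
      have h7 := (H318.Bs.hit_min (show n - 1 < hit S.D S.e0 A (S.cf ω) by omega)).2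
      rw [← H318.Bs.tlv_st, show n - 1 + 1 = n by omega, h2, h6] at h7
      exact hZ.flat.not v.1 v1 v2 h7
    have h8 : H318.st S.e0 (S.cf ω) n = Sum.inr (v.1, -1) := by rw [ht, h6]
    rw [h0] at h8
    exact hZ.gq.ne v.1 v1 v2 h8

/-- **the new state** -/
theorem Zone.tc (hZ : Zone S u w l') (h4 : 4 * l' ≤ r)
    (hA : hdv (S.X1 (Lo u w (4 * l')) ω) ∈ Lo u w (4 * l'))
    (hx : |(hdv (S.X1 (Lo u w (4 * l')) ω)).1 - u| + r < w) :
    TC (S.rv (RC S u w l' r ω) ω) l' (hdv (S.X1 (Lo u w (4 * l')) ω)).1 r := by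
  have hl1 := hZ.l1
  obtain ⟨ht, hev⟩ := hZ.tip hA (by omega)
  set A := Lo u w (4 * l') with hAdef
  set x := (hdv (S.X1 A ω)).1 with hxdef
  set R := RC S u w l' r ω with hR
  have hx1 := abs_lt.1 (show |x - u| < w - r by omega)
  have hcoord : hdv (S.X1 A ω) = (x, 4 * l' - 1) := by
    rw [ht]
    simp [hdv, hev]
  have hmem : ∀ v : ℤ × ℤ, v ∈ A → v ∈ HB x r → v ∈ S.F ∧ v ∉ R := by
    intro v h1 h2
    refine ⟨hZ.fr v h1, fun h3 => ?_⟩
    rcases mem_RC.1 h3 with h4 | h4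
    · exact RV_notMem h4 h1
    · exact h4.2 h2
  have htipHB : hdv (S.X1 A ω) ∈ HB x r := by
    rw [hcoord]
    exact ⟨by dsimp only; omega, by dsimp only; omega, by dsimp only; omega, by dsimp only; omega⟩
  have hm := rv_m' (R := R) hZ.st (RV_sub_RC (S := S) (ω := ω) (x := u) (ρ := w) (l' := l') (r := r))
    (Finset.mem_sdiff.2 (hmem _ hA htipHB))
  obtain ⟨-, -, htip, hHs⟩ := hm
  have hlow : ∀ v : ℤ × ℤ, v ∈ Lo x r (4 * l') → v ∈ A ∧ v ∈ HB x r := fun v hv => by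
    obtain ⟨h1, h2, h3, h4'⟩ := hv
    exact ⟨⟨by omega, by omega, h3, h4'⟩, ⟨h1, h2, h3, by omega⟩⟩
  exact
    { toOk := rv_ok hZ.toOk R ω
      flat := ⟨fun q hq => hZ.sub' (hlow q hq).1, fun y h1 h2 => hZ.flat.not y (by omega) (by omega)⟩
      fresh := fun q hq => Finset.mem_sdiff.2 (hmem q (hlow q hq).1 (hlow q hq).2)
      flat' := ⟨fun q hq => hZ.flat.mem q ⟨by have := hq.1; omega, by have := hq.2.1; omega,
        hq.2.2.1, by have := hq.2.2.2; omega⟩, fun y h1 h2 => hZ.flat.not y (by omega) (by omega)⟩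
      po := by
        intro q hq
        have hqHB : q ∈ HB x r := ⟨hq.1, hq.2.1, hq.2.2.1, by have := hq.2.2.2; omega⟩
        rcases hZ.po q ⟨by have := hq.1; omega, by have := hq.2.1; omega,
          hq.2.2.1, by have := hq.2.2.2; omega⟩ with h1 | h1
        · by_cases hqR : q ∈ R
          · right
            rw [hHs]
            rcases mem_RC.1 hqR with h2 | h2
            · obtain ⟨-, i, hi, hi'⟩ := mem_RV.1 h2
              exact ⟨i, hi, hi'⟩
            · exact absurd hqHB h2.2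
          · exact Or.inl (Finset.mem_sdiff.2 ⟨h1, hqR⟩)
        · right
          rw [hHs]
          exact Hs_sub hZ.st hZ.fr ω h1
      tip := by
        rw [htip]
        exact ht
      ev := hev
      gq :=
        { good := good_ov hZ.gq.good _
          row := fun v h1 h2 h3 h4' => by
            have h5 := hZ.gq.row v (by omega) (by omega) (by omega) h4'
            refine ⟨fun h6 => h5.1 (Finset.mem_sdiff.1 h6).1, ?_⟩
            have h7 : ov (S.F ∩ R) S.z ω v = S.z v :=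
              ov_notMem fun h6 => h5.1 (Finset.mem_inter.1 h6).1
            show ov (S.F ∩ R) S.z ω v = false
            rw [h7, h5.2]
          ne := fun y h1 h2 => hZ.gq.ne y (by omega) (by omega) } }

/-- **the intermediate state**: only the strand is revealed -/
theorem Zone.ta (hZ : Zone S u w l') (ω : Cfg) :
    TA (S.rv (S.RV (Lo u w (4 * l')) ω) ω) u w (4 * l') :=
  { toOk := rv_ok hZ.toOk _ ω
    flat := ⟨fun _ hq => hZ.sub' hq, hZ.flat.not⟩
    fresh := fun _ hq => Finset.mem_sdiff.2 ⟨hZ.fr _ hq, fun h => RV_notMem h hq⟩ }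

/-- conditions on the known configuration are kept -/
theorem gq_rv {x ρ : ℤ} (h : Gq S x ρ) (R : Finset (ℤ × ℤ)) (ω : Cfg) : Gq (S.rv R ω) x ρ :=
  { good := good_ov h.good _
    row := fun v h1 h2 h3 h4 => by
      have h5 := h.row v h1 h2 h3 h4
      refine ⟨fun h6 => h5.1 (Finset.mem_sdiff.1 h6).1, ?_⟩
      have h7 : ov (S.F ∩ R) S.z ω v = S.z v :=
        ov_notMem fun h6 => h5.1 (Finset.mem_inter.1 h6).1
      show ov (S.F ∩ R) S.z ω v = false
      rw [h7, h5.2]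
    ne := h.ne }

theorem Gq.mono {x ρ x' ρ' : ℤ} (h : Gq S x ρ) (h1 : x - ρ ≤ x' - ρ') (h2 : x' + ρ' ≤ x + ρ) :
    Gq S x' ρ' :=
  ⟨h.good, fun v h3 h4 h5 h6 => h.row v (by omega) (by omega) (by omega) h6,
    fun y h3 h4 => h.ne y (by omega) (by omega)⟩

/-- the tip, the length and the visited squares of the intermediate state -/
theorem rv_int (hS : S.Ok) {A : Set (ℤ × ℤ)} (hA : ∀ v ∈ A, v ∈ S.F) (ω : Cfg) :
    (S.rv (S.RV A ω) ω).m = hit S.D S.e0 A (S.cf ω) ∧ (S.rv (S.RV A ω) ω).tip = S.X1 A ω ∧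
    ∀ X : Set (ℤ × ℤ), PO S X → PO (S.rv (S.RV A ω) ω) X := by
  obtain ⟨-, h1, h2, h3⟩ := H318.rv_m (S := S) hS.st (A := A) (R := S.RV A ω) (ω := ω)
    (Finset.Subset.refl _) (fun q hq => ⟨hA q hq, fun h => RV_notMem h hq⟩)
  refine ⟨h1, h2, fun X hX q hq => ?_⟩
  rcases hX q hq with h4 | h4
  · by_cases hqR : q ∈ S.RV A ω
    · right
      rw [h3]
      obtain ⟨-, i, hi, hi'⟩ := mem_RV.1 hqR
      exact ⟨i, hi, hi'⟩
    · exact Or.inl (Finset.mem_sdiff.2 ⟨h4, hqR⟩)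
  · right
    rw [h3]
    exact Hs_sub hS.st hA ω h4

end Vale.Agent.P167.H685.Q
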