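import Vale.Agent.P167.H685.Q.Rec2
import Vale.Agent.P167.H365.Q.Defs

/-!
# P167, general `q`, block Q-NSYM: the observable, second moments and escapes
-/

namespace Vale.Agent.P167.H685.Q

open Finset Vale.Agent.P167 Vale.Agent.P167.FK Vale.Agent.P167.FKA Relation
open Vale.Agent.P167.H558 (StopSet Past)
open Vale.Agent.P167.H192 (ov ov_mem ov_notMem)
open Vale.Agent.P167.H318 (St TA TB Flat PO Lo HB J ex hit Visit CoConn Adj wt mem_RV RV_notMem
  RV_path stopSet_RV past_X1 rv_cf rv_ok st_m RV_sub)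
open Vale.Agent.P167.H632 (sq_inl)

variable {Q : ℝ} {S : St} {ω ω' ξ : Cfg} {u w H l' r : ℤ} {D : Finset (ℤ × ℤ)} {e : Ed} {k : ℕ}
  {ψ ψ' : ℤ → ℝ}

/-! ### the observable is linear -/

theorem wt_lin (a b : ℝ) (k : ℕ) (e : Ed) :
    wt (fun x => a * ψ x + b * ψ' x) k e = a * wt ψ k e + b * wt ψ' k e := by
  rcases e with v | v
  · show (if 0 ≤ v.2 ∧ v.2 < (k : ℤ) then _ else (0 : ℝ)) =
      a * (if 0 ≤ v.2 ∧ v.2 < (k : ℤ) then _ else (0 : ℝ)) +
      b * (if 0 ≤ v.2 ∧ v.2 < (k : ℤ) then _ else (0 : ℝ))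
    split_ifs
    · ring
    · ring
  · show (0 : ℝ) = a * 0 + b * 0
    ring

theorem J_lin (a b : ℝ) : J D e (fun x => a * ψ x + b * ψ' x) k ξ =
    a * J D e ψ k ξ + b * J D e ψ' k ξ := by
  unfold J
  rw [Finset.mul_sum, Finset.mul_sum, ← Finset.sum_add_distrib]
  exact Finset.sum_congr rfl fun i _ => wt_lin a b k _

theorem J_smul (a : ℝ) : J D e (fun x => a * ψ x) k ξ = a * J D e ψ k ξ := by
  have h := J_lin (D := D) (e := e) (ψ := ψ) (ψ' := fun _ => 0) (k := k) (ξ := ξ) a 0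
  simp only [zero_mul, add_zero] at h
  exact h

/-- a strand which stays in a half box after it enters the low zone does not see the weights off the
half box -/
theorem J_off {m : ℕ} {h b R : ℤ} (h1 : ∀ i < m, hdv (H318.st e ξ i) ∉ Lo u w h) (hk : (k : ℤ) ≤ h)
    (hψ : ∀ x, ψ x ≠ 0 → u - w + 1 ≤ x ∧ x ≤ u + w) (h2 : ¬ Visit D e m (HB b R)ᶜ ξ)
    (h3 : ∀ x, b - R ≤ x → x ≤ b + R + 1 → ψ x = 0) : J D e ψ k ξ = 0 := by
  refine Finset.sum_eq_zero fun i hi => ?_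
  rw [Finset.mem_range] at hi
  rcases Nat.lt_or_ge i m with him | him
  · exact H704.wt_low hk hψ (h1 i him)
  · have h4 : hdv (H318.st e ξ i) ∈ HB b R := by
      by_contra hcon
      exact h2 ⟨i, him, hi, hcon⟩
    generalize H318.st e ξ i = f at h4
    rcases f with v | v
    · show (if 0 ≤ v.2 ∧ v.2 < (k : ℤ) then ψ (v.1 + 1) * (sg (Sum.inl v) : ℝ) else (0 : ℝ)) = 0
      have h5 : ψ (v.1 + 1) = 0 := by
        rcases sq_inl v with h | h
        · rw [h.1] at h4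
          exact h3 _ (by have := h4.1; omega) (by have := h4.2.1; omega)
        · rw [h.1] at h4
          exact h3 _ (by have := h4.1; dsimp only at this; omega)
            (by have := h4.2.1; dsimp only at this; omega)
      rw [h5, zero_mul, ite_self]
    · rfl

/-! ### moments -/

/-- Cauchy–Schwarz -/
theorem cs_bound (hQ : 0 < Q) (S : St) {X : Cfg → ℝ} {V : Set Cfg} {C κ p : ℝ} (hκ : 0 < κ)
    (hp : 0 < p) (hC : EQ Q S (fun ω => X ω ^ 2) ≤ C * κ ^ 2) (hV : PQ Q S V ≤ p) :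
    EQ Q S (fun ω => |X ω| * V.indicator 1 ω) ≤ (C + 1) / 2 * κ * Real.sqrt p := by
  set δ := Real.sqrt p / κ with hδ
  have hs : 0 < Real.sqrt p := Real.sqrt_pos.2 hp
  have hδ0 : 0 < δ := div_pos hs hκ
  have h1 : EQ Q S (fun ω => |X ω| * V.indicator 1 ω) ≤
      EQ Q S (fun ω => δ / 2 * X ω ^ 2 + 1 / (2 * δ) * V.indicator 1 ω) := by
    refine EQ_mono hQ fun ω _ => ?_
    have h2 : |X ω| ≤ δ / 2 * X ω ^ 2 + 1 / (2 * δ) := by
      have h3 : 0 ≤ (δ * |X ω| - 1) ^ 2 := sq_nonneg _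
      rw [← sq_abs (X ω)]
      have h4 : δ / 2 * |X ω| ^ 2 + 1 / (2 * δ) - |X ω| = (δ * |X ω| - 1) ^ 2 / (2 * δ) := by
        field_simp
        ring
      have h5 : 0 ≤ (δ * |X ω| - 1) ^ 2 / (2 * δ) := div_nonneg h3 (by positivity)
      linarith
    by_cases hω : ω ∈ V
    · rw [Set.indicator_of_mem hω]
      simpa using h2
    · rw [Set.indicator_of_notMem hω]
      have : 0 ≤ δ / 2 * X ω ^ 2 := by positivity
      simpa using this
  have h2 : EQ Q S (fun ω => δ / 2 * X ω ^ 2 + 1 / (2 * δ) * V.indicator 1 ω) =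
      δ / 2 * EQ Q S (fun ω => X ω ^ 2) + 1 / (2 * δ) * PQ Q S V := by
    rw [EQ_add, EQ_mul, EQ_mul]
    rfl
  rw [h2] at h1
  refine h1.trans ?_
  have h3 : δ / 2 * EQ Q S (fun ω => X ω ^ 2) ≤ δ / 2 * (C * κ ^ 2) :=
    mul_le_mul_of_nonneg_left hC (by positivity)
  have h4 : 1 / (2 * δ) * PQ Q S V ≤ 1 / (2 * δ) * p := mul_le_mul_of_nonneg_left hV (by positivity)
  have h5 : δ / 2 * (C * κ ^ 2) = C / 2 * κ * Real.sqrt p := by
    rw [hδ]
    field_simp
  have h6 : 1 / (2 * δ) * p = 1 / 2 * κ * Real.sqrt p := by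
    have h7 : p = Real.sqrt p * Real.sqrt p := (Real.mul_self_sqrt hp.le).symm
    rw [hδ]
    field_simp
    nlinarith [Real.sq_sqrt hp.le]
  rw [h5] at h3
  rw [h6] at h4
  calc _ ≤ C / 2 * κ * Real.sqrt p + 1 / 2 * κ * Real.sqrt p := add_le_add h3 h4
    _ = _ := by ring

/-- the first absolute moment -/
theorem abs_bound (hQ : 0 < Q) (S : St) {X : Cfg → ℝ} {C κ : ℝ} (hκ : 0 < κ)
    (hC : EQ Q S (fun ω => X ω ^ 2) ≤ C * κ ^ 2) :
    EQ Q S (fun ω => |X ω|) ≤ (C + 1) / 2 * κ := by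
  have h := cs_bound hQ S (V := Set.univ) hκ one_pos hC (by
    have : PQ Q S Set.univ = 1 := by
      unfold PQ FK.Pr
      simp only [Set.indicator_univ]
      exact Ex_const hQ 1
    rw [this])
  simp only [Set.indicator_univ, Pi.one_apply, mul_one, Real.sqrt_one] at h
  exact h

end Vale.Agent.P167.H685.Q
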