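import Vale.Agent.P167.H685.Q.Rec4

/-!
# P167, general `q`, block Q-NSYM: one step of the recursion
-/

namespace Vale.Agent.P167.H685.Q

open Finset Vale.Agent.P167 Vale.Agent.P167.FK Vale.Agent.P167.FKA Relation
open Vale.Agent.P167.H558 (StopSet Past)
open Vale.Agent.P167.H192 (ov ov_mem ov_notMem)
open Vale.Agent.P167.H318 (St TA TB Flat PO Lo HB J ex hit Visit CoConn Adj wt mem_RV RV_notMem
  RV_path stopSet_RV past_X1 rv_cf rv_ok st_m RV_sub)

variable {Q : ℝ} {S : St} {ω ω' ξ : Cfg} {u w l' r : ℤ} {D : Finset (ℤ × ℤ)} {e : Ed} {k : ℕ}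
  {ψ ψ' : ℤ → ℝ} {R : Cfg → Finset (ℤ × ℤ)}

theorem PastS.mul {Y Y' : Cfg → ℝ} (h : PastS S R Y) (h' : PastS S R Y') :
    PastS S R (fun ω => Y ω * Y' ω) := fun ω ω' h1 h2 h3 => by
  show Y ω' * Y' ω' = Y ω * Y' ω
  rw [h ω ω' h1 h2 h3, h' ω ω' h1 h2 h3]

theorem pastS_X1 (hS : tlv S.e0 ∉ S.D) (A : Set (ℤ × ℤ)) (hR : ∀ ω, S.RV A ω ⊆ R ω) (f : Ed → ℝ) :
    PastS S R (fun ω => f (S.X1 A ω)) := fun ω ω' _ _ h3 => by
  show f (S.X1 A ω') = f (S.X1 A ω)
  rw [past_X1 hS A ω ω' fun v hv => h3 v (hR ω hv)]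

open Classical in
/-- indicator of a good entrance -/
noncomputable def iz (A : Set (ℤ × ℤ)) (Z : ℤ → Prop) (e : Ed) : ℝ :=
  if hdv e ∈ A ∧ Z (hdv e).1 then 1 else 0

theorem iz_nonneg (A : Set (ℤ × ℤ)) (Z : ℤ → Prop) (e : Ed) : 0 ≤ iz A Z e := by
  unfold iz
  split_ifs <;> norm_num

theorem iz_le_one (A : Set (ℤ × ℤ)) (Z : ℤ → Prop) (e : Ed) : iz A Z e ≤ 1 := by
  unfold iz
  split_ifs <;> norm_num

/-- the decomposition of the weight -/
theorem J_dec (x ρ : ℤ) : J D e ψ k ξ - ψ x * J D e (win x ρ) k ξ =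
    J D e (fun y => (ψ y - ψ x) * win x ρ y) k ξ + J D e (fun y => ψ y * (1 - win x ρ y)) k ξ := by
  have h1 := J_lin (D := D) (e := e) (ψ := fun y => (ψ y - ψ x) * win x ρ y)
    (ψ' := fun y => ψ y * (1 - win x ρ y)) (k := k) (ξ := ξ) 1 1
  have h2 := J_lin (D := D) (e := e) (ψ := ψ) (ψ' := win x ρ) (k := k) (ξ := ξ) 1 (-(ψ x))
  have h3 : (fun y => 1 * ((ψ y - ψ x) * win x ρ y) + 1 * (ψ y * (1 - win x ρ y))) =
      fun y => 1 * ψ y + -(ψ x) * win x ρ y := by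
    funext y
    ring
  rw [h3, h2] at h1
  linarith

/-- **General step**: the observable given a good entrance is `g` times the weight at the entrance. -/
theorem gen (hQ : 0 < Q) {Ce α Cs' : ℝ} {B : ℤ} (hCe : 0 < Ce) (hB : 1 ≤ B) (hE : EscB Q Ce α)
    (hM : SmB Q Cs' B) (hZ : Zone S u w l') (hk : 1 ≤ k) (hBk : B * k ≤ 4 * l')
    (hr : 32 * l' ≤ r) {Z : ℤ → Prop} (hZ1 : ∀ x, Z x → |x - u| + r < w)
    (hψ : ∀ x, |ψ x| ≤ 1) (hs : ∀ x, ψ x ≠ 0 → u - w + B * k ≤ x ∧ x ≤ u + w - B * k)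
    {lam : ℝ} (hlam : 0 < lam) (hm : ∀ x y, Z x → |y - x| ≤ r / 2 → |ψ y - ψ x| ≤ lam)
    {Y : Cfg → ℝ} (hY : PastS S (RC S u w l' r) Y) (hY0 : ∀ ω, 0 ≤ Y ω ∧ Y ω ≤ 1) {g o : ℝ}
    (ho : ∀ (S1 : St) (x : ℤ), TC S1 l' x r → |Dv Q S1 x (r / 2) k - g| ≤ o) :
    |EQ Q S (fun ω => Y ω * iz (Lo u w (4 * l')) Z (S.X1 (Lo u w (4 * l')) ω) *
      (J S.D S.e0 ψ k ω - g * ψ (hdv (S.X1 (Lo u w (4 * l')) ω)).1))| ≤
    o * EQ Q S (fun ω => Y ω * iz (Lo u w (4 * l')) Z (S.X1 (Lo u w (4 * l')) ω)) +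
      (Cs' + 1) / 2 * k * (lam + Real.sqrt (Ce * (((4 * l' - 1 : ℤ) : ℝ) / ((r / 2 - 1 : ℤ) : ℝ)) ^ α)) := by
  have hl1 := hZ.l1
  have hkB : (k : ℤ) ≤ B * k := by
    have : (0 : ℤ) ≤ k := Int.natCast_nonneg k
    nlinarith
  have hk1 : (1 : ℤ) ≤ k := by exact_mod_cast hk
  set A := Lo u w (4 * l') with hA
  set x' : Cfg → ℤ := fun ω => (hdv (S.X1 A ω)).1 with hx'
  set I : Cfg → ℝ := fun ω => iz A Z (S.X1 A ω) with hI
  have hI0 : ∀ ω, 0 ≤ I ω := fun ω => iz_nonneg _ _ _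
  have hI1 : ∀ ω, I ω ≤ 1 := fun ω => iz_le_one _ _ _
  have hIne : ∀ ω, I ω ≠ 0 → hdv (S.X1 A ω) ∈ A ∧ Z (x' ω) := by
    intro ω h
    by_contra hcon
    exact h (if_neg hcon)
  -- decomposition
  have e1 : EQ Q S (fun ω => Y ω * I ω * (J S.D S.e0 ψ k ω - g * ψ (x' ω))) =
      EQ Q S (fun ω => (Y ω * (I ω * ψ (x' ω))) * (J S.D S.e0 (win (x' ω) (r / 2)) k ω - g)) +
      EQ Q S (fun ω => I ω * (Y ω * (J S.D S.e0 ψ k ω -
        ψ (x' ω) * J S.D S.e0 (win (x' ω) (r / 2)) k ω))) := by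
    rw [← EQ_add]
    refine EQ_congr fun ω _ => ?_
    ring
  rw [e1]
  refine (abs_add_le _ _).trans (add_le_add ?_ ?_)
  · -- the near part
    have hP : PastS S (RC S u w l' r) (fun ω => Y ω * (I ω * ψ (x' ω))) := by
      refine hY.mul ?_
      exact pastS_X1 hZ.st A (fun ω => RV_sub_RC) fun e => iz A Z e * ψ (hdv e).1
    have e2 := EQ_stop hQ hZ.gq.good (stop_RC hZ.st u w l' r) (RC_cf u w l' r) hP
      (fun ω => J S.D S.e0 (win (x' ω) (r / 2)) k ω - g)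
    rw [e2]
    refine (EQ_abs hQ _).trans ?_
    rw [← EQ_mul]
    refine EQ_mono hQ fun ω hω => ?_
    have hsub : EQ Q (S.rv (RC S u w l' r ω) ω)
        (fun ω => J S.D S.e0 (win (x' ω) (r / 2)) k ω - g) =
        Dv Q (S.rv (RC S u w l' r ω) ω) (x' ω) (r / 2) k - g := by
      have h1 := EQ_past (R := RC S u w l' r) (Q := Q) hQ hω (Z := x') (fun ω' _ h' => by
        show (hdv (S.X1 A ω')).1 = (hdv (S.X1 A ω)).1
        rw [X1_of_RC hZ.st h']) (fun x ω' => J S.D S.e0 (win x (r / 2)) k ω' - g)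
      rw [h1, EQ_sub, EQ_const hQ]
      rfl
    rw [hsub]
    by_cases h0 : I ω = 0
    · have h0' : iz A Z (S.X1 A ω) = 0 := h0
      rw [h0, h0']
      simp
    · obtain ⟨h1, h2⟩ := hIne ω h0
      have hTC := hZ.tc (ω := ω) (r := r) (by omega) h1 (hZ1 _ h2)
      have h3 := ho _ _ hTC
      rw [abs_mul, abs_mul, abs_mul, abs_of_nonneg (hY0 ω).1, abs_of_nonneg (hI0 ω)]
      have h4 : |ψ (x' ω)| * |Dv Q (S.rv (RC S u w l' r ω) ω) (x' ω) (r / 2) k - g| ≤ o := by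
        calc _ ≤ 1 * |Dv Q (S.rv (RC S u w l' r ω) ω) (x' ω) (r / 2) k - g| :=
              mul_le_mul_of_nonneg_right (hψ _) (abs_nonneg _)
          _ ≤ o := by rw [one_mul]; exact h3
      calc Y ω * (I ω * |ψ (x' ω)|) * |Dv Q (S.rv (RC S u w l' r ω) ω) (x' ω) (r / 2) k - g|
          = (Y ω * I ω) * (|ψ (x' ω)| *
            |Dv Q (S.rv (RC S u w l' r ω) ω) (x' ω) (r / 2) k - g|) := by ring
        _ ≤ (Y ω * I ω) * o := mul_le_mul_of_nonneg_left h4 (mul_nonneg (hY0 ω).1 (hI0 ω))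
        _ = _ := by ring
  · -- the errors
    set K := (Cs' + 1) / 2 * k * (lam + Real.sqrt (Ce *
      (((4 * l' - 1 : ℤ) : ℝ) / ((r / 2 - 1 : ℤ) : ℝ)) ^ α)) with hK
    have h1 : |EQ Q S (fun ω => I ω * (Y ω * (J S.D S.e0 ψ k ω -
        ψ (x' ω) * J S.D S.e0 (win (x' ω) (r / 2)) k ω)))| ≤
        EQ Q S (fun ω => I ω * |J S.D S.e0 ψ k ω -
        ψ (x' ω) * J S.D S.e0 (win (x' ω) (r / 2)) k ω|) := by
      refine (EQ_abs hQ _).trans (EQ_mono hQ fun ω _ => ?_)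
      rw [abs_mul, abs_mul, abs_of_nonneg (hI0 ω), abs_of_nonneg (hY0 ω).1]
      refine mul_le_mul_of_nonneg_left ?_ (hI0 ω)
      calc _ ≤ 1 * |J S.D S.e0 ψ k ω - ψ (x' ω) * J S.D S.e0 (win (x' ω) (r / 2)) k ω| :=
            mul_le_mul_of_nonneg_right (hY0 ω).2 (abs_nonneg _)
        _ = _ := one_mul _
    refine h1.trans ?_
    have e2 := EQ_stop hQ hZ.gq.good (stopSet_RV hZ.st A) (RV_cf A)
      (pastS_X1 hZ.st A (fun ω => Finset.Subset.refl _) fun e => iz A Z e)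
      (fun ω => |J S.D S.e0 ψ k ω - ψ (x' ω) * J S.D S.e0 (win (x' ω) (r / 2)) k ω|)
    refine e2.le.trans ?_
    have hpt : ∀ ω, Cs S ω → iz A Z (S.X1 A ω) * EQ Q (S.rv (S.RV A ω) ω)
        (fun ω => |J S.D S.e0 ψ k ω - ψ (x' ω) * J S.D S.e0 (win (x' ω) (r / 2)) k ω|) ≤ K := by
      intro ω hω
      have hKn : 0 ≤ K := by
        have h2 := abs_int (ψ := fun _ => 0) hQ hM hZ hk hBk hlam (fun x => by
          rw [abs_zero]; exact hlam.le) (fun x hx => absurd rfl hx) ω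
        have h3 : 0 ≤ (Cs' + 1) / 2 * k * lam := le_trans (EQ_nonneg hQ fun _ _ => abs_nonneg _) h2
        have h4 : 0 ≤ (Cs' + 1) / 2 * k := by
          by_contra hcon
          have := mul_neg_of_neg_of_pos (not_le.1 hcon) hlam
          linarith
        exact mul_nonneg h4 (add_nonneg hlam.le (Real.sqrt_nonneg _))
      by_cases h0 : iz A Z (S.X1 A ω) = 0
      · rw [h0, zero_mul]
        exact hKn
      obtain ⟨t1, t2⟩ := hIne ω h0
      have hxw := hZ1 _ t2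
      have hxw' := abs_lt.1 (show |x' ω - u| < w - r by omega)
      have h2 := EQ_past (R := S.RV A) (Q := Q) hQ hω (Z := x') (fun ω' _ h' => by
        show (hdv (S.X1 A ω')).1 = (hdv (S.X1 A ω)).1
        rw [past_X1 hZ.st A ω ω' h']) (fun x ω' => |J S.D S.e0 ψ k ω' -
          ψ x * J S.D S.e0 (win x (r / 2)) k ω'|)
      rw [h2]
      have h3 : EQ Q (S.rv (S.RV A ω) ω) (fun ω' => |J S.D S.e0 ψ k ω' -
          ψ (x' ω) * J S.D S.e0 (win (x' ω) (r / 2)) k ω'|) ≤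
          EQ Q (S.rv (S.RV A ω) ω) (fun ξ =>
            |J S.D S.e0 (fun y => (ψ y - ψ (x' ω)) * win (x' ω) (r / 2) y) k ξ|) +
          EQ Q (S.rv (S.RV A ω) ω) (fun ξ =>
            |J S.D S.e0 (fun y => ψ y * (1 - win (x' ω) (r / 2) y)) k ξ|) := by
        rw [← EQ_add]
        refine EQ_mono hQ fun ξ _ => ?_
        rw [J_dec]
        exact abs_add_le _ _
      have hwin1 : ∀ y, win (x' ω) (r / 2) y ≠ 0 → |y - x' ω| ≤ r / 2 := by
        intro y hy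
        unfold win at hy
        by_contra hcon
        apply hy
        rw [if_neg]
        rintro ⟨h4, h5⟩
        exact hcon (abs_le.2 ⟨by omega, by omega⟩)
      have hwin2 : ∀ y, |y - x' ω| ≤ r / 2 → win (x' ω) (r / 2) y = 1 := by
        intro y hy
        have h4 := abs_le.1 hy
        exact if_pos ⟨by omega, by omega⟩
      have hwin3 : ∀ y, 0 ≤ win (x' ω) (r / 2) y ∧ win (x' ω) (r / 2) y ≤ 1 := by
        intro y
        unfold win
        split_ifs <;> norm_num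
      have h4 := abs_int hQ hM hZ hk hBk hlam
        (ψ := fun y => (ψ y - ψ (x' ω)) * win (x' ω) (r / 2) y) (fun y => by
          by_cases hy : win (x' ω) (r / 2) y = 0
          · rw [hy, mul_zero, abs_zero]
            exact hlam.le
          · rw [hwin2 y (hwin1 y hy), mul_one]
            exact hm _ _ t2 (hwin1 y hy))
        (fun y hy => by
          have h5 := abs_le.1 (hwin1 y fun h => hy (by rw [h, mul_zero]))
          exact ⟨by omega, by omega⟩) ω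
      have h5 := far_int hQ hCe hB hE hM hZ hk hBk (b := x' ω) (r0 := 4 * l' - 1) (R := r / 2 - 1)
        (ψ := fun y => ψ y * (1 - win (x' ω) (r / 2) y)) (by omega) (by omega) (by omega)
        (fun v hv => ⟨by have := hv.1; omega, by have := hv.2.1; omega, hv.2.2.1,
          by have := hv.2.2.2; omega⟩)
        (fun y => by
          rw [abs_mul, abs_of_nonneg (by have := (hwin3 y).2; linarith : 0 ≤ 1 - win (x' ω) (r / 2) y)]
          have h6 := hψ y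
          have h7 := (hwin3 y).1
          have h8 := (hwin3 y).2
          have h9 := abs_nonneg (ψ y)
          nlinarith)
        (fun y hy => hs y fun h => hy (by rw [h, zero_mul]))
        (fun y h6 h7 => by rw [hwin2 y (abs_le.2 ⟨by omega, by omega⟩), sub_self, mul_zero])
        hω ⟨by show x' ω - (4 * l' - 1) ≤ x' ω; omega, by show x' ω ≤ x' ω + (4 * l' - 1); omega,
          t1.2.2.1, by
            have h9 : (hdv (S.X1 A ω)).2 < 4 * l' := t1.2.2.2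
            show (hdv (S.X1 A ω)).2 ≤ 4 * l' - 1
            omega⟩
      have h6 : EQ Q (S.rv (S.RV A ω) ω) (fun ω' => |J S.D S.e0 ψ k ω' -
          ψ (x' ω) * J S.D S.e0 (win (x' ω) (r / 2)) k ω'|) ≤ K := by
        refine h3.trans ((add_le_add h4 h5).trans (le_of_eq ?_))
        rw [hK]
        ring
      calc _ ≤ 1 * EQ Q (S.rv (S.RV A ω) ω) (fun ω' => |J S.D S.e0 ψ k ω' -
          ψ (x' ω) * J S.D S.e0 (win (x' ω) (r / 2)) k ω'|) :=
            mul_le_mul_of_nonneg_right (hI1 ω) (EQ_nonneg hQ fun _ _ => abs_nonneg _)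
        _ ≤ K := by rw [one_mul]; exact h6
    calc _ ≤ EQ Q S (fun _ => K) := EQ_mono hQ hpt
      _ = K := EQ_const hQ K

end Vale.Agent.P167.H685.Q
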