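import Vale.Agent.P167.H685.Q.Rec5

/-!
# P167, general `q`, block Q-NSYM: the recursion
-/

namespace Vale.Agent.P167.H685.Q

open Finset Vale.Agent.P167 Vale.Agent.P167.FK Vale.Agent.P167.FKA Relation
open Vale.Agent.P167.H558 (StopSet Past)
open Vale.Agent.P167.H192 (ov ov_mem ov_notMem)
open Vale.Agent.P167.H318 (St TA TB Flat PO Lo HB J ex hit Visit CoConn Adj wt mem_RV RV_notMem
  RV_path stopSet_RV past_X1 rv_cf rv_ok st_m RV_sub)

variable {Q : ℝ} {S : St} {ω ω' ξ : Cfg} {u w l' r : ℤ} {D : Finset (ℤ × ℤ)} {e : Ed} {k : ℕ}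
  {ψ ψ' : ℤ → ℝ} {R : Cfg → Finset (ℤ × ℤ)}

/-- a bad entrance is an escape -/
theorem bad_visit (hZ : Zone S u w l') (hω : Cs S ω) {b R : ℤ} (hb : |b - u| + R + 1 ≤ w)
    (ht : hdv S.tip ∈ HB b R) (htA : hdv S.tip ∉ Lo u w (4 * l'))
    (h : ¬ (hdv (S.X1 (Lo u w (4 * l')) ω) ∈ Lo u w (4 * l') ∧
      |(hdv (S.X1 (Lo u w (4 * l')) ω)).1 - b| ≤ R)) :
    Visit S.D S.e0 S.m (HB b R)ᶜ ω := by
  have hl1 := hZ.l1
  set A := Lo u w (4 * l') with hA
  have hb' := abs_le.1 (show |b - u| ≤ w - R - 1 by omega)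
  have hX : S.X1 A ω = H318.st S.e0 ω (hit S.D S.e0 A ω) := by
    show H318.st S.e0 (S.cf ω) (hit S.D S.e0 A (S.cf ω)) = _
    rw [hω.cf]
  set n := hit S.D S.e0 A ω with hn
  have hmn : S.m ≤ n := by
    have := m_le_hit (A := A) hZ.st hZ.fr ω
    rwa [hω.cf] at this
  have htip : H318.st S.e0 ω S.m = S.tip := by
    have := st_m (S := S) ω S.m le_rfl
    rw [hω.cf] at this
    exact this
  obtain ⟨-, hHD, -, -⟩ := hZ.hb (b := b) (R := R) (by omega)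
  have hne : S.m ≠ n := by
    intro h1
    rcases H318.Bs.hit_spec hZ.st A ω with h2 | h2
    · rw [← hn, ← h1, htip] at h2
      exact htA h2
    · rw [← hn, ← h1, htip] at h2
      exact h2 (hHD _ ht)
  by_contra hV
  have hin : ∀ j, S.m ≤ j → j < ex S.D S.e0 ω → hdv (H318.st S.e0 ω j) ∈ HB b R := by
    intro j h1 h2
    by_contra hcon
    exact hV ⟨j, h1, h2, hcon⟩
  have hnex : n ≤ ex S.D S.e0 ω := H318.Bs.hit_le_ex hZ.st
  rcases H318.Bs.hit_spec hZ.st A ω with h2 | h2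
  · rw [← hn] at h2
    apply h
    rw [hX]
    refine ⟨h2, ?_⟩
    have h3 : n < ex S.D S.e0 ω := by
      refine lt_of_le_of_ne hnex fun h4 => ?_
      have h5 := H318.Bs.ex_spec hZ.st ω
      rw [← h4] at h5
      exact h5 (hZ.sub' h2)
    have h4 := hin n hmn h3
    exact abs_le.2 ⟨by have := h4.1; omega, by have := h4.2.1; omega⟩
  · rw [← hn] at h2
    have h3 : n - 1 + 1 = n := by omega
    have h4 := hin (n - 1) (by omega) (by omega)
    have h5 := (H318.Bs.hit_min (show n - 1 < hit S.D S.e0 A ω by omega)).1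
    have h6 : tlv (H318.st S.e0 ω n) = hdv (H318.st S.e0 ω (n - 1)) := by
      rw [← H318.Bs.tlv_st, h3]
    rw [← h6] at h4 h5
    apply h2
    refine hZ.flat.mem _ ?_
    obtain ⟨a1, a2, a3, a4⟩ := h4
    have a5 : 4 * l' ≤ (tlv (H318.st S.e0 ω n)).2 := by
      by_contra hcon
      exact h5 ⟨by omega, by omega, a3, not_le.1 hcon⟩
    rcases H704.adj_sq (H318.st S.e0 ω n) with ⟨t, -, ⟨h7, h8⟩ | ⟨h7, h8⟩⟩ |
      ⟨t, -, ⟨h7, h8, -⟩ | ⟨h7, h8⟩⟩
    all_goals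
      rw [h8] at a1 a2 a3 a4 a5
      try dsimp only at a1 a2 a3 a4 a5
      rw [h7]
      refine ⟨?_, ?_, ?_, ?_⟩ <;> (try dsimp only) <;> omega

/-- a state of type `TC` satisfies the hypotheses on the zone -/
theorem TC.zone {l x ρ : ℤ} (h : TC S l x ρ) (h1 : 1 ≤ l') (h2 : l' ≤ l) (h3 : 4 * l' ≤ ρ) :
    Zone S x ρ l' :=
  { toOk := h.toOk
    gq := h.gq
    flat := h.flat'
    fr := fun v hv => h.fresh v ⟨hv.1, hv.2.1, hv.2.2.1, by have := hv.2.2.2; omega⟩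
    po := h.po
    l1 := h1
    lw := h3 }

theorem TC.hdv_tip {l x ρ : ℤ} (h : TC S l x ρ) : hdv S.tip = (x, 4 * l - 1) := by
  rw [h.tip]
  simp [hdv, h.ev]

theorem ratio_le {a b M : ℤ} (hM : 1 ≤ M) (ha : 0 ≤ a) (hb : 1 ≤ b) (h : a * M ≤ 32 * b) {α : ℝ}
    (hα : 0 < α) : ((a : ℝ) / b) ^ α ≤ (32 / (M : ℝ)) ^ α := by
  have hM' : (0 : ℝ) < M := by exact_mod_cast (by omega : 0 < M)
  have hb' : (0 : ℝ) < b := by exact_mod_cast (by omega : 0 < b)
  have ha' : (0 : ℝ) ≤ a := by exact_mod_cast ha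
  refine Real.rpow_le_rpow (by positivity) ?_ hα.le
  rw [div_le_div_iff₀ hb' hM']
  exact_mod_cast h

/-- **One step of the recursion.** -/
theorem step (hQ : 0 < Q) {Ce α Cs' : ℝ} {B : ℤ} (hCe : 0 < Ce) (hα : 0 < α) (hCs : 0 < Cs')
    (hB : 1 ≤ B) (hE : EscB Q Ce α) (hM : SmB Q Cs' B) {M l' : ℤ} (hM4 : 32 ≤ M) (hk : 1 ≤ k)
    (hBk : B * k ≤ 4 * l') {C1 α1 a b c : ℝ} (hc : c ≤ a) (hC1 : 0 ≤ C1)
    (hSucc : ∀ S : St, TC S (M ^ 2 * l') 1 (M ^ 3 * l') → ∃ s : Cfg → ℝ, (∀ ω, 0 ≤ s ω ∧ s ω ≤ 1) ∧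
      PastS S (RC S 1 (M ^ 3 * l') l' (M * l')) s ∧ EQ Q S s = a ∧
      |EQ Q S (fun ω => s ω * J S.D S.e0 (win 1 (M ^ 3 * l' / 2)) k ω) - b| ≤
        C1 * (M : ℝ) ^ (-α1) * k)
    {g o : ℝ} (ho0 : 0 ≤ o)
    (ho : ∀ S1 : St, TC S1 l' 1 (M * l') → |Dv Q S1 1 (M * l' / 2) k - g| ≤ o) (S : St)
    (hS : TC S (M ^ 2 * l') 1 (M ^ 3 * l')) :
    |Dv Q S 1 (M ^ 3 * l' / 2) k - (b + (1 - a) * g)| ≤ (1 - c) * o +
      (C1 * (M : ℝ) ^ (-α1) * k + 3 * ((Cs' + 1) / 2 * k) * Real.sqrt (Ce * (32 / (M : ℝ)) ^ α) +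
        |g| * (Ce * (32 / (M : ℝ)) ^ α)) := by
  have hk1 : (1 : ℤ) ≤ k := by exact_mod_cast hk
  have hkB : (k : ℤ) ≤ B * k := by nlinarith
  have hl1 : 1 ≤ l' := by omega
  have hMR : (0 : ℝ) < M := by exact_mod_cast (by omega : 0 < M)
  set P := Ce * (32 / (M : ℝ)) ^ α with hP
  have hP0 : 0 < P := by positivity
  have hsP : 0 < Real.sqrt P := Real.sqrt_pos.2 hP0
  set l := M ^ 2 * l' with hl
  set ρ := M ^ 3 * l' with hρ
  set r := M * l' with hr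
  have hlM : l = M * r := by rw [hl, hr]; ring
  have hρM : ρ = M * l := by rw [hρ, hl]; ring
  have hr32 : 32 * l' ≤ r := by rw [hr]; nlinarith
  have hl32 : 32 * r ≤ l := by rw [hlM]; nlinarith
  have hρ32 : 32 * l ≤ ρ := by rw [hρM]; nlinarith
  have hZ : Zone S 1 ρ l' := hS.zone hl1 (by omega) (by omega)
  set A := Lo 1 ρ (4 * l') with hA
  obtain ⟨s, hs01, hsP', hsa, hsb⟩ := hSucc S hS
  -- the weights
  have hψ1 : ∀ x, |win 1 (ρ / 2) x| ≤ 1 := by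
    intro x
    unfold win
    split_ifs <;> norm_num
  have hψs : ∀ x, win 1 (ρ / 2) x ≠ 0 → 1 - ρ + B * k ≤ x ∧ x ≤ 1 + ρ - B * k := by
    intro x hx
    unfold win at hx
    have h1 : 1 - ρ / 2 ≤ x ∧ x ≤ 1 + ρ / 2 := by
      by_contra hcon
      exact hx (if_neg hcon)
    omega
  have hψe : ∀ x, |x - 1| ≤ ρ / 2 → win 1 (ρ / 2) x = 1 := by
    intro x hx
    have h1 := abs_le.1 hx
    exact if_pos ⟨by omega, by omega⟩
  -- the new states
  have ho' : ∀ (S1 : St) (x : ℤ), TC S1 l' x r → |Dv Q S1 x (r / 2) k - g| ≤ o := by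
    intro S1 x h1
    obtain ⟨S2, h2, h3⟩ := exists_tr hQ h1 (r / 2) k
    rw [← h3]
    exact ho S2 h2
  have hgen := gen (Y := fun ω => 1 - s ω) (Z := fun x => |x - 1| ≤ ρ / 4) (ψ := win 1 (ρ / 2))
    (lam := Real.sqrt P) hQ hCe hB hE hM hZ hk hBk hr32
    (fun x hx => by omega) hψ1 hψs hsP
    (fun x y hx hy => by
      have h1 := abs_le.1 hy
      have h2 := abs_le.1 hx
      rw [hψe x (abs_le.2 ⟨by omega, by omega⟩), hψe y (abs_le.2 ⟨by omega, by omega⟩), sub_self,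
        abs_zero]
      exact hsP.le)
    (fun ω ω' h1 h2 h3 => by
      show 1 - s ω' = 1 - s ω
      rw [hsP' ω ω' h1 h2 h3])
    (fun ω => ⟨by have := (hs01 ω).2; linarith, by have := (hs01 ω).1; linarith⟩) ho'
  rw [← hA] at hgen
  -- the radius
  have hp1 : Ce * (((4 * l' - 1 : ℤ) : ℝ) / ((r / 2 - 1 : ℤ) : ℝ)) ^ α ≤ P := by
    refine mul_le_mul_of_nonneg_left (ratio_le (by omega) (by omega) (by omega) ?_ hα) hCe.le
    have h1 : (4 * l' - 1) * M = 4 * r - M := by rw [hr]; ring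
    rw [h1]
    omega
  have hp2 : Ce * (((4 * l - 1 : ℤ) : ℝ) / ((ρ / 4 : ℤ) : ℝ)) ^ α ≤ P := by
    refine mul_le_mul_of_nonneg_left (ratio_le (by omega) (by omega) (by omega) ?_ hα) hCe.le
    have h1 : (4 * l - 1) * M = 4 * ρ - M := by rw [hρM]; ring
    rw [h1]
    omega
  set K := (Cs' + 1) / 2 * (k : ℝ) with hK
  have hK0 : 0 ≤ K := by positivity
  set I : Cfg → ℝ := fun ω => iz A (fun x => |x - 1| ≤ ρ / 4) (S.X1 A ω) with hI
  have hI0 : ∀ ω, 0 ≤ I ω := fun ω => iz_nonneg _ _ _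
  have hI1 : ∀ ω, I ω ≤ 1 := fun ω => iz_le_one _ _ _
  set V : Set Cfg := {ξ | Visit S.D S.e0 S.m (HB 1 (ρ / 4))ᶜ ξ} with hV
  -- the first part
  have b1 : |EQ Q S (fun ω => (1 - s ω) * I ω * (J S.D S.e0 (win 1 (ρ / 2)) k ω - g))| ≤
      (1 - c) * o + K * (2 * Real.sqrt P) := by
    have e1 : EQ Q S (fun ω => (1 - s ω) * I ω * (J S.D S.e0 (win 1 (ρ / 2)) k ω - g)) =
        EQ Q S (fun ω => (1 - s ω) * I ω * (J S.D S.e0 (win 1 (ρ / 2)) k ω -
          g * win 1 (ρ / 2) (hdv (S.X1 A ω)).1)) := by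
      refine EQ_congr fun ω _ => ?_
      by_cases h0 : I ω = 0
      · rw [h0]
        ring
      · have h1 : |(hdv (S.X1 A ω)).1 - 1| ≤ ρ / 4 := by
          by_contra hcon
          exact h0 (if_neg fun h => hcon h.2)
        rw [hψe _ (by omega), mul_one]
    rw [e1]
    refine hgen.trans ?_
    have h1 : EQ Q S (fun ω => (1 - s ω) * iz A (fun x => |x - 1| ≤ ρ / 4) (S.X1 A ω)) ≤ 1 - c := by
      calc _ ≤ EQ Q S (fun ω => 1 - s ω) := EQ_mono hQ fun ω _ => by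
            have h2 : 0 ≤ 1 - s ω := by have := (hs01 ω).2; linarith
            calc _ ≤ (1 - s ω) * 1 := mul_le_mul_of_nonneg_left (hI1 ω) h2
              _ = _ := mul_one _
        _ = 1 - a := by rw [EQ_sub, EQ_const hQ, hsa]
        _ ≤ 1 - c := by linarith
    have h2 := mul_le_mul_of_nonneg_left h1 ho0
    have h3 : K * (Real.sqrt P + Real.sqrt (Ce * (((4 * l' - 1 : ℤ) : ℝ) /
        ((r / 2 - 1 : ℤ) : ℝ)) ^ α)) ≤ K * (2 * Real.sqrt P) := by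
      refine mul_le_mul_of_nonneg_left ?_ hK0
      have := Real.sqrt_le_sqrt hp1
      linarith
    calc _ ≤ o * (1 - c) + K * (2 * Real.sqrt P) := add_le_add h2 h3
      _ = _ := by ring
  -- the second part
  have htip := hS.hdv_tip
  have htA : hdv S.tip ∉ A := by
    rw [htip]
    intro h
    have := h.2.2.2
    dsimp only at this
    omega
  have hbad : ∀ ω, Cs S ω → 1 - I ω ≤ V.indicator 1 ω := by
    intro ω hω
    by_cases h : hdv (S.X1 A ω) ∈ A ∧ |(hdv (S.X1 A ω)).1 - 1| ≤ ρ / 4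
    · have h1 : I ω = 1 := if_pos h
      rw [h1, sub_self]
      exact ind_nonneg _ _
    · have h1 : ω ∈ V := bad_visit hZ hω (b := 1) (R := ρ / 4) (by simp; omega)
        (by rw [htip]; exact ⟨by dsimp only; omega, by dsimp only; omega, by dsimp only; omega,
          by dsimp only; omega⟩) htA h
      rw [Set.indicator_of_mem h1]
      have := hI0 ω
      simp only [Pi.one_apply]
      linarith
  obtain ⟨g1, g2, g3, g4⟩ := hZ.hb (b := 1) (R := ρ / 4) (by simp; omega)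
  have hesc : PQ Q S V ≤ P := by
    refine le_trans (hE S 1 (4 * l - 1) (ρ / 4) (by omega) (by omega) hS.toOk g1 g2 g3
      (fun v hv => hS.fresh v ⟨by have := hv.1; omega, by have := hv.2.1; omega, hv.2.2.1,
        by have := hv.2.2.2; omega⟩) g4 (by
          rw [htip]
          exact ⟨by dsimp only; omega, by dsimp only; omega, by dsimp only; omega,
            by dsimp only; omega⟩)) hp2
  have hsm := hM S 1 ρ (4 * l) k (win 1 (ρ / 2)) hk (by omega) hS.toTA hS.gq hψ1 hψs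
  have hcs := cs_bound hQ S (X := fun ω => J S.D S.e0 (win 1 (ρ / 2)) k ω) (κ := (k : ℝ))
    (by exact_mod_cast hk) hP0 hsm hesc
  have b2 : |EQ Q S (fun ω => (1 - s ω) * (1 - I ω) * (J S.D S.e0 (win 1 (ρ / 2)) k ω - g))| ≤
      K * Real.sqrt P + |g| * P := by
    refine (EQ_abs hQ _).trans ?_
    have h1 : EQ Q S (fun ω => |(1 - s ω) * (1 - I ω) * (J S.D S.e0 (win 1 (ρ / 2)) k ω - g)|) ≤
        EQ Q S (fun ω => |J S.D S.e0 (win 1 (ρ / 2)) k ω| * V.indicator 1 ω +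
          |g| * V.indicator 1 ω) := by
      refine EQ_mono hQ fun ω hω => ?_
      have h2 : 0 ≤ 1 - s ω := by have := (hs01 ω).2; linarith
      have h3 : 1 - s ω ≤ 1 := by have := (hs01 ω).1; linarith
      have h4 : 0 ≤ 1 - I ω := by have := hI1 ω; linarith
      rw [abs_mul, abs_mul, abs_of_nonneg h2, abs_of_nonneg h4]
      have h5 : (1 - s ω) * (1 - I ω) ≤ V.indicator 1 ω := by
        calc _ ≤ 1 * (1 - I ω) := mul_le_mul_of_nonneg_right h3 h4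
          _ = 1 - I ω := one_mul _
          _ ≤ _ := hbad ω hω
      have h6 : |J S.D S.e0 (win 1 (ρ / 2)) k ω - g| ≤
          |J S.D S.e0 (win 1 (ρ / 2)) k ω| + |g| := abs_sub _ _
      calc _ ≤ V.indicator 1 ω * (|J S.D S.e0 (win 1 (ρ / 2)) k ω| + |g|) :=
            mul_le_mul h5 h6 (abs_nonneg _) (ind_nonneg _ _)
        _ = _ := by ring
    refine h1.trans ?_
    rw [EQ_add, EQ_mul]
    exact add_le_add hcs (mul_le_mul_of_nonneg_left hesc (abs_nonneg _))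
  -- the sum
  have e1 : Dv Q S 1 (ρ / 2) k - (b + (1 - a) * g) =
      (EQ Q S (fun ω => s ω * J S.D S.e0 (win 1 (ρ / 2)) k ω) - b) +
      EQ Q S (fun ω => (1 - s ω) * I ω * (J S.D S.e0 (win 1 (ρ / 2)) k ω - g)) +
      EQ Q S (fun ω => (1 - s ω) * (1 - I ω) * (J S.D S.e0 (win 1 (ρ / 2)) k ω - g)) := by
    have h1 : Dv Q S 1 (ρ / 2) k =
        EQ Q S (fun ω => s ω * J S.D S.e0 (win 1 (ρ / 2)) k ω) +
        EQ Q S (fun ω => (1 - s ω) * I ω * (J S.D S.e0 (win 1 (ρ / 2)) k ω - g)) +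
        EQ Q S (fun ω => (1 - s ω) * (1 - I ω) * (J S.D S.e0 (win 1 (ρ / 2)) k ω - g)) +
        EQ Q S (fun ω => g * (1 - s ω)) := by
      rw [← EQ_add, ← EQ_add, ← EQ_add]
      refine EQ_congr fun ω _ => ?_
      ring
    have h2 : EQ Q S (fun ω => g * (1 - s ω)) = (1 - a) * g := by
      rw [EQ_mul, EQ_sub, EQ_const hQ, hsa]
      ring
    rw [h1, h2]
    ring
  rw [e1]
  refine (abs_add_le _ _).trans ((add_le_add (abs_add_le _ _) le_rfl).trans ?_)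
  calc _ ≤ C1 * (M : ℝ) ^ (-α1) * k + ((1 - c) * o + K * (2 * Real.sqrt P)) +
        (K * Real.sqrt P + |g| * P) := add_le_add (add_le_add hsb b1) b2
    _ = _ := by ring

end Vale.Agent.P167.H685.Q
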