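import Vale.Agent.P167.H685.Q.Rec6

/-!
# P167, general `q`, block Q-NSYM: universality of the displacement
-/

namespace Vale.Agent.P167.H685.Q

open Finset Vale.Agent.P167 Vale.Agent.P167.FK Vale.Agent.P167.FKA Relation Filter Topology
open Vale.Agent.P167.H558 (StopSet Past)
open Vale.Agent.P167.H318 (St TA TB Flat PO Lo HB J ex hit Visit CoConn Adj wt)

variable {Q : ℝ} {S : St} {ω ω' ξ : Cfg} {u w l' r : ℤ} {k : ℕ}

/-- the error of one step -/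
noncomputable def Er (C1 α1 K0 Ce α x : ℝ) : ℝ :=
  C1 * x ^ (-α1) + 3 * K0 * Real.sqrt (Ce * (32 / x) ^ α) + 3 * K0 * (Ce * (32 / x) ^ α)

theorem tendsto_P {Ce α : ℝ} (hα : 0 < α) :
    Tendsto (fun x : ℝ => Ce * (32 / x) ^ α) atTop (𝓝 0) := by
  have h1 : Tendsto (fun x : ℝ => (32 / x)) atTop (𝓝 0) := tendsto_const_nhds.div_atTop tendsto_id
  have h2 := (h1.rpow_const (p := α) (Or.inr hα.le)).const_mul Ce
  rwa [Real.zero_rpow hα.ne', mul_zero] at h2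

theorem tendsto_Er (C1 : ℝ) {α1 : ℝ} (h1 : 0 < α1) (K0 Ce : ℝ) {α : ℝ} (hα : 0 < α) :
    Tendsto (Er C1 α1 K0 Ce α) atTop (𝓝 0) := by
  have a1 := (tendsto_rpow_neg_atTop h1).const_mul C1
  have a2 := tendsto_P (Ce := Ce) hα
  have a3 := ((Real.continuous_sqrt.tendsto 0).comp a2).const_mul (3 * K0)
  have a4 := a2.const_mul (3 * K0)
  have a5 := (a1.add a3).add a4
  simp only [Real.sqrt_zero, mul_zero, add_zero] at a5
  exact a5

theorem exists_int {f : ℝ → ℝ} (hf : Tendsto f atTop (𝓝 0)) {δ : ℝ} (hδ : 0 < δ) :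
    ∃ M1 : ℤ, ∀ M : ℤ, M1 ≤ M → f M ≤ δ := by
  have h1 : ∀ᶠ M : ℤ in atTop, f M ≤ δ :=
    (hf.comp tendsto_intCast_atTop_atTop).eventually (ge_mem_nhds hδ)
  exact eventually_atTop.1 h1

/-- the a priori bound -/
theorem Dv_bound (hQ : 0 < Q) {Cs' : ℝ} {B : ℤ} (hM : SmB Q Cs' B) (hB : 1 ≤ B) (hk : 1 ≤ k) {l x M : ℤ}
    (hM8 : 16 ≤ M) (hl : 1 ≤ l) (hBk : B * k ≤ 4 * l) (hS : TC S l x (M * l)) :
    |Dv Q S x (M * l / 2) k| ≤ (Cs' + 1) / 2 * k := by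
  have h16 : 16 * l ≤ M * l := by nlinarith
  have hk1 : (1 : ℤ) ≤ k := by exact_mod_cast hk
  have hsm := hM S x (M * l) (4 * l) k (win x (M * l / 2)) hk hBk hS.toTA hS.gq
    (fun y => by
      unfold win
      split_ifs <;> norm_num)
    (fun y hy => by
      unfold win at hy
      have h1 : x - M * l / 2 ≤ y ∧ y ≤ x + M * l / 2 := by
        by_contra hcon
        exact hy (if_neg hcon)
      omega)
  have h1 := abs_bound hQ S (X := fun ω => J S.D S.e0 (win x (M * l / 2)) k ω) (κ := (k : ℝ))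
    (by exact_mod_cast hk) hsm
  exact (EQ_abs hQ _).trans h1

/-- **the recursion** -/
theorem iter (hQ : 0 < Q) {Ce α Cs' : ℝ} {B : ℤ} (hCe : 0 < Ce) (hα : 0 < α) (hCs : 0 < Cs')
    (hB : 1 ≤ B) (hE : EscB Q Ce α) (hM : SmB Q Cs' B) {C1 α1 c : ℝ} {L : ℤ} (hc0 : 0 < c)
    (hc1 : c ≤ 1) (hC1 : 0 ≤ C1) (hL : 1 ≤ L)
    (hSucc : ∀ (M l' : ℤ) (k : ℕ), L ≤ M → 1 ≤ k → L * k ≤ l' → ∃ a b : ℝ, c ≤ a ∧
      ∀ S : St, TC S (M ^ 2 * l') 1 (M ^ 3 * l') → ∃ s : Cfg → ℝ, (∀ ω, 0 ≤ s ω ∧ s ω ≤ 1) ∧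
      PastS S (RC S 1 (M ^ 3 * l') l' (M * l')) s ∧ EQ Q S s = a ∧
      |EQ Q S (fun ω => s ω * J S.D S.e0 (win 1 (M ^ 3 * l' / 2)) k ω) - b| ≤
        C1 * (M : ℝ) ^ (-α1) * k)
    {M : ℤ} (hM4 : 32 ≤ M) (hLM : L ≤ M)
    (hEr : Er C1 α1 ((Cs' + 1) / 2) Ce α M ≤ c * ((Cs' + 1) / 2)) (k : ℕ) (hk : 1 ≤ k) (l0 : ℤ)
    (hL0 : L * k ≤ l0) (hB0 : B * k ≤ 4 * l0) (n : ℕ) :
    ∃ g : ℝ, |g| ≤ 3 * ((Cs' + 1) / 2) * k ∧
      ∀ S : St, TC S (M ^ (2 * n) * l0) 1 (M * (M ^ (2 * n) * l0)) →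
        |Dv Q S 1 (M * (M ^ (2 * n) * l0) / 2) k - g| ≤
          ((1 - c) ^ n * ((Cs' + 1) / 2) + Er C1 α1 ((Cs' + 1) / 2) Ce α M / c) * k := by
  have hk1 : (1 : ℤ) ≤ k := by exact_mod_cast hk
  have hkR : (0 : ℝ) ≤ k := by positivity
  have hl0 : 1 ≤ l0 := by nlinarith
  set K0 := (Cs' + 1) / 2 with hK0
  have hK0p : 0 < K0 := by positivity
  have hMR : (0 : ℝ) < M := by exact_mod_cast (by omega : 0 < M)
  set E := Er C1 α1 K0 Ce α M with hEdef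
  have hE0 : 0 ≤ E := by
    rw [hEdef]
    unfold Er
    positivity
  have hEc : E / c ≤ K0 := by
    rw [div_le_iff₀ hc0]
    linarith
  have hEc0 : 0 ≤ E / c := div_nonneg hE0 hc0.le
  have hcn : ∀ n : ℕ, 0 ≤ (1 - c) ^ n ∧ (1 - c) ^ n ≤ 1 := fun n =>
    ⟨pow_nonneg (by linarith) n, pow_le_one₀ (by linarith) (by linarith)⟩
  have hpow : ∀ n : ℕ, 1 ≤ M ^ (2 * n) := fun n => one_le_pow₀ (by omega)
  have hgrow : ∀ n : ℕ, l0 ≤ M ^ (2 * n) * l0 := fun n => by nlinarith [hpow n]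
  induction n with
  | zero =>
    refine ⟨0, by rw [abs_zero]; positivity, fun S hS => ?_⟩
    rw [sub_zero]
    simp only [mul_zero, pow_zero, one_mul] at hS ⊢
    have h1 := Dv_bound hQ hM hB hk (by omega) hl0 hB0 hS
    refine h1.trans ?_
    have : K0 ≤ K0 + E / c := by linarith
    exact mul_le_mul_of_nonneg_right this hkR
  | succ n ih =>
    obtain ⟨g, hg, ih⟩ := ih
    set l' := M ^ (2 * n) * l0 with hl'
    have hl'0 : l0 ≤ l' := hgrow n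
    obtain ⟨a, b, hca, hS'⟩ := hSucc M l' k hLM hk (by omega)
    have e1 : M ^ (2 * (n + 1)) * l0 = M ^ 2 * l' := by rw [hl']; ring
    have e2 : M * (M ^ (2 * (n + 1)) * l0) = M ^ 3 * l' := by rw [hl']; ring
    rw [e2, e1]
    set o := ((1 - c) ^ n * K0 + E / c) * k with ho
    have ho0 : 0 ≤ o := mul_nonneg (add_nonneg (mul_nonneg (hcn n).1 hK0p.le) hEc0) hkR
    have key : ∀ S : St, TC S (M ^ 2 * l') 1 (M ^ 3 * l') →
        |Dv Q S 1 (M ^ 3 * l' / 2) k - (b + (1 - a) * g)| ≤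
          ((1 - c) ^ (n + 1) * K0 + E / c) * k := by
      intro S hS
      have h1 := step hQ hCe hα hCs hB hE hM hM4 hk (by omega) hca hC1 hS' ho0 ih S hS
      rw [← hK0] at h1
      refine h1.trans ?_
      set P := Ce * (32 / (M : ℝ)) ^ α with hP
      have hP0 : 0 ≤ P := by positivity
      have h2 : |g| * P ≤ 3 * K0 * k * P := mul_le_mul_of_nonneg_right hg hP0
      have h3 : E = C1 * (M : ℝ) ^ (-α1) + 3 * K0 * Real.sqrt P + 3 * K0 * P := rfl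
      have h4 : ((1 - c) ^ (n + 1) * K0 + E / c) * k = (1 - c) * o + E * k := by
        rw [ho, pow_succ]
        field_simp
        ring
      rw [h4, h3]
      have h5 : (C1 * (M : ℝ) ^ (-α1) + 3 * K0 * Real.sqrt P + 3 * K0 * P) * k =
        C1 * (M : ℝ) ^ (-α1) * k + 3 * (K0 * k) * Real.sqrt P + 3 * K0 * k * P := by ring
      rw [h5]
      linarith
    by_cases hne : ∃ S : St, TC S (M ^ 2 * l') 1 (M ^ 3 * l')
    · refine ⟨b + (1 - a) * g, ?_, key⟩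
      obtain ⟨S, hS⟩ := hne
      have h1 := key S hS
      have h2 : |Dv Q S 1 (M ^ 3 * l' / 2) k| ≤ K0 * k := by
        have e3 : M ^ 3 * l' = M * (M ^ 2 * l') := by ring
        have h3 : 1 ≤ M ^ 2 := one_le_pow₀ (by omega)
        have h4 : l' ≤ M ^ 2 * l' := by nlinarith
        rw [e3] at hS ⊢
        exact Dv_bound hQ hM hB hk (by omega) (by omega) (by omega) hS
      have h3 : |b + (1 - a) * g| ≤ |Dv Q S 1 (M ^ 3 * l' / 2) k| +
          |Dv Q S 1 (M ^ 3 * l' / 2) k - (b + (1 - a) * g)| := by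
        have h4 := abs_sub_abs_le_abs_sub (b + (1 - a) * g) (Dv Q S 1 (M ^ 3 * l' / 2) k)
        rw [abs_sub_comm] at h4
        linarith
      have h5 : ((1 - c) ^ (n + 1) * K0 + E / c) * k ≤ (K0 + K0) * k := by
        refine mul_le_mul_of_nonneg_right (add_le_add ?_ hEc) hkR
        calc _ ≤ 1 * K0 := mul_le_mul_of_nonneg_right (hcn (n + 1)).2 hK0p.le
          _ = K0 := one_mul _
      calc _ ≤ K0 * k + (K0 + K0) * k := h3.trans (add_le_add h2 (h1.trans h5))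
        _ = _ := by ring
    · exact ⟨0, by rw [abs_zero]; positivity, fun S hS => absurd ⟨S, hS⟩ hne⟩

/-- **universality of the displacement** -/
theorem univ (hQ : 0 < Q) (h1 : SUCCA Q) {Ce α Cs' : ℝ} {B : ℤ} (hCe : 0 < Ce) (hα : 0 < α)
    (hCs : 0 < Cs') (hB : 1 ≤ B) (hE : EscB Q Ce α) (hM : SmB Q Cs' B) {ε : ℝ} (hε : 0 < ε)
    (M0 : ℤ) : ∃ M Λ : ℤ, M0 ≤ M ∧ 32 ≤ M ∧ B ≤ Λ ∧ ∀ k : ℕ, 1 ≤ k → ∃ g : ℝ,
      |g| ≤ 3 * ((Cs' + 1) / 2) * k ∧ ∀ (S : St) (x : ℤ), TC S (Λ * k) x (M * (Λ * k)) →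
        |Dv Q S x (M * (Λ * k) / 2) k - g| ≤ ε * k := by
  obtain ⟨c', C1, α1, L, hc', hC1, hα1, hL, hS⟩ := h1
  set c := min c' (1 / 2) with hc
  have hc0 : 0 < c := lt_min hc' (by norm_num)
  have hc1 : c ≤ 1 / 2 := min_le_right _ _
  set K0 := (Cs' + 1) / 2 with hK0
  have hK0p : 0 < K0 := by positivity
  obtain ⟨M1, hM1⟩ := exists_int (tendsto_Er C1 hα1 K0 Ce hα)
    (δ := min (c * K0) (c * (ε / 2))) (lt_min (by positivity) (by positivity))
  set M := max (max M0 32) (max L M1) with hMdef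
  have hMM1 : M1 ≤ M := le_max_of_le_right (le_max_right _ _)
  have hML : L ≤ M := le_max_of_le_right (le_max_left _ _)
  have hMM0 : M0 ≤ M := le_max_of_le_left (le_max_left _ _)
  have hM32 : 32 ≤ M := le_max_of_le_left (le_max_right _ _)
  have hEr := hM1 M hMM1
  obtain ⟨n, hn⟩ := exists_pow_lt_of_lt_one (show 0 < ε / 2 / K0 by positivity)
    (show 1 - c < 1 by linarith)
  have hpow : 1 ≤ M ^ (2 * n) := one_le_pow₀ (by omega)
  refine ⟨M, M ^ (2 * n) * max L B, hMM0, hM32, ?_, fun k hk => ?_⟩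
  · have h2 : B ≤ max L B := le_max_right _ _
    nlinarith
  · have hk1 : (1 : ℤ) ≤ k := by exact_mod_cast hk
    have h3 : L * k ≤ max L B * k := mul_le_mul_of_nonneg_right (le_max_left _ _) (by omega)
    have h4 : B * k ≤ max L B * k := mul_le_mul_of_nonneg_right (le_max_right _ _) (by omega)
    have h5 : 0 ≤ B * k := by positivity
    obtain ⟨g, hg, h⟩ := iter hQ hCe hα hCs hB hE hM hc0 (by linarith) hC1.le hL
      (fun M l' k a1 a2 a3 => by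
        obtain ⟨a, b, h6, h7⟩ := hS M l' k a1 a2 a3
        exact ⟨a, b, (min_le_left _ _).trans h6, h7⟩) hM32 hML (hEr.trans (min_le_left _ _)) k hk
      (max L B * k) h3 (by omega) n
    refine ⟨g, hg, fun S x hSx => ?_⟩
    rw [show M ^ (2 * n) * max L B * (k : ℤ) = M ^ (2 * n) * (max L B * k) by ring] at hSx ⊢
    obtain ⟨S2, h6, h7⟩ := exists_tr hQ hSx (M * (M ^ (2 * n) * (max L B * k)) / 2) k
    rw [← h7]
    refine (h S2 h6).trans (mul_le_mul_of_nonneg_right ?_ (by positivity))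
    have h8 : Er C1 α1 K0 Ce α M / c ≤ ε / 2 := by
      rw [div_le_iff₀ hc0]
      calc _ ≤ c * (ε / 2) := hEr.trans (min_le_right _ _)
        _ = _ := by ring
    have h9 : (1 - c) ^ n * K0 ≤ ε / 2 := by
      rw [← le_div_iff₀ hK0p]
      exact hn.le
    rw [← hK0]
    linarith

end Vale.Agent.P167.H685.Q
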