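import Vale.Agent.P167.H685.Q.Rec7

/-!
# P167, general `q`, block Q-NSYM: the landing point
-/

namespace Vale.Agent.P167.H685.Q

open Finset Vale.Agent.P167 Vale.Agent.P167.FK Vale.Agent.P167.FKA Relation
open Vale.Agent.P167.H558 (StopSet Past)
open Vale.Agent.P167.H318 (St TA TB Flat PO Lo HB J ex hit Visit CoConn Adj wt mem_RV RV_notMem
  RV_path stopSet_RV past_X1 rv_cf rv_ok st_m RV_sub)
open Vale.Agent.P167.H365.NQ (SYMQ SymQE)

variable {Q : ℝ} {S : St} {ω ω' ξ : Cfg} {u w l' r : ℤ} {D : Finset (ℤ × ℤ)} {e : Ed} {k : ℕ}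
  {ψ ψ' : ℤ → ℝ}

/-- the local hypotheses at the half box `(b, R)` -/
structure Hb (S : St) (b R : ℤ) : Prop where
  gq : Gq S b R
  mem : ∀ v ∈ HB b R, v ∈ S.D
  not : ∀ x, b - R ≤ x → x ≤ b + R → (x, (-1 : ℤ)) ∉ S.D
  po : PO S (HB b R)

theorem Zone.Hb (hZ : Zone S u w l') {b R : ℤ} (h : |b - u| + R ≤ w) : Hb S b R :=
  let ⟨h1, h2, h3, h4⟩ := hZ.hb h
  ⟨h1, h2, h3, h4⟩

/-- probability of the escape of the intermediate state -/
theorem esc_Hb {C α : ℝ} (hE : EscB Q C α) (hZ : Zone S u w l') {b r0 R : ℤ} (h1 : 1 ≤ r0)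
    (h2 : r0 ≤ R) (hH : Hb S b R) (hr : ∀ v ∈ HB b r0, v ∈ Lo u w (4 * l')) (hω : Cs S ω)
    (ht : hdv (S.X1 (Lo u w (4 * l')) ω) ∈ HB b r0) :
    PQ Q (S.rv (S.RV (Lo u w (4 * l')) ω) ω)
      {ξ | Visit S.D S.e0 (hit S.D S.e0 (Lo u w (4 * l')) ω) (HB b R)ᶜ ξ} ≤
      C * ((r0 : ℝ) / R) ^ α := by
  have h := esc_int (Q := Q) hE hZ.toOk hZ.fr h1 h2 hH.gq hH.mem hH.not hH.po hr ht
  rwa [hω.cf] at h

/-- the far part of the observable -/
theorem far_Hb (hQ : 0 < Q) {Ce α Cs' : ℝ} {B : ℤ} (hCe : 0 < Ce) (hB : 1 ≤ B) (hE : EscB Q Ce α)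
    (hM : SmB Q Cs' B) (hZ : Zone S u w l') (hk : 1 ≤ k) (hBk : B * k ≤ 4 * l') {b r0 R : ℤ}
    (h1 : 1 ≤ r0) (h2 : r0 ≤ R) (hH : Hb S b R)
    (hr : ∀ v ∈ HB b r0, v ∈ Lo u w (4 * l'))
    (hψ : ∀ x, |ψ x| ≤ 1) (hs : ∀ x, ψ x ≠ 0 → u - w + B * k ≤ x ∧ x ≤ u + w - B * k)
    (hoff : ∀ x, b - R ≤ x → x ≤ b + R + 1 → ψ x = 0) (hω : Cs S ω)
    (ht : hdv (S.X1 (Lo u w (4 * l')) ω) ∈ HB b r0) :
    EQ Q (S.rv (S.RV (Lo u w (4 * l')) ω) ω) (fun ξ => |J S.D S.e0 ψ k ξ|) ≤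
      (Cs' + 1) / 2 * k * Real.sqrt (Ce * ((r0 : ℝ) / R) ^ α) := by
  have hkB : (k : ℤ) ≤ B * k := by
    have : (0 : ℤ) ≤ k := Int.natCast_nonneg k
    nlinarith
  have hk1 : (1 : ℤ) ≤ k := by exact_mod_cast hk
  have hesc := esc_Hb (Q := Q) hE hZ h1 h2 hH hr hω ht
  set A := Lo u w (4 * l') with hA
  set S' := S.rv (S.RV A ω) ω with hS'
  have hsm := hM S' u w (4 * l') k ψ hk hBk (hZ.ta ω) (gq_rv hZ.gq _ ω) hψ hs
  have hp : 0 < Ce * ((r0 : ℝ) / R) ^ α := by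
    have h3 : (0 : ℝ) < r0 := by exact_mod_cast (by omega : 0 < r0)
    have h4 : (0 : ℝ) < R := by exact_mod_cast (by omega : 0 < R)
    positivity
  have hcs := cs_bound hQ S' (X := fun ξ => J S.D S.e0 ψ k ξ) (κ := (k : ℝ))
    (by exact_mod_cast hk) hp hsm hesc
  refine le_trans (EQ_mono hQ fun ξ hξ => ?_) hcs
  by_cases hV : Visit S.D S.e0 (hit S.D S.e0 A ω) (HB b R)ᶜ ξ
  · rw [Set.indicator_of_mem (show ξ ∈ {ξ | Visit S.D S.e0 (hit S.D S.e0 A ω) (HB b R)ᶜ ξ}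
      from hV)]
    simp
  · obtain ⟨p1, p2, p3⟩ := int_path hZ.st hω hξ
    have h0 : J S.D S.e0 ψ k ξ = 0 := by
      refine J_off (h := 4 * l') (u := u) (w := w) (fun i hi => ?_) (by omega)
        (fun x hx => ?_) hV hoff
      · rw [← p3] at hi
        exact (H318.Bs.hit_min hi).1
      · have h3 := hs x hx
        exact ⟨by omega, by omega⟩
    have h3 : |J S.D S.e0 ψ k ξ| = 0 := by rw [h0, abs_zero]
    rw [h3, zero_mul]

/-- **the landing point**: if the strand does not leave the half box, it lands in it -/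
theorem foot (hS : tlv S.e0 ∉ S.D) {n : ℕ} (hn : n < ex S.D S.e0 ξ) {b R : ℤ}
    (hV : ¬ Visit S.D S.e0 n (HB b R)ᶜ ξ)
    (hD : ∀ v : ℤ × ℤ, b - R - 1 ≤ v.1 → v.1 ≤ b + R + 1 → 0 ≤ v.2 → v.2 ≤ R + 1 → v ∈ S.D) :
    ∃ y, |y - b| ≤ R ∧ H318.st S.e0 ξ (ex S.D S.e0 ξ) = Sum.inr (y, -1) := by
  set N := ex S.D S.e0 ξ with hN
  have h3 : N - 1 + 1 = N := by omega
  have h1 : hdv (H318.st S.e0 ξ (N - 1)) ∈ HB b R := by
    by_contra hcon
    exact hV ⟨N - 1, by omega, by omega, hcon⟩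
  have h6 : tlv (H318.st S.e0 ξ N) = hdv (H318.st S.e0 ξ (N - 1)) := by
    rw [← H318.Bs.tlv_st, h3]
  rw [← h6] at h1
  have h2 := H318.Bs.ex_spec hS ξ
  rw [← hN] at h2
  obtain ⟨a1, a2, a3, a4⟩ := h1
  rcases H704.adj_sq (H318.st S.e0 ξ N) with ⟨t, ht, ⟨h7, h8⟩ | ⟨h7, h8⟩⟩ |
    ⟨t, ht, ⟨h7, h8, -⟩ | ⟨h7, h8⟩⟩
  · exfalso
    rw [h8] at a1 a2 a3 a4
    dsimp only at a1 a2 a3 a4
    apply h2
    rw [h7]
    exact hD _ (by omega) (by omega) (by omega) (by omega)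
  · exfalso
    rw [h8] at a1 a2 a3 a4
    apply h2
    rw [h7]
    exact hD _ (by dsimp only; omega) (by dsimp only; omega) (by dsimp only; omega)
      (by dsimp only; omega)
  · rw [h8] at a1 a2 a3 a4
    dsimp only at a1 a2 a3 a4
    have h9 : t.2 = -1 := by
      by_contra hne
      apply h2
      rw [h7]
      exact hD _ (by omega) (by omega) (by omega) (by omega)
    refine ⟨t.1, abs_le.2 ⟨by omega, by omega⟩, ?_⟩
    rw [ht, ← h9]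
  · exfalso
    rw [h8] at a1 a2 a3 a4
    apply h2
    rw [h7]
    exact hD _ (by dsimp only; omega) (by dsimp only; omega) (by dsimp only; omega)
      (by dsimp only; omega)

theorem wf_le (hψ : ∀ x, |ψ x| ≤ 1) (e : Ed) : |H365.NQ.wf ψ e| ≤ 1 := by
  rcases e with v | v
  · show |(0 : ℝ)| ≤ 1
    rw [abs_zero]
    exact zero_le_one
  · show |if v.2 = -1 then ψ v.1 else (0 : ℝ)| ≤ 1
    split_ifs
    · exact hψ _
    · rw [abs_zero]
      exact zero_le_one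

/-- **the landing point of the intermediate state** -/
theorem foot_int (hQ : 0 < Q) {C α : ℝ} (hE : EscB Q C α) (hZ : Zone S u w l') {b r0 R : ℤ}
    (h1 : 1 ≤ r0) (h2 : r0 ≤ R) (hH : Hb S b R) (hr : ∀ v ∈ HB b r0, v ∈ Lo u w (4 * l'))
    (hD : ∀ v : ℤ × ℤ, b - R - 1 ≤ v.1 → v.1 ≤ b + R + 1 → 0 ≤ v.2 → v.2 ≤ R + 1 → v ∈ S.D)
    (hω : Cs S ω) (ht : hdv (S.X1 (Lo u w (4 * l')) ω) ∈ HB b r0) (hψ : ∀ x, |ψ x| ≤ 1) {a lam : ℝ}
    (ha : |a| ≤ 1) (hlam : 0 ≤ lam) (hm : ∀ y, |y - b| ≤ R → |a - ψ y| ≤ lam) :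
    EQ Q (S.rv (S.RV (Lo u w (4 * l')) ω) ω)
      (fun ξ => |a - H365.NQ.wf ψ (H318.st S.e0 ξ (ex S.D S.e0 ξ))|) ≤
      lam + 2 * (C * ((r0 : ℝ) / R) ^ α) := by
  have hesc := esc_Hb (Q := Q) hE hZ h1 h2 hH hr hω ht
  set A := Lo u w (4 * l') with hA
  set V : Set Cfg := {ξ | Visit S.D S.e0 (hit S.D S.e0 A ω) (HB b R)ᶜ ξ} with hV
  have h3 : EQ Q (S.rv (S.RV A ω) ω)
      (fun ξ => |a - H365.NQ.wf ψ (H318.st S.e0 ξ (ex S.D S.e0 ξ))|) ≤
      EQ Q (S.rv (S.RV A ω) ω) (fun ξ => lam + 2 * V.indicator 1 ξ) := by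
    refine EQ_mono hQ fun ξ hξ => ?_
    by_cases hξV : ξ ∈ V
    · rw [Set.indicator_of_mem hξV]
      have h4 := abs_sub a (H365.NQ.wf ψ (H318.st S.e0 ξ (ex S.D S.e0 ξ)))
      have h5 := wf_le hψ (H318.st S.e0 ξ (ex S.D S.e0 ξ))
      simp only [Pi.one_apply]
      linarith
    · rw [Set.indicator_of_notMem hξV]
      obtain ⟨p1, p2, p3⟩ := int_path hZ.st hω hξ
      have hX : S.X1 A ω = H318.st S.e0 ω (hit S.D S.e0 A ω) := by
        show H318.st S.e0 (S.cf ω) (hit S.D S.e0 A (S.cf ω)) = _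
        rw [hω.cf]
      have h4 : hit S.D S.e0 A ω < ex S.D S.e0 ξ := by
        rw [← p3]
        refine lt_of_le_of_ne (H318.Bs.hit_le_ex hZ.st) fun h5 => ?_
        have h6 := H318.Bs.ex_spec hZ.st ξ
        rw [← h5, p3, p2 _ le_rfl, ← hX] at h6
        exact h6 (hZ.sub' (hr _ ht))
      obtain ⟨y, hy1, hy2⟩ := foot hZ.st h4 hξV hD
      rw [hy2]
      have h5 : H365.NQ.wf ψ (Sum.inr (y, -1)) = ψ y := by
        show (if (-1 : ℤ) = -1 then ψ y else (0 : ℝ)) = ψ y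
        rw [if_pos rfl]
      rw [h5]
      have := hm y hy1
      linarith
  refine h3.trans ?_
  rw [EQ_add, EQ_const hQ, EQ_mul]
  exact add_le_add le_rfl (mul_le_mul_of_nonneg_left hesc (by norm_num))

/-- a strand which does not enter the zone does not land in the window -/
theorem no_foot (hZ : Zone S u w l') (hω : Cs S ω)
    (hX : hdv (S.X1 (Lo u w (4 * l')) ω) ∉ Lo u w (4 * l'))
    (hψ : ∀ x, ψ x ≠ 0 → u - w ≤ x ∧ x ≤ u + w) :
    H365.NQ.wf ψ (H318.st S.e0 ω (ex S.D S.e0 ω)) = 0 := by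
  have hl1 := hZ.l1
  set A := Lo u w (4 * l') with hA
  have hX' : S.X1 A ω = H318.st S.e0 ω (hit S.D S.e0 A ω) := by
    show H318.st S.e0 (S.cf ω) (hit S.D S.e0 A (S.cf ω)) = _
    rw [hω.cf]
  rw [hX'] at hX
  set n := hit S.D S.e0 A ω with hn
  have hnD : hdv (H318.st S.e0 ω n) ∉ S.D := by
    rcases H318.Bs.hit_spec hZ.st A ω with h | h
    · exact absurd h hX
    · exact h
  have hne : ex S.D S.e0 ω = n :=
    le_antisymm (H318.Bs.ex_le hnD) (H318.Bs.hit_le_ex hZ.st)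
  rw [hne]
  have htl : tlv (H318.st S.e0 ω n) ∉ A := by
    rcases Nat.eq_zero_or_pos n with h0 | h0
    · rw [h0]
      exact fun h => hZ.st (hZ.sub' h)
    · have h1 := (H318.Bs.hit_min (show n - 1 < hit S.D S.e0 A ω by omega)).1
      rwa [← H318.Bs.tlv_st, show n - 1 + 1 = n by omega] at h1
  by_contra hcon
  rcases hst : H318.st S.e0 ω n with v | v
  · rw [hst] at hcon
    exact hcon rfl
  · rw [hst] at hcon
    have h1 : v.2 = -1 := by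
      by_contra h2
      exact hcon (if_neg h2)
    have h2 : ψ v.1 ≠ 0 := by
      intro h3
      apply hcon
      show (if v.2 = -1 then ψ v.1 else (0 : ℝ)) = 0
      rw [h3, ite_self]
    obtain ⟨h3, h4⟩ := hψ _ h2
    have h5 : ((v.1, v.2 + 1) : ℤ × ℤ) ∈ A := ⟨h3, h4, by dsimp only; omega, by dsimp only; omega⟩
    rcases H704.adj_sq (H318.st S.e0 ω n) with ⟨t, ht, -⟩ | ⟨t, ht, ⟨h7, h8, -⟩ | ⟨h7, h8⟩⟩
    · rw [hst] at ht
      cases ht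
    · rw [hst] at ht
      obtain rfl : v = t := Sum.inr_injective ht
      rw [h8] at htl
      exact htl h5
    · rw [hst] at ht
      obtain rfl : v = t := Sum.inr_injective ht
      rw [h7] at hnD
      exact hnD (hZ.sub' h5)

/-- a strand which does not enter the zone has no displacement -/
theorem no_J (hZ : Zone S u w l') (hω : Cs S ω) (hk : (k : ℤ) ≤ 4 * l')
    (hX : hdv (S.X1 (Lo u w (4 * l')) ω) ∉ Lo u w (4 * l'))
    (hψ : ∀ x, ψ x ≠ 0 → u - w + 1 ≤ x ∧ x ≤ u + w) : J S.D S.e0 ψ k ω = 0 := by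
  set A := Lo u w (4 * l') with hA
  have hX' : S.X1 A ω = H318.st S.e0 ω (hit S.D S.e0 A ω) := by
    show H318.st S.e0 (S.cf ω) (hit S.D S.e0 A (S.cf ω)) = _
    rw [hω.cf]
  rw [hX'] at hX
  have hnD : hdv (H318.st S.e0 ω (hit S.D S.e0 A ω)) ∉ S.D := by
    rcases H318.Bs.hit_spec hZ.st A ω with h | h
    · exact absurd h hX
    · exact h
  have hne : ex S.D S.e0 ω ≤ hit S.D S.e0 A ω := H318.Bs.ex_le hnD
  refine Finset.sum_eq_zero fun i hi => ?_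
  rw [Finset.mem_range] at hi
  exact H704.wt_low hk hψ (H318.Bs.hit_min (lt_of_lt_of_le hi hne)).1

end Vale.Agent.P167.H685.Q
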